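import Vale.Agent.P133.MathlibUsed
import Vale.Agent.P133.SDefs

set_option linter.all false

section

namespace Vale.Agent.P133.Statement

universe u

variable {A : Type u} [NonUnitalCStarAlgebra A] [PartialOrder A] [StarOrderedRing A]

omit [PartialOrder A] [StarOrderedRing A] in
theorem pad_apply {k : ℕ} (n : ℕ) (M : CStarMatrix (Fin k) (Fin k) A) (i j : Fin (k + n)) :
    pad n M i j = if h : (i : ℕ) < k ∧ (j : ℕ) < k then M ⟨i, h.1⟩ ⟨j, h.2⟩ else 0 := rfl

/-- elementwise form of pure infiniteness -/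
theorem elementwise (hA : PurelyInfinite A) (h : A) (h0 : 0 ≤ h) (ε : ℝ) (hε : 0 < ε) :
    ∃ x y : A, ‖star x * h * x - h‖ < ε ∧ ‖star y * h * y - h‖ < ε ∧
      ‖star x * h * y‖ < ε := by
  obtain ⟨n, X, hX⟩ := hA h h0 ε hε
  set V := pad n (CStarMatrix.ofMatrix !![h, 0; 0, 0]) with hV
  set U := pad n (CStarMatrix.ofMatrix !![h, 0; 0, h]) with hU
  have z0 : (0 : ℕ) < 2 + n := by omega
  have z1 : (1 : ℕ) < 2 + n := by omega
  let i0 : Fin (2 + n) := ⟨0, z0⟩
  let i1 : Fin (2 + n) := ⟨1, z1⟩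
  have hVe : ∀ i j : Fin (2 + n), V i j = if i = i0 ∧ j = i0 then h else 0 := by
    intro i j
    obtain ⟨i, hi⟩ := i
    obtain ⟨j, hj⟩ := j
    rw [hV, pad_apply]
    simp only [i0, Fin.mk.injEq]
    by_cases hij : i < 2 ∧ j < 2
    · rw [dif_pos hij]
      obtain ⟨h1, h2⟩ := hij
      interval_cases i <;> interval_cases j <;> simp
    · rw [dif_neg hij, if_neg (by omega)]
  have key : ∀ i j : Fin (2 + n), (star X * V * X) i j = star (X i0 i) * h * X i0 j := by
    intro i j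
    rw [CStarMatrix.mul_apply]
    rw [Finset.sum_eq_single i0]
    · congr 1
      rw [CStarMatrix.mul_apply, Finset.sum_eq_single i0]
      · rw [hVe, if_pos ⟨rfl, rfl⟩, CStarMatrix.star_apply]
      · intro b _ hb
        rw [hVe, if_neg (by (clear * - hb; tauto)), mul_zero]
      · intro hb
        exact absurd (Finset.mem_univ _) hb
    · intro b _ hb
      have : (star X * V) i b = 0 := by
        rw [CStarMatrix.mul_apply]
        refine Finset.sum_eq_zero (fun k _ => ?_)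
        rw [hVe, if_neg (by (clear * - hb; tauto)), mul_zero]
      rw [this, zero_mul]
    · intro hb
      exact absurd (Finset.mem_univ _) hb
  have ent : ∀ i j : Fin (2 + n), ‖star (X i0 i) * h * X i0 j - U i j‖ < ε := by
    intro i j
    refine lt_of_le_of_lt ?_ hX
    have h1 := CStarMatrix.norm_entry_le_norm (M := star X * V * X - U) (i := i) (j := j)
    rwa [CStarMatrix.sub_apply, key] at h1
  have u00 : U i0 i0 = h := by
    rw [hU, pad_apply, dif_pos ⟨by simp [i0], by simp only [Order.lt_two_iff, zero_le, i0]⟩]; rfl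
  have u11 : U i1 i1 = h := by
    rw [hU, pad_apply, dif_pos ⟨by simp [i1], by simp [i1]⟩]; rfl
  have u01 : U i0 i1 = 0 := by
    rw [hU, pad_apply, dif_pos ⟨by simp [i0], by simp [i1]⟩]; rfl
  refine ⟨X i0 i0, X i0 i1, ?_, ?_, ?_⟩
  · simpa only [u00] using ent i0 i0
  · simpa only [u11] using ent i1 i1
  · simpa only [u01, sub_zero] using ent i0 i1

end Vale.Agent.P133.Statement
end

section

namespace Vale.Agent.P133.Statement

universe u

variable {A : Type u} [NonUnitalCStarAlgebra A] [PartialOrder A] [StarOrderedRing A]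

open CStarMatrix WithCStarModule in
theorem norm_le_sum {m n : Type*} [Fintype m] [Fintype n] (M : CStarMatrix m n A) :
    ‖M‖ ≤ ∑ j, ∑ i, ‖M i j‖ := by
  rw [norm_def]
  refine (toCLM M).opNorm_le_bound (by positivity) fun v => ?_
  simp only [toCLM_apply_eq_sum, Finset.sum_mul]
  apply pi_norm_le_sum_norm _ |>.trans
  gcongr with i _
  apply norm_sum_le _ _ |>.trans
  gcongr with j _
  apply norm_mul_le _ _ |>.trans
  rw [mul_comm]
  gcongr
  exact norm_apply_le_norm v j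

/-- the easy converse: strongly purely infinite algebras are purely infinite -/
theorem pi_of_spi (hA : StronglyPurelyInfinite A) : PurelyInfinite A := by
  intro h h0 ε hε
  have hr0 : 0 ≤ CFC.sqrt h := CFC.sqrt_nonneg h
  have hr : CFC.sqrt h * CFC.sqrt h = h := CFC.sqrt_mul_sqrt_self h
  obtain ⟨s, t, h1, h2, h3⟩ := hA (CFC.sqrt h) (CFC.sqrt h) hr0 hr0 (ε / 8) (by positivity)
  rw [hr] at h1 h2 h3
  have h4 : ‖star t * h * s‖ < ε / 8 := by
    have : star (star s * h * t) = star t * h * s := by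
      rw [star_mul, star_mul, star_star, (IsSelfAdjoint.of_nonneg h0).star_eq, mul_assoc]
    rw [← this, norm_star]
    exact h3
  refine ⟨0, CStarMatrix.ofMatrix !![s, t; 0, 0], ?_⟩
  set X : CStarMatrix (Fin (2 + 0)) (Fin (2 + 0)) A := CStarMatrix.ofMatrix !![s, t; 0, 0] with hX
  have e : ∀ i j : Fin 2, ‖(star X * pad 0 (CStarMatrix.ofMatrix !![h, 0; 0, 0]) * X -
      pad 0 (CStarMatrix.ofMatrix !![h, 0; 0, h])) i j‖ ≤ ε / 8 := by
    have key : ∀ i j : Fin 2, (star X * pad 0 (CStarMatrix.ofMatrix !![h, 0; 0, 0]) * X) i j =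
        star (X 0 i) * h * X 0 j := by
      intro i j
      rw [CStarMatrix.mul_apply, Fin.sum_univ_two, CStarMatrix.mul_apply, Fin.sum_univ_two,
        CStarMatrix.mul_apply, Fin.sum_univ_two]
      have a00 : (pad 0 (CStarMatrix.ofMatrix !![h, 0; 0, 0]) :
        CStarMatrix (Fin (2 + 0)) (Fin (2 + 0)) A) 0 0 = h := rfl
      have a10 : (pad 0 (CStarMatrix.ofMatrix !![h, 0; 0, 0]) :
        CStarMatrix (Fin (2 + 0)) (Fin (2 + 0)) A) 1 0 = 0 := rfl
      have a01 : (pad 0 (CStarMatrix.ofMatrix !![h, 0; 0, 0]) :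
        CStarMatrix (Fin (2 + 0)) (Fin (2 + 0)) A) 0 1 = 0 := rfl
      have a11 : (pad 0 (CStarMatrix.ofMatrix !![h, 0; 0, 0]) :
        CStarMatrix (Fin (2 + 0)) (Fin (2 + 0)) A) 1 1 = 0 := rfl
      rw [a00, a10, a01, a11]
      simp only [mul_zero, add_zero, zero_mul, CStarMatrix.star_apply]
    intro i j
    rw [CStarMatrix.sub_apply, key]
    fin_cases i <;> fin_cases j
    · exact h1.le
    · have : star (X 0 0) * h * X 0 1 - (pad 0 (CStarMatrix.ofMatrix !![h, 0; 0, h]) :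
        CStarMatrix (Fin (2 + 0)) (Fin (2 + 0)) A) 0 1 = star s * h * t - 0 := rfl
      show ‖star (X 0 0) * h * X 0 1 - (pad 0 (CStarMatrix.ofMatrix !![h, 0; 0, h]) :
        CStarMatrix (Fin (2 + 0)) (Fin (2 + 0)) A) 0 1‖ ≤ ε / 8
      rw [this, sub_zero]
      exact h3.le
    · have : star (X 0 1) * h * X 0 0 - (pad 0 (CStarMatrix.ofMatrix !![h, 0; 0, h]) :
        CStarMatrix (Fin (2 + 0)) (Fin (2 + 0)) A) 1 0 = star t * h * s - 0 := rfl
      show ‖star (X 0 1) * h * X 0 0 - (pad 0 (CStarMatrix.ofMatrix !![h, 0; 0, h]) :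
        CStarMatrix (Fin (2 + 0)) (Fin (2 + 0)) A) 1 0‖ ≤ ε / 8
      rw [this, sub_zero]
      exact h4.le
    · exact h2.le
  refine lt_of_le_of_lt (norm_le_sum _) ?_
  have e' := Finset.sum_le_sum (s := Finset.univ) (fun (j : Fin 2) _ =>
    Finset.sum_le_sum (s := Finset.univ) (fun (i : Fin 2) _ => e i j))
  refine lt_of_le_of_lt e' ?_
  simp only [Finset.sum_const, Finset.card_univ, Fintype.card_fin, nsmul_eq_mul]
  norm_num
  linarith only [hε]

end Vale.Agent.P133.Statement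
end

section

section

/-! P133: purely infinite C*-algebras are strongly purely infinite.
Framework: a UNITAL C*-algebra `M` with a closed two-sided star-closed ideal `A`;
the functional calculus is the unital `cfc` over `ℝ` in `M`. -/

open scoped ComplexOrder NNReal

namespace Vale.Agent.P133

universe u

/-- Closed two-sided star-closed ideals of a unital C*-algebra. -/
structure CIdeal (M : Type u) [CStarAlgebra M] where
  toSub : Submodule ℂ M
  mul_left' : ∀ (a x : M), x ∈ toSub → a * x ∈ toSub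
  mul_right' : ∀ (a x : M), x ∈ toSub → x * a ∈ toSub
  star_mem' : ∀ x : M, x ∈ toSub → star x ∈ toSub
  closed' : IsClosed (toSub : Set M)

instance (M : Type u) [CStarAlgebra M] : Membership M (CIdeal M) :=
  ⟨fun A x => x ∈ A.toSub⟩

variable {M : Type u} [CStarAlgebra M]

/-- `Ctl x α y β`: in every image of `M`, `‖π x‖ ≤ α` implies `‖π y‖ ≤ β`. -/
def Ctl (x : M) (α : ℝ) (y : M) (β : ℝ) : Prop :=
  ∀ (C : Type u) [CStarAlgebra C] (π : M →⋆ₐ[ℂ] C), ‖π x‖ ≤ α → ‖π y‖ ≤ β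

/-- `CtlLt x α y β`: in every image of `M`, `‖π x‖ < α` implies `‖π y‖ ≤ β`. -/
def CtlLt (x : M) (α : ℝ) (y : M) (β : ℝ) : Prop :=
  ∀ (C : Type u) [CStarAlgebra C] (π : M →⋆ₐ[ℂ] C), ‖π x‖ < α → ‖π y‖ ≤ β

/-- `g` is supported (as a left unit) on the level set `[s, ∞)` of `h`. -/
def Level (h : M) (s : ℝ) (g : M) : Prop :=
  ∀ w : ℝ → ℝ, Continuous w → (∀ u, s ≤ u → w u = 1) → cfc w h * g = g

variable [PartialOrder M] [StarOrderedRing M]

/-- Relative pure infiniteness of the ideal `A`: every positive element of `A` is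
properly infinite (with implementing elements in `A`). -/
def PIrel (A : CIdeal M) : Prop :=
  ∀ h ∈ A, 0 ≤ h → ∀ ε : ℝ, 0 < ε → ∃ x ∈ A, ∃ y ∈ A,
    ‖star x * h * x - h‖ < ε ∧ ‖star y * h * y - h‖ < ε ∧ ‖star x * h * y‖ < ε

/-- Positive contraction in `A`. -/
structure PC (A : CIdeal M) (a : M) : Prop where
  mem : a ∈ A
  nonneg : 0 ≤ a
  le_one : a ≤ 1

/-- The angle between the right ideals generated by `a` and `b` is at most `ρ`. -/
def Ang (a b : M) (ρ : ℝ) : Prop :=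
  ∀ x ∈ closure (Set.range fun z => a * z), ∀ y ∈ closure (Set.range fun z => b * z),
    ‖y‖ ≤ 1 → star x * y * star y * x ≤ ρ • (star x * x)

end Vale.Agent.P133
end
end

section

section

/-!
Basic functional calculus lemmas for P133 (unital framework: `M` unital C*-algebra).
-/

open scoped ComplexOrder CStarAlgebra

namespace Vale.Agent.P133

universe u

variable {M : Type u} [CStarAlgebra M]

namespace CIdeal

variable (A : CIdeal M)

lemma zero_mem : (0 : M) ∈ A := A.toSub.zero_mem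
lemma add_mem {a b : M} (ha : a ∈ A) (hb : b ∈ A) : a + b ∈ A := A.toSub.add_mem ha hb
lemma sub_mem {a b : M} (ha : a ∈ A) (hb : b ∈ A) : a - b ∈ A := A.toSub.sub_mem ha hb
lemma neg_mem {a : M} (ha : a ∈ A) : -a ∈ A := A.toSub.neg_mem ha
lemma csmul_mem (c : ℂ) {a : M} (ha : a ∈ A) : c • a ∈ A := A.toSub.smul_mem c ha
lemma left_mem (m : M) {a : M} (ha : a ∈ A) : m * a ∈ A := A.mul_left' m a ha
lemma right_mem {a : M} (ha : a ∈ A) (m : M) : a * m ∈ A := A.mul_right' m a ha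
lemma star_mem {a : M} (ha : a ∈ A) : star a ∈ A := A.star_mem' a ha

lemma smul_mem (c : ℝ) {a : M} (ha : a ∈ A) : c • a ∈ A := by
  have h := A.left_mem (algebraMap ℝ M c) ha
  rwa [← Algebra.smul_def] at h

end CIdeal

variable [PartialOrder M] [StarOrderedRing M]

/-! ### spectrum and functional calculus -/

lemma spec_nonneg {a : M} (ha : 0 ≤ a) {s : ℝ} (hs : s ∈ spectrum ℝ a) : 0 ≤ s :=
  spectrum_nonneg_of_nonneg ha hs

omit [PartialOrder M] [StarOrderedRing M] in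
lemma spec_le_norm {a : M} {s : ℝ} (hs : s ∈ spectrum ℝ a) : s ≤ ‖a‖ := by
  by_cases hn : Nontrivial M
  · exact le_trans (le_abs_self s) (by
      have := spectrum.norm_le_norm_of_mem hs
      simpa only [ge_iff_le, Real.norm_eq_abs] using this)
  · rw [not_nontrivial_iff_subsingleton] at hn
    rw [spectrum.of_subsingleton] at hs
    exact absurd hs (Set.notMem_empty s)

lemma abs_apply_norm_le [Nontrivial M] {g : ℝ → ℝ} (hg : Continuous g) {a : M} (ha : 0 ≤ a) :
    |g ‖a‖| ≤ ‖cfc g a‖ := by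
  have h1 : ‖a‖ ∈ spectrum ℝ a := CStarAlgebra.norm_mem_spectrum_of_nonneg ha
  have := norm_apply_le_norm_cfc g a h1 hg.continuousOn
  simpa only [ge_iff_le, Real.norm_eq_abs] using this

/-- lower bounds for `g` beyond `t'` transfer to norm bounds. -/
lemma norm_le_of_cfc {g : ℝ → ℝ} (hg : Continuous g) {a : M} (ha : 0 ≤ a) {t t' : ℝ}
    (ht' : 0 ≤ t') (h : ∀ s, t' < s → t < |g s|) (hn : ‖cfc g a‖ ≤ t) : ‖a‖ ≤ t' := by
  by_cases hnt : Nontrivial M
  · by_contra hc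
    push Not at hc
    have h1 := h _ hc
    have h2 := abs_apply_norm_le hg ha
    linarith only [hn, h1, h2]
  · rw [not_nontrivial_iff_subsingleton] at hnt
    have : a = 0 := Subsingleton.elim _ _
    rw [this, norm_zero]; exact ht'

lemma norm_lt_of_cfc {g : ℝ → ℝ} (hg : Continuous g) {a : M} (ha : 0 ≤ a) {t t' : ℝ}
    (ht' : 0 < t') (h : ∀ s, t' ≤ s → t ≤ |g s|) (hn : ‖cfc g a‖ < t) : ‖a‖ < t' := by
  by_cases hnt : Nontrivial M
  · by_contra hc
    push Not at hc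
    have h1 := h _ hc
    have h2 := abs_apply_norm_le hg ha
    linarith only [hn, h1, h2]
  · rw [not_nontrivial_iff_subsingleton] at hnt
    have : a = 0 := Subsingleton.elim _ _
    rw [this, norm_zero]; exact ht'

lemma norm_cfc_le' {g : ℝ → ℝ} {a : M} (ha : 0 ≤ a) {c : ℝ} (hc : 0 ≤ c)
    (h : ∀ s, 0 ≤ s → s ≤ ‖a‖ → |g s| ≤ c) : ‖cfc g a‖ ≤ c :=
  norm_cfc_le hc (fun s hs => by
    simpa only [Real.norm_eq_abs] using h s (spec_nonneg ha hs) (spec_le_norm hs))

lemma cfc_le_cfc {g h : ℝ → ℝ} (hg : Continuous g) (hh : Continuous h) {a : M} (ha : 0 ≤ a)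
    (hle : ∀ s, 0 ≤ s → g s ≤ h s) : cfc g a ≤ cfc h a :=
  cfc_mono (fun s hs => hle s (spec_nonneg ha hs)) hg.continuousOn hh.continuousOn

lemma cfc_nonneg' {g : ℝ → ℝ} {a : M} (ha : 0 ≤ a)
    (h : ∀ s, 0 ≤ s → 0 ≤ g s) : 0 ≤ cfc g a :=
  cfc_nonneg (fun s hs => h s (spec_nonneg ha hs))

lemma cfc_le_one' {g : ℝ → ℝ} {a : M} (ha : 0 ≤ a)
    (h : ∀ s, 0 ≤ s → g s ≤ 1) : cfc g a ≤ 1 :=
  cfc_le_one g a (fun s hs => h s (spec_nonneg ha hs))

lemma cfc_congr' {g h : ℝ → ℝ} {a : M} (ha : 0 ≤ a)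
    (hle : ∀ s, 0 ≤ s → g s = h s) : cfc g a = cfc h a :=
  cfc_congr (fun s hs => hle s (spec_nonneg ha hs))

omit [PartialOrder M] [StarOrderedRing M] in
lemma cfc_mul' {g h : ℝ → ℝ} (hg : Continuous g) (hh : Continuous h) (a : M) :
    cfc g a * cfc h a = cfc (fun s => g s * h s) a :=
  (cfc_mul g h a hg.continuousOn hh.continuousOn).symm

omit [PartialOrder M] [StarOrderedRing M] in
lemma star_cfc (g : ℝ → ℝ) (a : M) : star (cfc g a) = cfc g a :=
  (cfc_predicate g a : IsSelfAdjoint _).star_eq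

lemma mul_cfc {g : ℝ → ℝ} (hg : Continuous g) {a : M} (ha : 0 ≤ a) :
    a * cfc g a = cfc (fun s => s * g s) a := by
  conv_lhs => rw [show a * cfc g a = cfc (fun s : ℝ => s) a * cfc g a by
    rw [cfc_id' ℝ a (IsSelfAdjoint.of_nonneg ha)]]
  exact cfc_mul' continuous_id hg a

lemma cfc_mul_self {g : ℝ → ℝ} (hg : Continuous g) {a : M} (ha : 0 ≤ a) :
    cfc g a * a = cfc (fun s => s * g s) a := by
  rw [← mul_cfc hg ha]
  have h := (cfc_commute_cfc g (fun s => s) a).eq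
  rw [cfc_id' ℝ a (IsSelfAdjoint.of_nonneg ha)] at h
  exact h

/-- factorization `cfc g a = a * cfc v a`. -/
lemma cfc_factor {g v : ℝ → ℝ} (hv : Continuous v) {a : M} (ha : 0 ≤ a)
    (h : ∀ s, 0 ≤ s → g s = s * v s) : cfc g a = a * cfc v a := by
  rw [mul_cfc hv ha]; exact cfc_congr' ha h

lemma cfc_factor' {g v : ℝ → ℝ} (hv : Continuous v) {a : M} (ha : 0 ≤ a)
    (h : ∀ s, 0 ≤ s → g s = s * v s) : cfc g a = cfc v a * a := by
  rw [cfc_mul_self hv ha]; exact cfc_congr' ha h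

/-- `ψ` is a left unit for `a`, hence for `g(a)` if `g s = s v s`. -/
lemma unit_cfc {g v : ℝ → ℝ} (hv : Continuous v) {a ψ : M} (ha : 0 ≤ a)
    (h : ∀ s, 0 ≤ s → g s = s * v s) (hψ : ψ * a = a) : ψ * cfc g a = cfc g a := by
  rw [cfc_factor hv ha h, ← mul_assoc, hψ]

omit [PartialOrder M] [StarOrderedRing M] in
lemma map_cfc' {C : Type u} [CStarAlgebra C] (π : M →⋆ₐ[ℂ] C) {g : ℝ → ℝ} (hg : Continuous g)
    {a : M} (ha : IsSelfAdjoint a) : π (cfc g a) = cfc g (π a) :=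
  StarAlgHomClass.map_cfc π g a hg.continuousOn (map_continuous π) ha (ha.map π)

lemma map_nonneg' {C : Type u} [CStarAlgebra C] [PartialOrder C] [StarOrderedRing C]
    (π : M →⋆ₐ[ℂ] C) {a : M} (ha : 0 ≤ a) : 0 ≤ π a := by
  exact map_nonneg π ha

lemma map_mono' {C : Type u} [CStarAlgebra C] [PartialOrder C] [StarOrderedRing C]
    (π : M →⋆ₐ[ℂ] C) {a b : M} (hab : a ≤ b) : π a ≤ π b :=
  OrderHomClass.mono π hab

omit [PartialOrder M] [StarOrderedRing M] in
lemma norm_map_le {C : Type u} [CStarAlgebra C] (π : M →⋆ₐ[ℂ] C) (a : M) : ‖π a‖ ≤ ‖a‖ :=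
  NonUnitalStarAlgHom.norm_apply_le π a

/-- `‖T g(T*T) T*‖ ≤ δ` if `0 ≤ g` and `s g(s) ≤ δ` for `s ≥ 0`. -/
lemma norm_conj_cfc_le {g : ℝ → ℝ} (hg : Continuous g) (hg0 : ∀ s, 0 ≤ s → 0 ≤ g s) {δ : ℝ}
    (hδ : 0 ≤ δ) (h : ∀ s, 0 ≤ s → s * g s ≤ δ) (T : M) :
    ‖T * cfc g (star T * T) * star T‖ ≤ δ := by
  have hT : 0 ≤ star T * T := star_mul_self_nonneg T
  set r : M := cfc (fun s => Real.sqrt (g s)) (star T * T) with hr
  have hcont : Continuous (fun s => Real.sqrt (g s)) := Real.continuous_sqrt.comp hg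
  have hrr : r * r = cfc g (star T * T) := by
    rw [hr, cfc_mul' hcont hcont]
    exact cfc_congr' hT (fun s hs => Real.mul_self_sqrt (hg0 s hs))
  have hrs : star r = r := star_cfc _ _
  have h1 : T * cfc g (star T * T) * star T = (T * r) * star (T * r) := by
    rw [star_mul, hrs, ← hrr]; noncomm_ring
  rw [h1, CStarRing.norm_self_mul_star, ← CStarRing.norm_star_mul_self]
  have h2 : star (T * r) * (T * r) = cfc (fun s => s * g s) (star T * T) := by
    rw [star_mul, hrs]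
    have : r * star T * (T * r) = r * ((star T * T) * r) := by noncomm_ring
    have hc2 : Continuous (fun s => s * Real.sqrt (g s)) := continuous_id.mul hcont
    rw [this, hr, mul_cfc hcont hT, cfc_mul' hcont hc2]
    refine cfc_congr' hT (fun s hs => ?_)
    show Real.sqrt (g s) * (s * Real.sqrt (g s)) = s * g s
    rw [mul_left_comm, Real.mul_self_sqrt (hg0 s hs)]
  rw [h2]
  refine norm_cfc_le' hT hδ (fun s hs _ => ?_)
  rw [abs_of_nonneg (mul_nonneg hs (hg0 s hs))]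
  exact h s hs

/-- the cut function `min 1 (u / σ)` -/
noncomputable def cut (σ : ℝ) (u : ℝ) : ℝ := min 1 (u / σ)

lemma cut_continuous (σ : ℝ) : Continuous (cut σ) := by
  unfold cut; fun_prop

lemma cut_le_one (σ u : ℝ) : cut σ u ≤ 1 := min_le_left _ _

lemma cut_nonneg {σ u : ℝ} (hσ : 0 < σ) (hu : 0 ≤ u) : 0 ≤ cut σ u :=
  le_min zero_le_one (div_nonneg hu hσ.le)

lemma cut_le {σ u : ℝ} : cut σ u ≤ u / σ := min_le_right _ _

lemma cut_eq_one {σ u : ℝ} (hσ : 0 < σ) (hu : σ ≤ u) : cut σ u = 1 :=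
  min_eq_left (by rw [le_div_iff₀ hσ]; linarith)

/-- `s (1 - cut σ s) ≤ σ / 4`. -/
lemma mul_one_sub_cut_le {σ s : ℝ} (hσ : 0 < σ) (_hs : 0 ≤ s) : s * (1 - cut σ s) ≤ σ / 4 := by
  by_cases h : σ ≤ s
  · rw [cut_eq_one hσ h]; linarith
  · push Not at h
    have h1 : cut σ s = s / σ := min_eq_right (by rw [div_le_one hσ]; exact h.le)
    rw [h1]
    have : s * (1 - s / σ) = σ / 4 - (s - σ / 2) ^ 2 / σ := by
      field_simp; ring
    rw [this]
    have : 0 ≤ (s - σ / 2) ^ 2 / σ := by (clear * - hσ; positivity)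
    linarith only [this]

lemma mul_one_sub_cut_sq_le {σ s : ℝ} (hσ : 0 < σ) (hs : 0 ≤ s) :
    s * (1 - cut σ s) ^ 2 ≤ σ / 4 := by
  have h1 := cut_nonneg hσ hs
  have h2 := cut_le_one σ s
  have h3 := mul_one_sub_cut_le hσ hs
  have h4 : s * (1 - cut σ s) ^ 2 ≤ s * (1 - cut σ s) := by
    have : (1 - cut σ s) ^ 2 ≤ 1 - cut σ s := by nlinarith only [h1, h2]
    exact mul_le_mul_of_nonneg_left this hs
  linarith only [h3, h4]

/-- factorization of the cut function through `s`. -/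
lemma cut_factor {σ : ℝ} (hσ : 0 < σ) {s : ℝ} (_hs : 0 ≤ s) : cut σ s = s * (1 / max σ s) := by
  unfold cut
  rcases le_total σ s with h | h
  · rw [max_eq_right h, min_eq_left (by rw [le_div_iff₀ hσ]; linarith)]
    have : 0 < s := lt_of_lt_of_le hσ h
    field_simp
  · rw [max_eq_left h, min_eq_right (by rw [div_le_one hσ]; exact h)]
    ring

lemma inv_max_continuous {σ : ℝ} (hσ : 0 < σ) : Continuous (fun s : ℝ => 1 / max σ s) := by
  refine Continuous.div continuous_const (continuous_const.max continuous_id) (fun s => ?_)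
  exact (lt_of_lt_of_le hσ (le_max_left _ _)).ne'

end Vale.Agent.P133
end
end

section

section

/-! P133: further tools: ramp functions, right ideals `RI b`, membership of `cfc f a` in ideals,
levels, the cutting lemma and approximate units. -/

open scoped ComplexOrder CStarAlgebra
open Filter Topology

namespace Vale.Agent.P133.K

open Vale.Agent.P133

universe u
variable {M : Type u} [CStarAlgebra M]

/-! ### Ramp functions -/

/-- `0` for `u ≤ l`, `1` for `u ≥ r`, linear in between. -/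
noncomputable def ramp (l r u : ℝ) : ℝ := max 0 (min 1 ((u - l) / (r - l)))

lemma ramp_cont (l r : ℝ) : Continuous (ramp l r) := by unfold ramp; fun_prop

lemma ramp_nonneg (l r u : ℝ) : 0 ≤ ramp l r u := le_max_left _ _

lemma ramp_le_one (l r u : ℝ) : ramp l r u ≤ 1 := max_le zero_le_one (min_le_left _ _)

lemma ramp_eq_zero {l r u : ℝ} (h : l < r) (hu : u ≤ l) : ramp l r u = 0 := by
  unfold ramp
  have h1 : (u - l) / (r - l) ≤ 0 := div_nonpos_of_nonpos_of_nonneg (by linarith) (by linarith)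
  rw [min_eq_right (by linarith only [h1]), max_eq_left h1]

lemma ramp_eq_one {l r u : ℝ} (h : l < r) (hu : r ≤ u) : ramp l r u = 1 := by
  unfold ramp
  have h1 : 1 ≤ (u - l) / (r - l) := by rw [le_div_iff₀ (by linarith)]; linarith
  rw [min_eq_left h1, max_eq_right zero_le_one]

lemma ramp_abs_le (l r u : ℝ) : |ramp l r u| ≤ 1 := by
  rw [abs_of_nonneg (ramp_nonneg l r u)]; exact ramp_le_one l r u

/-- `ramp l r u = u * rampv l r u` for `u ≥ 0`, if `0 < l`. -/
noncomputable def rampv (l r u : ℝ) : ℝ := ramp l r u / max l u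

lemma rampv_cont {l r : ℝ} (hl : 0 < l) : Continuous (rampv l r) := by
  unfold rampv
  exact (ramp_cont l r).div (continuous_const.max continuous_id)
    (fun s => (lt_of_lt_of_le hl (le_max_left _ _)).ne')

lemma ramp_factor {l r u : ℝ} (hl : 0 < l) (hlr : l < r) : ramp l r u = u * rampv l r u := by
  unfold rampv
  rcases le_total l u with h | h
  · rw [max_eq_right h]
    have : 0 < u := lt_of_lt_of_le hl h
    field_simp
  · rw [ramp_eq_zero hlr h]; simp only [zero_div, mul_zero]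

/-! ### Norms -/

protected lemma norm_mul_le_of_le {x y : M} {a b : ℝ} (hx : ‖x‖ ≤ a) (hy : ‖y‖ ≤ b) :
    ‖x * y‖ ≤ a * b :=
  (norm_mul_le x y).trans (mul_le_mul hx hy (norm_nonneg _) ((norm_nonneg _).trans hx))

lemma norm_sq_eq (x : M) : ‖x‖ ^ 2 = ‖star x * x‖ := by
  rw [CStarRing.norm_star_mul_self, sq]

lemma norm_sq_eq' (x : M) : ‖x‖ ^ 2 = ‖x * star x‖ := by
  rw [CStarRing.norm_self_mul_star, sq]

/-! ### Right ideals -/

/-- The closed right ideal generated by `b`. -/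
def RI (b : M) : Set M := closure (Set.range fun z => b * z)

lemma RI_closed (b : M) : IsClosed (RI b) := isClosed_closure

lemma mul_mem_RI (b z : M) : b * z ∈ RI b := subset_closure ⟨z, rfl⟩

lemma RI_add {b x y : M} (hx : x ∈ RI b) (hy : y ∈ RI b) : x + y ∈ RI b := by
  refine map_mem_closure₂ continuous_add hx hy ?_
  rintro _ ⟨z, rfl⟩ _ ⟨w, rfl⟩
  exact ⟨z + w, by simp only [mul_add]⟩

lemma RI_right {b x : M} (hx : x ∈ RI b) (z : M) : x * z ∈ RI b := by
  refine map_mem_closure (f := fun x => x * z) (by fun_prop) hx ?_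
  rintro _ ⟨w, rfl⟩
  exact ⟨w * z, by simp [mul_assoc]⟩

lemma RI_smul {b x : M} (c : ℝ) (hx : x ∈ RI b) : c • x ∈ RI b := by
  have h := RI_right hx (algebraMap ℝ M c)
  rwa [← Algebra.commutes, ← Algebra.smul_def] at h

lemma RI_mono {b x : M} (hx : x ∈ RI b) : RI x ⊆ RI b := by
  refine closure_minimal ?_ (RI_closed b)
  rintro _ ⟨z, rfl⟩
  exact RI_right hx z

lemma RI_subset_ideal (A : CIdeal M) {b : M} (hb : b ∈ A) {x : M} (hx : x ∈ RI b) : x ∈ A := by
  have h : closure (Set.range fun z => b * z) ⊆ (A.toSub : Set M) := by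
    refine closure_minimal ?_ A.closed'
    rintro _ ⟨z, rfl⟩
    exact A.right_mem hb z
  exact h hx

/-- `f(a)` is in the closed right ideal generated by `a` if `f 0 = 0`. -/
lemma cfc_mem_RI {f : ℝ → ℝ} (hf : Continuous f) (h0 : f 0 = 0) {a : M}
    (ha : IsSelfAdjoint a) : cfc f a ∈ RI a := by
  rw [RI, Metric.mem_closure_iff]
  intro ε hε
  -- bound for `f` on the spectrum
  obtain ⟨B, hB⟩ : ∃ B : ℝ, ∀ u ∈ spectrum ℝ a, |f u| ≤ B := by
    have hc : IsCompact (spectrum ℝ a) := by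
      exact spectrum.isCompact a
    obtain ⟨B, hB⟩ := hc.exists_bound_of_continuousOn hf.continuousOn
    exact ⟨B, fun u hu => by simpa using hB u hu⟩
  obtain ⟨d, hd, hd'⟩ : ∃ d > 0, ∀ u, |u| < d → |f u| < ε / 2 := by
    have := (Metric.continuous_iff.mp hf) 0 (ε / 2) (by positivity)
    obtain ⟨d, hd, h⟩ := this
    refine ⟨d, hd, fun u hu => ?_⟩
    have := h u (by simpa using hu)
    simpa [h0] using this
  set B' : ℝ := max B 0 with hB'
  -- error `f(u) * κ / (u^2 + κ)`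
  set κ : ℝ := ε * d ^ 2 / (2 * (B' + 1)) with hκ
  have hB'0 : 0 ≤ B' := le_max_right _ _
  have hκ0 : 0 < κ := by (clear * - hε hd; positivity)
  let v : ℝ → ℝ := fun u => f u * u / (u ^ 2 + κ)
  have hv : Continuous v := by
    refine (hf.mul continuous_id).div (by fun_prop) (fun u => ?_)
    (clear * - hε hd; positivity)
  have hb : a * cfc v a = cfc (fun u => u * v u) a := by
    conv_lhs => rw [show a * cfc v a = cfc (fun s : ℝ => s) a * cfc v a by
      rw [cfc_id' ℝ a ha]]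
    exact cfc_mul' continuous_id hv a
  refine ⟨a * cfc v a, ⟨cfc v a, rfl⟩, ?_⟩
  have hidv : Continuous (fun u => u * v u) := continuous_id.mul hv
  rw [dist_eq_norm, hb, ← cfc_sub f (fun u => u * v u) a hf.continuousOn hidv.continuousOn]
  refine lt_of_le_of_lt (norm_cfc_le (c := ε / 2) (by positivity) ?_) (by linarith only [hε])
  intro u hu
  have e1 : f u - u * v u = f u * (κ / (u ^ 2 + κ)) := by
    simp only [v]
    have : u ^ 2 + κ ≠ 0 := by (clear * - hε hd; positivity)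
    field_simp
    ring
  rw [e1, Real.norm_eq_abs, abs_mul, abs_of_nonneg (by (clear * - hε hd; positivity) : 0 ≤ κ / (u ^ 2 + κ))]
  rcases lt_or_ge (|u|) d with hud | hud
  · have h1 : κ / (u ^ 2 + κ) ≤ 1 := by
      rw [div_le_one (by (clear * - hε hd; positivity))]; nlinarith only []
    have h2 := hd' u hud
    calc |f u| * (κ / (u ^ 2 + κ)) ≤ |f u| * 1 :=
          mul_le_mul_of_nonneg_left h1 (abs_nonneg _)
      _ ≤ ε / 2 := by linarith only [h2]
  · have h1 : |f u| ≤ B' := (hB u hu).trans (le_max_left _ _)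
    have h2 : d ^ 2 ≤ u ^ 2 := by rw [← sq_abs u]; exact pow_le_pow_left₀ hd.le hud 2
    have h3 : κ / (u ^ 2 + κ) ≤ κ / d ^ 2 :=
      div_le_div_of_nonneg_left hκ0.le (by positivity) (by linarith only [hκ0, h2])
    calc |f u| * (κ / (u ^ 2 + κ)) ≤ B' * (κ / d ^ 2) :=
          mul_le_mul h1 h3 (by (clear * - hε hd; positivity)) hB'0
      _ = (B' / (B' + 1)) * (ε / 2) := by rw [hκ]; (clear * - hd hB'0 hε; field_simp)
      _ ≤ 1 * (ε / 2) := by
          apply mul_le_mul_of_nonneg_right _ (by positivity)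
          rw [div_le_one (by (clear * -; positivity))]; linarith only []
      _ = ε / 2 := one_mul _

/-- `f(a) ∈ A` if `a ∈ A` and `f 0 = 0`. -/
lemma cfc_mem_ideal (A : CIdeal M) {f : ℝ → ℝ} (hf : Continuous f) (h0 : f 0 = 0) {a : M}
    (ha : IsSelfAdjoint a) (haA : a ∈ A) : cfc f a ∈ A :=
  RI_subset_ideal A haA (cfc_mem_RI hf h0 ha)


/-! ### Order lemmas -/

section order
variable [PartialOrder M] [StarOrderedRing M]

lemma isClosed_le' {X : Type*} [TopologicalSpace X] {f g : X → M} (hf : Continuous f)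
    (hg : Continuous g) : IsClosed {x | f x ≤ g x} := by
  have h : {x | f x ≤ g x} = (fun x => g x - f x) ⁻¹' {a : M | 0 ≤ a} := by
    ext x; simp only [Set.mem_ofPred_eq, Set.preimage_ofPred_eq, sub_nonneg]
  rw [h]
  exact (CStarAlgebra.isClosed_nonneg).preimage (hg.sub hf)

lemma conj_le {x y : M} (h : x ≤ y) (z : M) : star z * x * z ≤ star z * y * z :=
  star_left_conjugate_le_conjugate h z

lemma conj_le' {x y : M} (h : x ≤ y) (z : M) : z * x * star z ≤ z * y * star z :=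
  star_right_conjugate_le_conjugate h z

lemma conj_nonneg {x : M} (h : 0 ≤ x) (z : M) : 0 ≤ star z * x * z :=
  star_left_conjugate_nonneg h z

lemma sa_conj_le {x y z : M} (hz : IsSelfAdjoint z) (h : x ≤ y) : z * x * z ≤ z * y * z := by
  have := conj_le h z
  rwa [hz.star_eq] at this

lemma sa_conj_nonneg {x z : M} (hz : IsSelfAdjoint z) (h : 0 ≤ x) : 0 ≤ z * x * z := by
  have := conj_nonneg h z
  rwa [hz.star_eq] at this

lemma norm_mono {x y : M} (hx : 0 ≤ x) (h : x ≤ y) : ‖x‖ ≤ ‖y‖ :=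
  CStarAlgebra.norm_le_norm_of_nonneg_of_le hx h

lemma norm_le_of_le_smul_one {x : M} {c : ℝ} (hc : 0 ≤ c) (hx : 0 ≤ x) (h : x ≤ c • (1 : M)) :
    ‖x‖ ≤ c := by
  rw [CStarAlgebra.norm_le_iff_le_algebraMap x hc hx, Algebra.algebraMap_eq_smul_one]
  exact h

lemma le_smul_one_of_norm_le {x : M} {c : ℝ} (hc : 0 ≤ c) (hx : 0 ≤ x) (h : ‖x‖ ≤ c) :
    x ≤ c • (1 : M) := by
  rw [← Algebra.algebraMap_eq_smul_one]
  exact (CStarAlgebra.norm_le_iff_le_algebraMap x hc hx).mp h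

lemma mul_star_le_one {y : M} (hy : ‖y‖ ≤ 1) : y * star y ≤ 1 := by
  have h := le_smul_one_of_norm_le (c := 1) zero_le_one (mul_star_self_nonneg y)
    (by rw [← norm_sq_eq']; nlinarith [norm_nonneg y])
  simpa only [ge_iff_le, one_smul] using h

lemma star_mul_le_one {y : M} (hy : ‖y‖ ≤ 1) : star y * y ≤ 1 := by
  have h := le_smul_one_of_norm_le (c := 1) zero_le_one (star_mul_self_nonneg y)
    (by rw [← norm_sq_eq]; nlinarith [norm_nonneg y])
  simpa only [ge_iff_le, one_smul] using h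

lemma rsmul_le_rsmul {x y : M} {c : ℝ} (hc : 0 ≤ c) (h : x ≤ y) : c • x ≤ c • y :=
  smul_le_smul_of_nonneg_left h hc

lemma rsmul_mono {x : M} {c d : ℝ} (hx : 0 ≤ x) (h : c ≤ d) : c • x ≤ d • x :=
  smul_le_smul_of_nonneg_right h hx

lemma rsmul_nonneg {x : M} {c : ℝ} (hc : 0 ≤ c) (h : 0 ≤ x) : 0 ≤ c • x :=
  smul_nonneg hc h

/-! ### Positive contractions -/

lemma PC.sa {A : CIdeal M} {a : M} (h : PC A a) : IsSelfAdjoint a := IsSelfAdjoint.of_nonneg h.nonneg

lemma PC.norm {A : CIdeal M} {a : M} (h : PC A a) : ‖a‖ ≤ 1 := by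
  refine norm_le_of_le_smul_one zero_le_one h.nonneg ?_
  rw [one_smul]; exact h.le_one

lemma PC.of_norm {A : CIdeal M} {a : M} (h : a ∈ A) (h0 : 0 ≤ a) (h1 : ‖a‖ ≤ 1) : PC A a :=
  ⟨h, h0, by simpa only [one_smul] using le_smul_one_of_norm_le zero_le_one h0 h1⟩

lemma PC.of_cfc (A : CIdeal M) {a : M} (h0 : 0 ≤ a) (ha : a ∈ A) {f : ℝ → ℝ} (hf : Continuous f)
    (hf0 : f 0 = 0) (h1 : ∀ u, 0 ≤ u → 0 ≤ f u) (h2 : ∀ u, 0 ≤ u → f u ≤ 1) : PC A (cfc f a) :=
  ⟨cfc_mem_ideal A hf hf0 (IsSelfAdjoint.of_nonneg h0) ha, cfc_nonneg' h0 h1, cfc_le_one' h0 h2⟩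

lemma PC.ramp (A : CIdeal M) {a : M} (h0 : 0 ≤ a) (ha : a ∈ A) {l r : ℝ} (hl : 0 ≤ l)
    (hr : l < r) : PC A (cfc (ramp l r) a) :=
  PC.of_cfc A h0 ha (ramp_cont l r) (ramp_eq_zero hr hl) (fun u _ => ramp_nonneg l r u)
    (fun u _ => ramp_le_one l r u)

/-! ### Levels -/

lemma level_eq {h g : M} {s : ℝ} (hh : 0 ≤ h) (hs : 0 < s) (hg : Level h s g) :
    g = h * (cfc (fun u => 1 / max s u) h * g) := by
  have h1 := hg (cut s) (cut_continuous s) (fun u hu => cut_eq_one hs hu)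
  rw [cfc_factor (g := cut s) (v := fun u => 1 / max s u) (inv_max_continuous hs) hh
    (fun u hu => cut_factor hs hu), mul_assoc] at h1
  exact h1.symm

lemma level_mem_RI {h g : M} {s : ℝ} (hh : 0 ≤ h) (hs : 0 < s) (hg : Level h s g) : g ∈ RI h := by
  rw [level_eq hh hs hg]; exact mul_mem_RI _ _

lemma inv_max_norm {h : M} {s : ℝ} (hh : 0 ≤ h) (hs : 0 < s) :
    ‖cfc (fun u => 1 / max s u) h‖ ≤ 1 / s := by
  refine norm_cfc_le' hh (by positivity) (fun u hu _ => ?_)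
  have h2 : 0 < max s u := lt_of_lt_of_le hs (le_max_left _ _)
  rw [abs_of_nonneg (by positivity)]
  exact div_le_div_of_nonneg_left zero_le_one hs (le_max_left _ _)

lemma level_norm {h g : M} {s : ℝ} (hh : 0 ≤ h) (hs : 0 < s) (hg : Level h s g)
    (hg1 : ‖g‖ ≤ 1) (x : M) : ‖x * g‖ ≤ ‖x * h‖ / s := by
  rw [level_eq hh hs hg]
  have : x * (h * (cfc (fun u => 1 / max s u) h * g)) =
      (x * h) * (cfc (fun u => 1 / max s u) h * g) := by noncomm_ring
  rw [this]
  refine (norm_mul_le_of_le le_rfl (norm_mul_le_of_le (inv_max_norm hh hs) hg1)).trans ?_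
  rw [mul_one, mul_one_div]

omit [PartialOrder M] [StarOrderedRing M] in
lemma level_cfc {h : M} {s : ℝ} {f : ℝ → ℝ} (hf : Continuous f) (h0 : ∀ u, u < s → f u = 0)
    (x : M) : Level h s (cfc f h * x) := by
  intro w hw h1
  rw [← mul_assoc, cfc_mul' hw hf]
  congr 2
  funext u
  rcases lt_or_ge u s with hu | hu
  · rw [h0 u hu, mul_zero]
  · rw [h1 u hu, one_mul]

/-! ### Cutting -/

lemma cont_id_mul {g : ℝ → ℝ} (hg : Continuous g) : Continuous (fun s => s * g s) :=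
  continuous_id.mul hg

/-- the cutting element -/
noncomputable def kap (η : ℝ) (X : M) : M := cfc (cut η) (star X * X)

lemma kap_nonneg {η : ℝ} (hη : 0 < η) (X : M) : 0 ≤ kap η X :=
  cfc_nonneg' (star_mul_self_nonneg X) (fun _ hu => cut_nonneg hη hu)

lemma kap_le_one (η : ℝ) (X : M) : kap η X ≤ 1 :=
  cfc_le_one' (star_mul_self_nonneg X) (fun u _ => cut_le_one η u)

omit [PartialOrder M] [StarOrderedRing M] in
lemma kap_mem (A : CIdeal M) {η : ℝ} {X : M} (hX : X ∈ A) : kap η X ∈ A :=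
  cfc_mem_ideal A (cut_continuous η) (by simp only [cut, zero_div, zero_le_one, inf_of_le_right]) (IsSelfAdjoint.star_mul_self X)
    (A.left_mem _ hX)

omit [PartialOrder M] [StarOrderedRing M] in
lemma kap_map {C : Type u} [CStarAlgebra C] (π : M →⋆ₐ[ℂ] C) (η : ℝ) (X : M) :
    π (kap η X) = kap η (π X) := by
  unfold kap
  rw [map_cfc' π (cut_continuous η) (IsSelfAdjoint.star_mul_self X), map_mul, map_star]

omit [PartialOrder M] [StarOrderedRing M] in
lemma kap_zero (η : ℝ) : kap η (0 : M) = 0 := by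
  unfold kap
  simp only [star_zero, mul_zero, cfc_apply_zero, cut, zero_div, zero_le_one, inf_of_le_right, map_zero]

lemma kap_norm {η : ℝ} (hη : 0 < η) (X : M) : ‖X * (1 - kap η X)‖ ^ 2 ≤ η / 4 := by
  have hT : 0 ≤ star X * X := star_mul_self_nonneg X
  rw [norm_sq_eq, star_mul]
  have h1 : (1 : M) - kap η X = cfc (fun u => 1 - cut η u) (star X * X) := by
    unfold kap
    rw [cfc_sub (fun _ => (1 : ℝ)) (cut η) (star X * X) continuousOn_const
      (cut_continuous η).continuousOn, cfc_const_one ℝ (star X * X)]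
  have hc : Continuous (fun u => 1 - cut η u) := continuous_const.sub (cut_continuous η)
  rw [h1, star_cfc]
  have h2 : cfc (fun u => 1 - cut η u) (star X * X) * star X *
      (X * cfc (fun u => 1 - cut η u) (star X * X)) =
      cfc (fun u => 1 - cut η u) (star X * X) *
        ((star X * X) * cfc (fun u => 1 - cut η u) (star X * X)) := by noncomm_ring
  rw [h2, mul_cfc hc hT, cfc_mul' hc (cont_id_mul hc)]
  refine norm_cfc_le' hT (by positivity) (fun u hu _ => ?_)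
  have h3 := mul_one_sub_cut_sq_le hη hu
  have h4 : 0 ≤ u * (1 - cut η u) ^ 2 := by (clear * - hu; positivity)
  rw [abs_of_nonneg (by linarith)]
  linarith

/-- For finitely many (two) elements of a closed ideal there is an approximate unit. -/
lemma exists_nu (I : CIdeal M) {x y : M} (hx : x ∈ I) (hy : y ∈ I) {ε : ℝ} (hε : 0 < ε) :
    ∃ ν : M, PC I ν ∧ ‖(1 - ν) * x‖ < ε ∧ ‖(1 - ν) * y‖ < ε := by
  set h : M := x * star x + y * star y with hh
  have h0 : 0 ≤ h := add_nonneg (mul_star_self_nonneg x) (mul_star_self_nonneg y)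
  have hI : h ∈ I := I.add_mem (I.right_mem hx _) (I.right_mem hy _)
  set η : ℝ := ε ^ 2 with hη
  have hη0 : 0 < η := by positivity
  have hsa : IsSelfAdjoint h := IsSelfAdjoint.of_nonneg h0
  refine ⟨cfc (cut η) h, PC.of_cfc I h0 hI (cut_continuous η) (by simp only [cut, zero_div, zero_le_one, inf_of_le_right])
    (fun u hu => cut_nonneg hη0 hu) (fun u _ => cut_le_one η u), ?_, ?_⟩
  all_goals
    have hc : Continuous (fun u => 1 - cut η u) := continuous_const.sub (cut_continuous η)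
    have h1 : (1 : M) - cfc (cut η) h = cfc (fun u => 1 - cut η u) h := by
      rw [cfc_sub (fun _ => (1 : ℝ)) (cut η) h continuousOn_const
        (cut_continuous η).continuousOn, cfc_const_one ℝ h]
    have h2 : ‖cfc (fun u => 1 - cut η u) h * h * cfc (fun u => 1 - cut η u) h‖ ≤ η / 4 := by
      rw [mul_assoc, mul_cfc hc h0, cfc_mul' hc (cont_id_mul hc)]
      refine norm_cfc_le' h0 (by positivity) (fun u hu _ => ?_)
      have h3 := mul_one_sub_cut_sq_le hη0 hu
      have h4 : 0 ≤ u * (1 - cut η u) ^ 2 := by (clear * - hu; positivity)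
      rw [abs_of_nonneg (by nlinarith)]
      linarith
    refine lt_of_pow_lt_pow_left₀ 2 hε.le ?_
    rw [h1, norm_sq_eq', star_mul, star_cfc]
  · have h3 : cfc (fun u => 1 - cut η u) h * x * (star x * cfc (fun u => 1 - cut η u) h) =
        cfc (fun u => 1 - cut η u) h * (x * star x) * cfc (fun u => 1 - cut η u) h := by
      noncomm_ring
    rw [h3]
    have h4 : cfc (fun u => 1 - cut η u) h * (x * star x) * cfc (fun u => 1 - cut η u) h ≤
        cfc (fun u => 1 - cut η u) h * h * cfc (fun u => 1 - cut η u) h :=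
      sa_conj_le (cfc_predicate _ _) (hh ▸ le_add_of_nonneg_right (mul_star_self_nonneg y))
    have h5 := norm_mono (sa_conj_nonneg (cfc_predicate _ _) (mul_star_self_nonneg x)) h4
    have h6 : η / 4 < ε ^ 2 := by rw [hη]; nlinarith only [hη0]
    linarith only [hη0, h2, h5]
  · have h3 : cfc (fun u => 1 - cut η u) h * y * (star y * cfc (fun u => 1 - cut η u) h) =
        cfc (fun u => 1 - cut η u) h * (y * star y) * cfc (fun u => 1 - cut η u) h := by
      noncomm_ring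
    rw [h3]
    have h4 : cfc (fun u => 1 - cut η u) h * (y * star y) * cfc (fun u => 1 - cut η u) h ≤
        cfc (fun u => 1 - cut η u) h * h * cfc (fun u => 1 - cut η u) h :=
      sa_conj_le (cfc_predicate _ _) (hh ▸ le_add_of_nonneg_left (mul_star_self_nonneg x))
    have h5 := norm_mono (sa_conj_nonneg (cfc_predicate _ _) (mul_star_self_nonneg y)) h4
    have h6 : η / 4 < ε ^ 2 := by rw [hη]; nlinarith only [hη0]
    linarith only [hη0, h2, h5]

end order

end Vale.Agent.P133.K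
end
end

section

section

/-! Basic approximation lemmas in the unital framework. `cut σ` is `u ↦ min 1 (u / σ)`. -/

open scoped ComplexOrder

namespace Vale.Agent.P133

universe u

variable {M : Type u} [CStarAlgebra M]

/-- the closed right ideal generated by `a` -/
abbrev cl (a : M) : Set M := K.RI a

theorem mul_mem_cl {a x : M} (hx : x ∈ cl a) (z : M) : x * z ∈ cl a := K.RI_right hx z

theorem add_mem_cl {a x y : M} (hx : x ∈ cl a) (hy : y ∈ cl a) : x + y ∈ cl a := K.RI_add hx hy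

theorem smul_mem_cl {a x : M} (hx : x ∈ cl a) (c : ℝ) : c • x ∈ cl a := K.RI_smul c hx

theorem cl_trans {a b x : M} (hx : x ∈ cl b) (hb : b ∈ cl a) : x ∈ cl a := K.RI_mono hb hx

variable [PartialOrder M] [StarOrderedRing M]

/-- functions vanishing at zero stay in the closed right ideal -/
theorem cfc_mem_cl {f : ℝ → ℝ} (hf : Continuous f) (hf0 : f 0 = 0) {a : M} (ha : 0 ≤ a) :
    cfc f a ∈ cl a := K.cfc_mem_RI hf hf0 (IsSelfAdjoint.of_nonneg ha)

omit [PartialOrder M] [StarOrderedRing M] in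
theorem cfc_mem_ideal (A : CIdeal M) {f : ℝ → ℝ} (hf : Continuous f) (hf0 : f 0 = 0) {a : M}
    (ha : IsSelfAdjoint a) (haA : a ∈ A) : cfc f a ∈ A := K.cfc_mem_ideal A hf hf0 ha haA

omit [PartialOrder M] [StarOrderedRing M] in
theorem one_sub_cfc {f : ℝ → ℝ} (hf : Continuous f) {W : M} (hW : IsSelfAdjoint W) :
    (1 : M) - cfc f W = cfc (fun u => 1 - f u) W := by
  rw [cfc_sub (fun _ => (1 : ℝ)) f W continuousOn_const hf.continuousOn, cfc_const_one ℝ W]

/-- two sided version -/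
theorem norm_one_sub_cut_conj {s : ℝ} (hs : 0 < s) {W : M} (hW : 0 ≤ W) :
    ‖(1 - cfc (cut s) W) * W * (1 - cfc (cut s) W)‖ ≤ s / 4 := by
  have hc : Continuous (fun u => 1 - cut s u) := continuous_const.sub (cut_continuous s)
  rw [one_sub_cfc (cut_continuous s) (IsSelfAdjoint.of_nonneg hW), mul_assoc, mul_cfc hc hW,
    cfc_mul' hc (K.cont_id_mul hc)]
  refine norm_cfc_le' hW (by positivity) (fun u hu _ => ?_)
  have h3 := mul_one_sub_cut_sq_le hs hu
  have h4 : 0 ≤ u * (1 - cut s u) ^ 2 := by (clear * - hu; positivity)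
  rw [abs_of_nonneg (by linarith)]
  linarith

omit [PartialOrder M] [StarOrderedRing M] in
theorem one_sub_cut_sa {s : ℝ} (W : M) : IsSelfAdjoint (1 - cfc (cut s) W) :=
  (IsSelfAdjoint.one M).sub (cfc_predicate _ _)

/-- the basic unit estimate -/
theorem norm_one_sub_cut_mul {s : ℝ} (hs : 0 < s) {W Z : M} (hZ : Z * star Z ≤ W) :
    ‖(1 - cfc (cut s) W) * Z‖ ^ 2 ≤ s / 4 := by
  have hW : 0 ≤ W := (mul_star_self_nonneg Z).trans hZ
  have hsa : IsSelfAdjoint (1 - cfc (cut s) W) := one_sub_cut_sa W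
  rw [K.norm_sq_eq', star_mul, hsa.star_eq]
  have h1 : (1 - cfc (cut s) W) * Z * (star Z * (1 - cfc (cut s) W)) =
      (1 - cfc (cut s) W) * (Z * star Z) * (1 - cfc (cut s) W) := by noncomm_ring
  rw [h1]
  exact (K.norm_mono (K.sa_conj_nonneg hsa (mul_star_self_nonneg Z))
    (K.sa_conj_le hsa hZ)).trans (norm_one_sub_cut_conj hs hW)

theorem cut_pc (A : CIdeal M) {s : ℝ} (hs : 0 < s) {W : M} (hW : 0 ≤ W) (hWA : W ∈ A) :
    PC A (cfc (cut s) W) :=
  K.PC.of_cfc A hW hWA (cut_continuous s) (by simp only [cut, zero_div, zero_le_one, inf_of_le_right]) (fun _ hu => cut_nonneg hs hu)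
    (fun u _ => cut_le_one s u)

theorem cfc_cut_nonneg {s : ℝ} (hs : 0 < s) {W : M} (hW : 0 ≤ W) : 0 ≤ cfc (cut s) W :=
  cfc_nonneg' hW (fun _ hu => cut_nonneg hs hu)

theorem cfc_cut_le {s : ℝ} (hs : 0 < s) {W : M} (hW : 0 ≤ W) :
    cfc (cut s) W ≤ s⁻¹ • W := by
  have h1 : s⁻¹ • W = cfc (fun x : ℝ => s⁻¹ * x) W := by
    rw [cfc_const_mul_id s⁻¹ W (IsSelfAdjoint.of_nonneg hW)]
  rw [h1]
  refine cfc_le_cfc (cut_continuous s) (by fun_prop) hW (fun u _ => ?_)
  rw [inv_mul_eq_div]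
  exact cut_le

theorem norm_cfc_cut_le {s : ℝ} (hs : 0 < s) {W : M} (hW : 0 ≤ W) :
    ‖cfc (cut s) W‖ ≤ s⁻¹ * ‖W‖ := by
  have h := K.norm_mono (cfc_cut_nonneg hs hW) (cfc_cut_le hs hW)
  rwa [norm_smul, Real.norm_eq_abs, abs_of_pos (inv_pos.mpr hs)] at h

theorem norm_le_of_norm_cut_lt {s : ℝ} (hs : 0 < s) {W : M} (hW : 0 ≤ W)
    (h : ‖cfc (cut s) W‖ < 1) : ‖W‖ ≤ s * ‖cfc (cut s) W‖ := by
  set n := ‖cfc (cut s) W‖ with hn
  have hn0 : 0 ≤ n := norm_nonneg _
  refine norm_le_of_cfc (cut_continuous s) hW (by positivity) (t := n) (fun u hu => ?_) hn.ge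
  have hu0 : 0 ≤ u := le_trans (by positivity) hu.le
  rw [abs_of_nonneg (cut_nonneg hs hu0)]
  unfold cut
  refine lt_min h ?_
  rw [lt_div_iff₀ hs]; linarith only [hu]

/-- multiplying by `cut s W` costs at most a factor `s⁻¹` -/
theorem norm_cut_mul_le {s : ℝ} (hs : 0 < s) {W : M} (hW : 0 ≤ W) (x : M) :
    ‖cfc (cut s) W * x‖ ≤ s⁻¹ * ‖W * x‖ := by
  rw [cfc_factor' (g := cut s) (v := fun u => 1 / max s u) (inv_max_continuous hs) hW
    (fun u hu => cut_factor hs hu), mul_assoc]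
  refine (norm_mul_le _ _).trans ?_
  have := K.inv_max_norm hW hs
  rw [one_div] at this
  exact mul_le_mul_of_nonneg_right this (norm_nonneg _)

theorem PC.sq_le {A : CIdeal M} {k : M} (hk : PC A k) : k * k ≤ k := by
  have hk0 := hk.nonneg
  have h1 : k * k = cfc (fun u : ℝ => u * u) k := by
    rw [cfc_mul (fun u : ℝ => u) (fun u : ℝ => u) k, cfc_id' ℝ k (K.PC.sa hk)]
  have h2 : cfc (fun u : ℝ => u) k = k := cfc_id' ℝ k (K.PC.sa hk)
  rw [h1]
  conv_rhs => rw [← h2]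
  refine cfc_mono (fun u hu => ?_) (by fun_prop) (by fun_prop)
  have h3 := spec_nonneg hk0 hu
  have h4 := (spec_le_norm hu).trans (K.PC.norm hk)
  nlinarith only [h3, h4]

theorem PC.norm_le {A : CIdeal M} {k : M} (hk : PC A k) : ‖k‖ ≤ 1 := K.PC.norm hk

theorem PC.star_eq {A : CIdeal M} {k : M} (hk : PC A k) : star k = k :=
  (IsSelfAdjoint.of_nonneg hk.nonneg).star_eq

theorem PC.sa {A : CIdeal M} {k : M} (hk : PC A k) : IsSelfAdjoint k :=
  IsSelfAdjoint.of_nonneg hk.nonneg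

theorem norm_one_sub_le {k : M} (h0 : 0 ≤ k) (h1 : k ≤ 1) : ‖1 - k‖ ≤ 1 :=
  K.norm_le_of_le_smul_one zero_le_one (sub_nonneg.mpr h1)
    (by rw [one_smul]; exact sub_le_self _ h0)

/-- `1 - k` is contractive -/
theorem PC.norm_one_sub_mul_le {A : CIdeal M} {k : M} (hk : PC A k) (x : M) :
    ‖(1 - k) * x‖ ≤ ‖x‖ := by
  refine (_root_.norm_mul_le _ _).trans ?_
  have := norm_one_sub_le hk.nonneg hk.le_one
  nlinarith [norm_nonneg x]

theorem PC.norm_mul_le {A : CIdeal M} {k : M} (hk : PC A k) (x : M) : ‖k * x‖ ≤ ‖x‖ := by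
  refine (_root_.norm_mul_le _ _).trans ?_
  nlinarith [norm_nonneg x, hk.norm_le]

end Vale.Agent.P133
end
end

section

section

open scoped ComplexOrder

namespace Vale.Agent.P133

universe u

variable {M : Type u} [CStarAlgebra M] [PartialOrder M] [StarOrderedRing M]

/-- data produced by `setup` -/
structure Sd (A : CIdeal M) (a b : M) (δ ζ : ℝ) (e a₁ a₃ γ g₁ g₂ g₃ : M) : Prop where
  he : PC A e
  ha₁ : PC A a₁
  ha₃ : PC A a₃
  hγ : PC A γ
  hg₁ : PC A g₁
  hg₂ : PC A g₂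
  hg₃ : PC A g₃
  ce : e ∈ cl a
  ca₁ : a₁ ∈ cl a
  ca₃ : a₃ ∈ cl a
  cg₁ : g₁ ∈ cl b
  cg₂ : g₂ ∈ cl b
  cg₃ : g₃ ∈ cl b
  eg₁ : ‖e * g₁‖ ≤ ζ
  eg₂ : ‖e * g₂‖ ≤ ζ
  ag₂ : ‖a₁ * g₂‖ ≤ ζ
  ag₃ : ‖a₁ * g₃‖ ≤ ζ
  gg : ‖g₁ * g₃‖ ≤ ζ
  aa : a₃ * a₁ = a₃
  fe : CtlLt e 1 γ 0
  fa₁ : CtlLt a₁ 1 γ 0
  fγ : CtlLt γ 1 a₃ 0
  fa₃ : CtlLt a₃ 1 a δ
  fg : ∀ (C : Type u) [CStarAlgebra C] (π : M →⋆ₐ[ℂ] C),
    ‖π g₁‖ < 1 → ‖π g₂‖ < 1 → ‖π g₃‖ < 1 → ‖π b‖ ≤ δ

end Vale.Agent.P133
end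
end

section

section

open scoped ComplexOrder

namespace Vale.Agent.P133

universe u

variable {M : Type u} [CStarAlgebra M] [PartialOrder M] [StarOrderedRing M]

/-- `2 κ - κ²` for a positive contraction `κ`. -/
lemma split_two_sub_nonneg {A : CIdeal M} {κ : M} (hκ : PC A κ) : 0 ≤ κ + κ - κ * κ := by
  have h1 : κ * κ ≤ κ := hκ.sq_le
  have h2 : 0 ≤ κ - κ * κ := sub_nonneg.mpr h1
  have h3 : κ + κ - κ * κ = κ + (κ - κ * κ) := by abel
  rw [h3]
  exact add_nonneg hκ.nonneg h2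

lemma split_conj_nonneg {x : M} (h : 0 ≤ x) (z : M) : 0 ≤ star z * x * z :=
  star_left_conjugate_nonneg h z

/-- S6.1 -/
theorem split (A : CIdeal M) {a₁ d : M} (ha₁ : PC A a₁) (hd : PC A d) {η : ℝ} (hη : 0 < η) :
    ∃ h₁ h₂ h₃ w₁ w₂ w₃ : M, PC A h₁ ∧ PC A h₂ ∧ PC A h₃ ∧ h₁ + h₂ + h₃ = d * d ∧
      h₁ = d * w₁ ∧ h₂ = d * w₂ ∧ h₃ = d * w₃ ∧
      ‖h₁ * h₃‖ ≤ η ∧ ‖a₁ * h₂‖ ≤ η ∧ ‖a₁ * h₃‖ ≤ η ∧ Ctl a₁ 0 h₁ 0 ∧ Ctl a₁ 0 h₂ 0 := by
  have hds : star d = d := hd.star_eq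
  have has : star a₁ = a₁ := ha₁.star_eq
  set η₁ : ℝ := (η / 2) ^ 2 with hη₁
  have hη₁0 : 0 < η₁ := by positivity
  -- the first cut
  set W₀ : M := d * a₁ * star (d * a₁) with hW₀
  have hW₀0 : 0 ≤ W₀ := mul_star_self_nonneg _
  have hW₀A : W₀ ∈ A := A.right_mem (A.left_mem _ ha₁.mem) _
  set κ : M := cfc (cut η₁) W₀ with hκdef
  have hκ : PC A κ := cut_pc A hη₁0 hW₀0 hW₀A
  have hκs : star κ = κ := hκ.star_eq
  have hκ1 : ‖(1 - κ) * (d * a₁)‖ ^ 2 ≤ η₁ / 4 := norm_one_sub_cut_mul hη₁0 le_rfl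
  set c : M := (1 - κ) * d with hc
  have hcs : star c = d * (1 - κ) := by
    rw [hc, star_mul, hds, star_sub, star_one, hκs]
  have hcA : c ∈ A := A.left_mem _ hd.mem
  have hcn : ‖c‖ ≤ 1 := (hκ.norm_one_sub_mul_le d).trans hd.norm_le
  set h₁ : M := d * (κ + κ - κ * κ) * d with hh₁
  have h₁eq : h₁ = d * d - star c * c := by
    rw [hh₁, hcs, hc]; noncomm_ring
  have h₁0 : 0 ≤ h₁ := by
    have := split_conj_nonneg (split_two_sub_nonneg hκ) d
    rwa [hds] at this
  have hdd : d * d ≤ 1 := hd.sq_le.trans hd.le_one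
  have hcc0 : 0 ≤ star c * c := star_mul_self_nonneg c
  have h₁1 : h₁ ≤ 1 := by
    rw [h₁eq]; exact (sub_le_self _ hcc0).trans hdd
  have h₁A : h₁ ∈ A := A.left_mem _ hd.mem
  have h₁s : star h₁ = h₁ := (IsSelfAdjoint.of_nonneg h₁0).star_eq
  -- the second cut
  set W₂ : M := c * h₁ * star (c * h₁) with hW₂
  have hW₂0 : 0 ≤ W₂ := mul_star_self_nonneg _
  have hW₂A : W₂ ∈ A := A.right_mem (A.left_mem _ h₁A) _
  set μ : M := cfc (cut η₁) W₂ with hμdef
  have hμ : PC A μ := cut_pc A hη₁0 hW₂0 hW₂A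
  have hμs : star μ = μ := hμ.star_eq
  have hμ1 : ‖(1 - μ) * (c * h₁)‖ ^ 2 ≤ η₁ / 4 := norm_one_sub_cut_mul hη₁0 le_rfl
  set h₂ : M := star c * (μ + μ - μ * μ) * c with hh₂
  set h₃ : M := star ((1 - μ) * c) * ((1 - μ) * c) with hh₃
  have h₃eq : h₃ = star c * (1 - μ) * ((1 - μ) * c) := by
    rw [hh₃, star_mul, star_sub, star_one, hμs]
  have h₂0 : 0 ≤ h₂ := split_conj_nonneg (split_two_sub_nonneg hμ) c
  have h₃0 : 0 ≤ h₃ := star_mul_self_nonneg _
  have h23 : h₂ + h₃ = star c * c := by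
    rw [h₃eq, hh₂]; noncomm_ring
  have hcc1 : star c * c ≤ 1 := by
    have : star c * c = d * d - h₁ := by rw [h₁eq]; abel
    rw [this]; exact (sub_le_self _ h₁0).trans hdd
  have h₂1 : h₂ ≤ 1 := by
    have : h₂ = star c * c - h₃ := by rw [← h23]; abel
    rw [this]; exact (sub_le_self _ h₃0).trans hcc1
  have h₃1 : h₃ ≤ 1 := by
    have : h₃ = star c * c - h₂ := by rw [← h23]; abel
    rw [this]; exact (sub_le_self _ h₂0).trans hcc1
  have h₂A : h₂ ∈ A := A.left_mem _ hcA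
  have h₃A : h₃ ∈ A := A.left_mem _ (A.left_mem _ hcA)
  have hη2 : η₁ / 4 = (η / 4) ^ 2 := by rw [hη₁]; ring
  have hη4 : 0 ≤ η / 4 := by positivity
  have e1 : ‖a₁ * star c‖ ≤ η / 4 := by
    have h1 : star ((1 - κ) * (d * a₁)) = a₁ * star c := by
      rw [star_mul, star_mul, has, hds, star_sub, star_one, hκs, hcs, mul_assoc]
    rw [← h1, norm_star]
    exact (pow_le_pow_iff_left₀ (norm_nonneg _) hη4 two_ne_zero).mp (by rw [← hη2]; exact hκ1)
  have e2 : ‖h₁ * star c * (1 - μ)‖ ≤ η / 4 := by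
    have h1 : star ((1 - μ) * (c * h₁)) = h₁ * star c * (1 - μ) := by
      rw [star_mul, star_mul, h₁s, star_sub, star_one, hμs]
    rw [← h1, norm_star]
    exact (pow_le_pow_iff_left₀ (norm_nonneg _) hη4 two_ne_zero).mp (by rw [← hη2]; exact hμ1)
  have hμc : ‖(1 - μ) * c‖ ≤ 1 := (hμ.norm_one_sub_mul_le c).trans hcn
  have hμμc : ‖(1 - μ) * ((1 - μ) * c)‖ ≤ 1 := (hμ.norm_one_sub_mul_le _).trans hμc
  have hw : ‖(μ + μ - μ * μ) * c‖ ≤ 2 := by
    have : (μ + μ - μ * μ) * c = c - (1 - μ) * ((1 - μ) * c) := by noncomm_ring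
    rw [this]
    exact (norm_sub_le _ _).trans (by linarith only [hcn, hμμc])
  refine ⟨h₁, h₂, h₃, (κ + κ - κ * κ) * d, (1 - κ) * ((μ + μ - μ * μ) * c),
    (1 - κ) * ((1 - μ) * ((1 - μ) * c)), ⟨h₁A, h₁0, h₁1⟩, ⟨h₂A, h₂0, h₂1⟩, ⟨h₃A, h₃0, h₃1⟩,
    ?_, ?_, ?_, ?_, ?_, ?_, ?_, ?_, ?_⟩
  · rw [add_assoc, h23, h₁eq]; abel
  · rw [hh₁, mul_assoc]
  · rw [hh₂, hcs]; noncomm_ring
  · rw [h₃eq, hcs]; noncomm_ring
  · have : h₁ * h₃ = (h₁ * star c * (1 - μ)) * ((1 - μ) * c) := by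
      rw [h₃eq]; noncomm_ring
    rw [this]
    calc _ ≤ ‖h₁ * star c * (1 - μ)‖ * ‖(1 - μ) * c‖ := norm_mul_le _ _
      _ ≤ (η / 4) * 1 := by (clear * - e2 hμc hη; gcongr)
      _ ≤ η := by linarith only [hη]
  · have : a₁ * h₂ = (a₁ * star c) * ((μ + μ - μ * μ) * c) := by
      rw [hh₂]; noncomm_ring
    rw [this]
    calc _ ≤ ‖a₁ * star c‖ * ‖(μ + μ - μ * μ) * c‖ := norm_mul_le _ _
      _ ≤ (η / 4) * 2 := by (clear * - e1 hw hη; gcongr)
      _ ≤ η := by linarith only [hη]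
  · have : a₁ * h₃ = (a₁ * star c) * ((1 - μ) * ((1 - μ) * c)) := by
      rw [h₃eq]; noncomm_ring
    rw [this]
    calc _ ≤ ‖a₁ * star c‖ * ‖(1 - μ) * ((1 - μ) * c)‖ := norm_mul_le _ _
      _ ≤ (η / 4) * 1 := by (clear * - e1 hμμc hη; gcongr)
      _ ≤ η := by linarith only [hη]
  · intro C _ π hπ
    have ha0 : π a₁ = 0 := norm_le_zero_iff.mp hπ
    have hκ0 : π κ = 0 := by
      rw [hκdef, map_cfc' π (cut_continuous _) (IsSelfAdjoint.of_nonneg hW₀0), hW₀]
      simp only [map_mul, ha0, mul_zero, zero_mul]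
      simp only [cfc_apply_zero, cut, zero_div, zero_le_one, inf_of_le_right, map_zero]
    rw [hh₁]
    simp [hκ0]
  · intro C _ π hπ
    have ha0 : π a₁ = 0 := norm_le_zero_iff.mp hπ
    have hκ0 : π κ = 0 := by
      rw [hκdef, map_cfc' π (cut_continuous _) (IsSelfAdjoint.of_nonneg hW₀0), hW₀]
      simp only [map_mul, ha0, mul_zero, zero_mul]
      simp only [cfc_apply_zero, cut, zero_div, zero_le_one, inf_of_le_right, map_zero]
    have h10 : π h₁ = 0 := by rw [hh₁]; simp only [map_mul, map_sub, map_add, hκ0, add_zero, mul_zero, sub_self, zero_mul]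
    have hμ0 : π μ = 0 := by
      rw [hμdef, map_cfc' π (cut_continuous _) (IsSelfAdjoint.of_nonneg hW₂0), hW₂]
      simp only [map_mul, h10, mul_zero, zero_mul]
      simp only [cfc_apply_zero, cut, zero_div, zero_le_one, inf_of_le_right, map_zero]
    rw [hh₂]
    simp only [map_mul, map_sub, map_add, hμ0, add_zero, mul_zero, sub_self, zero_mul, norm_zero, Std.le_refl]

end Vale.Agent.P133
end
end

section

section

/-!
# Quotients of unital C*-algebras by closed two-sided ideals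

For `I : CIdeal M`: the quotient C*-algebra `Quo I` with quotient map
`Quo.qm I : M →⋆ₐ[ℂ] Quo I`, its universal property `Quo.lift`, norm formulas, lifting of positive
elements and (positive) contractions, ideals of the quotient, generated ideals, sums of ideals.
-/

open Set Filter Topology

namespace Vale.Agent.P133

universe u

variable {M : Type u} [CStarAlgebra M]

open K

/-- The approximate unit of an ideal at an element (right-sided). -/
theorem quot_approx [PartialOrder M] [StarOrderedRing M] (I : CIdeal M) {a : M} (ha : a ∈ I)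
    {ε : ℝ} (hε : 0 < ε) : ∃ u ∈ I, 0 ≤ u ∧ u ≤ 1 ∧ ‖a * (1 - u)‖ < ε := by
  obtain ⟨ν, hν, h1, _⟩ := exists_nu I (I.star_mem ha) I.zero_mem hε
  refine ⟨ν, hν.mem, hν.nonneg, hν.le_one, ?_⟩
  have h2 : a * (1 - ν) = star ((1 - ν) * star a) := by
    rw [star_mul, star_star, star_sub, star_one, (IsSelfAdjoint.of_nonneg hν.nonneg).star_eq]
  rw [h2, norm_star]
  exact h1

/-- The quotient of a unital C*-algebra by a closed two-sided ideal. -/
def Quo (I : CIdeal M) : Type u := M ⧸ I.toSub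

namespace Quo

variable (I : CIdeal M)

/-- the class of an element -/
noncomputable def mk0 (a : M) : Quo I := (Submodule.Quotient.mk a : M ⧸ I.toSub)

theorem mk0_surjective : Function.Surjective (mk0 I) := Submodule.Quotient.mk_surjective _

/-- Auxiliary norm structure. -/
@[reducible] noncomputable def norm0 : NormedAddCommGroup (Quo I) :=
  haveI := I.closed'
  Submodule.Quotient.normedAddCommGroup I.toSub

theorem mk0_eq_iff {a b : M} : mk0 I a = mk0 I b ↔ a - b ∈ I := Submodule.Quotient.eq _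

theorem norm0_mk0_le (a : M) : (norm0 I).toNorm.norm (mk0 I a) ≤ ‖a‖ :=
  Submodule.Quotient.norm_mk_le I.toSub a

theorem norm0_exists_lt (x : Quo I) {ε : ℝ} (hε : 0 < ε) :
    ∃ a : M, mk0 I a = x ∧ ‖a‖ < (norm0 I).toNorm.norm x + ε := Submodule.Quotient.norm_mk_lt x hε

/-- a lift -/
noncomputable def out (x : Quo I) : M := Function.surjInv (mk0_surjective I) x

theorem mk0_out (x : Quo I) : mk0 I (out I x) = x := Function.surjInv_eq (mk0_surjective I) x

/-- multiplication of classes -/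
noncomputable def mul0 (x y : Quo I) : Quo I := mk0 I (out I x * out I y)

theorem mk0_mul0 (a b : M) : mul0 I (mk0 I a) (mk0 I b) = mk0 I (a * b) := by
  unfold mul0
  rw [mk0_eq_iff]
  have h1 : out I (mk0 I a) - a ∈ I := (mk0_eq_iff I).1 (mk0_out I _)
  have h2 : out I (mk0 I b) - b ∈ I := (mk0_eq_iff I).1 (mk0_out I _)
  have h3 : out I (mk0 I a) * out I (mk0 I b) - a * b =
      (out I (mk0 I a) - a) * out I (mk0 I b) + a * (out I (mk0 I b) - b) := by noncomm_ring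
  rw [h3]
  exact I.add_mem (I.right_mem h1 _) (I.left_mem _ h2)

theorem norm0_mul_le (x y : Quo I) : (norm0 I).toNorm.norm (mul0 I x y) ≤
    (norm0 I).toNorm.norm x * (norm0 I).toNorm.norm y := by
  refine le_of_forall_pos_le_add fun ε hε => ?_
  set p := (norm0 I).toNorm.norm x
  set q := (norm0 I).toNorm.norm y
  have h0 : Tendsto (fun δ : ℝ => (p + δ) * (q + δ)) (𝓝[>] 0) (𝓝 ((p + 0) * (q + 0))) := by
    refine Tendsto.mono_left ?_ nhdsWithin_le_nhds
    exact Continuous.tendsto (by fun_prop) 0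
  have h1 : ∀ᶠ δ : ℝ in 𝓝[>] 0, (p + δ) * (q + δ) < p * q + ε := by
    refine h0.eventually_lt_const ?_
    rw [add_zero, add_zero]
    linarith
  obtain ⟨δ, h2, hδ⟩ := (h1.and self_mem_nhdsWithin).exists
  obtain ⟨a, ha, ha'⟩ := norm0_exists_lt I x hδ
  obtain ⟨b, hb, hb'⟩ := norm0_exists_lt I y hδ
  have h3 : mul0 I x y = mk0 I (a * b) := by
    rw [← ha, ← hb, mk0_mul0]
  rw [h3]
  calc (norm0 I).toNorm.norm (mk0 I (a * b)) ≤ ‖a * b‖ := norm0_mk0_le I _
    _ ≤ ‖a‖ * ‖b‖ := norm_mul_le _ _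
    _ ≤ (p + δ) * (q + δ) :=
        mul_le_mul ha'.le hb'.le (norm_nonneg b) ((norm_nonneg a).trans ha'.le)
    _ ≤ _ := h2.le

noncomputable instance instNormedRing : NormedRing (Quo I) where
  __ := norm0 I
  mul := mul0 I
  one := mk0 I 1
  one_mul x := by
    obtain ⟨a, rfl⟩ := mk0_surjective I x
    change mul0 I (mk0 I 1) (mk0 I a) = mk0 I a
    rw [mk0_mul0, one_mul]
  mul_one x := by
    obtain ⟨a, rfl⟩ := mk0_surjective I x
    change mul0 I (mk0 I a) (mk0 I 1) = mk0 I a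
    rw [mk0_mul0, mul_one]
  left_distrib x y z := by
    obtain ⟨a, rfl⟩ := mk0_surjective I x
    obtain ⟨b, rfl⟩ := mk0_surjective I y
    obtain ⟨c, rfl⟩ := mk0_surjective I z
    change mul0 I (mk0 I a) (mk0 I (b + c)) = mul0 I (mk0 I a) (mk0 I b) + mul0 I (mk0 I a) (mk0 I c)
    rw [mk0_mul0, mk0_mul0, mk0_mul0, mul_add]
    rfl
  right_distrib x y z := by
    obtain ⟨a, rfl⟩ := mk0_surjective I x
    obtain ⟨b, rfl⟩ := mk0_surjective I y
    obtain ⟨c, rfl⟩ := mk0_surjective I z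
    change mul0 I (mk0 I (a + b)) (mk0 I c) = mul0 I (mk0 I a) (mk0 I c) + mul0 I (mk0 I b) (mk0 I c)
    rw [mk0_mul0, mk0_mul0, mk0_mul0, add_mul]
    rfl
  zero_mul x := by
    obtain ⟨a, rfl⟩ := mk0_surjective I x
    change mul0 I (mk0 I 0) (mk0 I a) = mk0 I 0
    rw [mk0_mul0, zero_mul]
  mul_zero x := by
    obtain ⟨a, rfl⟩ := mk0_surjective I x
    change mul0 I (mk0 I a) (mk0 I 0) = mk0 I 0
    rw [mk0_mul0, mul_zero]
  mul_assoc x y z := by
    obtain ⟨a, rfl⟩ := mk0_surjective I x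
    obtain ⟨b, rfl⟩ := mk0_surjective I y
    obtain ⟨c, rfl⟩ := mk0_surjective I z
    change mul0 I (mul0 I (mk0 I a) (mk0 I b)) (mk0 I c) =
      mul0 I (mk0 I a) (mul0 I (mk0 I b) (mk0 I c))
    rw [mk0_mul0, mk0_mul0, mk0_mul0, mk0_mul0, mul_assoc]
  norm_mul_le := norm0_mul_le I

theorem norm_mk0_le (a : M) : ‖mk0 I a‖ ≤ ‖a‖ := norm0_mk0_le I a

theorem exists_norm_lt (x : Quo I) {ε : ℝ} (hε : 0 < ε) :
    ∃ a : M, mk0 I a = x ∧ ‖a‖ < ‖x‖ + ε := norm0_exists_lt I x hε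

theorem mk0_mul (a b : M) : mk0 I (a * b) = mk0 I a * mk0 I b := (mk0_mul0 I a b).symm

theorem mk0_add (a b : M) : mk0 I (a + b) = mk0 I a + mk0 I b := rfl

/-- The scalars as a ring hom. -/
noncomputable def algMap : ℂ →+* Quo I where
  toFun z := mk0 I (algebraMap ℂ M z)
  map_one' := by rw [map_one]; rfl
  map_mul' a b := by rw [map_mul, mk0_mul]
  map_zero' := by rw [map_zero]; rfl
  map_add' a b := by rw [map_add]; rfl

noncomputable instance instAlgebra : Algebra ℂ (Quo I) :=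
  (algMap I).toAlgebra' fun z x => by
    obtain ⟨a, rfl⟩ := mk0_surjective I x
    change mk0 I (algebraMap ℂ M z) * mk0 I a = mk0 I a * mk0 I (algebraMap ℂ M z)
    rw [← mk0_mul, ← mk0_mul, Algebra.commutes]

theorem mk0_smul (z : ℂ) (a : M) : mk0 I (z • a) = z • mk0 I a := by
  rw [Algebra.smul_def, Algebra.smul_def, mk0_mul]
  rfl

noncomputable instance instNormedAlgebra : NormedAlgebra ℂ (Quo I) where
  __ := instAlgebra I
  norm_smul_le z x := by
    refine le_of_forall_pos_le_add fun ε hε => ?_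
    obtain ⟨a, rfl, ha⟩ := exists_norm_lt I x (ε := ε / (‖z‖ + 1)) (by positivity)
    calc ‖z • mk0 I a‖ = ‖mk0 I (z • a)‖ := by rw [mk0_smul]
      _ ≤ ‖z • a‖ := norm_mk0_le I _
      _ = ‖z‖ * ‖a‖ := norm_smul _ _
      _ ≤ ‖z‖ * (‖mk0 I a‖ + ε / (‖z‖ + 1)) := by gcongr
      _ ≤ ‖z‖ * ‖mk0 I a‖ + ε := by
        rw [mul_add]
        gcongr
        rw [← mul_div_assoc, div_le_iff₀ (by positivity)]
        nlinarith [norm_nonneg z]

instance instComplete : CompleteSpace (Quo I) :=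
  haveI := I.closed'
  Submodule.Quotient.completeSpace I.toSub

/-- star of a class -/
noncomputable def star0 (x : Quo I) : Quo I := mk0 I (star (out I x))

theorem star0_mk0 (a : M) : star0 I (mk0 I a) = mk0 I (star a) := by
  unfold star0
  rw [mk0_eq_iff, ← star_sub]
  exact I.star_mem ((mk0_eq_iff I).1 (mk0_out I _))

noncomputable instance instStarRing : StarRing (Quo I) where
  star := star0 I
  star_involutive x := by
    obtain ⟨a, rfl⟩ := mk0_surjective I x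
    rw [star0_mk0, star0_mk0, star_star]
  star_mul x y := by
    obtain ⟨a, rfl⟩ := mk0_surjective I x
    obtain ⟨b, rfl⟩ := mk0_surjective I y
    rw [← mk0_mul, star0_mk0, star0_mk0, star0_mk0, star_mul, mk0_mul]
  star_add x y := by
    obtain ⟨a, rfl⟩ := mk0_surjective I x
    obtain ⟨b, rfl⟩ := mk0_surjective I y
    rw [← mk0_add, star0_mk0, star0_mk0, star0_mk0, star_add, mk0_add]

theorem star_mk0 (a : M) : star (mk0 I a) = mk0 I (star a) := star0_mk0 I a

instance instStarModule : StarModule ℂ (Quo I) where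
  star_smul z x := by
    obtain ⟨a, rfl⟩ := mk0_surjective I x
    rw [← mk0_smul, star_mk0, star_mk0, star_smul, mk0_smul]

theorem norm_mul_self_le' (x : Quo I) : ‖x‖ * ‖x‖ ≤ ‖star x * x‖ := by
  let _ := CStarAlgebra.spectralOrder M
  let _ := CStarAlgebra.spectralOrderedRing M
  obtain ⟨a, rfl⟩ := mk0_surjective I x
  refine le_of_forall_pos_le_add fun ε hε => ?_
  obtain ⟨b, hb, hbn⟩ := exists_norm_lt I (star (mk0 I a) * mk0 I a) (half_pos hε)
  rw [star_mk0, ← mk0_mul, mk0_eq_iff] at hb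
  obtain ⟨u, hu, hu0, hu1, hau⟩ := quot_approx I hb (half_pos hε)
  have h1u : ‖1 - u‖ ≤ 1 := by
    rw [CStarAlgebra.norm_le_one_iff_of_nonneg (1 - u) (sub_nonneg.2 hu1)]
    exact sub_le_self _ hu0
  have h1 : mk0 I (a * (1 - u)) = mk0 I a := by
    rw [mk0_eq_iff]
    have : a * (1 - u) - a = -(a * u) := by noncomm_ring
    rw [this]
    exact I.neg_mem (I.left_mem _ hu)
  have h2 : star (1 - u) = 1 - u := by
    rw [star_sub, star_one, (IsSelfAdjoint.of_nonneg hu0).star_eq]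
  calc ‖mk0 I a‖ * ‖mk0 I a‖ = ‖mk0 I (a * (1 - u))‖ * ‖mk0 I (a * (1 - u))‖ := by rw [h1]
    _ ≤ ‖a * (1 - u)‖ * ‖a * (1 - u)‖ := by
        gcongr <;> exact norm_mk0_le I _
    _ = ‖star (a * (1 - u)) * (a * (1 - u))‖ := (CStarRing.norm_star_mul_self).symm
    _ = ‖(1 - u) * ((b * (1 - u)) - ((b - star a * a) * (1 - u)))‖ := by
        rw [star_mul, h2]
        congr 1
        noncomm_ring
    _ ≤ ‖1 - u‖ * ‖(b * (1 - u)) - ((b - star a * a) * (1 - u))‖ := norm_mul_le _ _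
    _ ≤ 1 * (‖b‖ * ‖1 - u‖ + ‖(b - star a * a) * (1 - u)‖) := by
        gcongr
        exact (norm_sub_le _ _).trans (by gcongr; exact norm_mul_le _ _)
    _ ≤ 1 * (‖b‖ * 1 + ε / 2) := by (clear * - h1u hau; gcongr)
    _ ≤ ‖star (mk0 I a) * mk0 I a‖ + ε := by linarith only [hbn]

instance instCStarRing : CStarRing (Quo I) where
  norm_mul_self_le := norm_mul_self_le' I

noncomputable instance instCStarAlgebra : CStarAlgebra (Quo I) where

noncomputable instance instPartialOrder : PartialOrder (Quo I) := CStarAlgebra.spectralOrder _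

instance instStarOrderedRing : StarOrderedRing (Quo I) := CStarAlgebra.spectralOrderedRing _

/-- The quotient map. -/
noncomputable def qm : M →⋆ₐ[ℂ] Quo I where
  toFun := mk0 I
  map_one' := rfl
  map_mul' a b := mk0_mul I a b
  map_zero' := rfl
  map_add' _ _ := rfl
  commutes' _ := rfl
  map_star' a := (star_mk0 I a).symm

variable {I}

theorem qm_surjective : Function.Surjective (qm I) := mk0_surjective I

theorem qm_eq_iff {a b : M} : qm I a = qm I b ↔ a - b ∈ I := mk0_eq_iff I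

theorem qm_eq_zero {a : M} : qm I a = 0 ↔ a ∈ I := by
  rw [← map_zero (qm I), qm_eq_iff, sub_zero]

theorem qm_zero_of_mem {a : M} (h : a ∈ I) : qm I a = 0 := qm_eq_zero.2 h

theorem norm_qm_le (a : M) : ‖qm I a‖ ≤ ‖a‖ := norm_mk0_le I a

theorem exists_qm_norm_lt (x : Quo I) {ε : ℝ} (hε : 0 < ε) :
    ∃ a : M, qm I a = x ∧ ‖a‖ < ‖x‖ + ε := exists_norm_lt I x hε

/-- Functional calculus in the quotient. -/
theorem qm_cfc {f : ℝ → ℝ} (hf : Continuous f) {a : M} (ha : IsSelfAdjoint a) :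
    qm I (cfc f a) = cfc f (qm I a) := map_cfc' (qm I) hf ha

/-- Real scalars in the quotient. -/
theorem qm_real_smul (c : ℝ) (a : M) : qm I (c • a) = c • qm I a := by
  rw [← Complex.coe_smul, map_smul, Complex.coe_smul]

end Quo

open Quo

section Order

variable [PartialOrder M] [StarOrderedRing M]

/-- For finitely many elements of a closed ideal there is an approximate unit. -/
theorem exists_approx_unit {ι : Type*} [Fintype ι] (I : CIdeal M) {c : ι → M}
    (hc : ∀ i, c i ∈ I) {ε : ℝ} (hε : 0 < ε) :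
    ∃ ν : M, PC I ν ∧ ∀ i, ‖c i * (1 - ν)‖ < ε ∧ ‖(1 - ν) * c i‖ < ε := by
  set x : M := ∑ i, (star (c i) * c i + c i * star (c i)) with hx
  have hx0 : 0 ≤ x := Finset.sum_nonneg fun i _ =>
    add_nonneg (star_mul_self_nonneg _) (mul_star_self_nonneg _)
  have hxI : x ∈ I := I.toSub.sum_mem fun i _ =>
    I.add_mem (I.left_mem _ (hc i)) (I.right_mem (hc i) _)
  have hx' : IsSelfAdjoint x := IsSelfAdjoint.of_nonneg hx0
  set η : ℝ := ε ^ 2 with hη
  have hη0 : 0 < η := by positivity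
  have hcc : Continuous (fun u => 1 - cut η u) := continuous_const.sub (cut_continuous η)
  set r : M := cfc (fun u => 1 - cut η u) x with hr
  have h1 : (1 : M) - cfc (cut η) x = r := by
    rw [hr, cfc_sub (fun _ => (1 : ℝ)) (cut η) x continuousOn_const
      (cut_continuous η).continuousOn, cfc_const_one ℝ x]
  have hrsa : IsSelfAdjoint r := cfc_predicate _ _
  have hmain : ‖r * x * r‖ ≤ η / 4 := by
    rw [hr, mul_assoc, mul_cfc hcc hx0, cfc_mul' hcc (cont_id_mul hcc)]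
    refine norm_cfc_le' hx0 (by positivity) (fun u hu _ => ?_)
    have h3 := mul_one_sub_cut_sq_le hη0 hu
    have h4 : 0 ≤ u * (1 - cut η u) ^ 2 := by (clear * - hu; positivity)
    rw [abs_of_nonneg (by nlinarith only [h4])]
    linarith
  have hlt : η / 4 < ε ^ 2 := by rw [hη]; nlinarith only [hη0]
  have hterm : ∀ i, star (c i) * c i ≤ x ∧ c i * star (c i) ≤ x := by
    intro i
    have h1 : star (c i) * c i + c i * star (c i) ≤ x :=
      Finset.single_le_sum (f := fun i => star (c i) * c i + c i * star (c i))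
        (fun i _ => add_nonneg (star_mul_self_nonneg _) (mul_star_self_nonneg _))
        (Finset.mem_univ i)
    exact ⟨le_trans (le_add_of_nonneg_right (mul_star_self_nonneg _)) h1,
      le_trans (le_add_of_nonneg_left (star_mul_self_nonneg _)) h1⟩
  have hconj : ∀ y : M, 0 ≤ y → y ≤ x → ‖r * y * r‖ < ε ^ 2 := fun y hy0 hy =>
    lt_of_le_of_lt ((norm_mono (sa_conj_nonneg hrsa hy0) (sa_conj_le hrsa hy)).trans hmain) hlt
  refine ⟨cfc (cut η) x, PC.of_cfc I hx0 hxI (cut_continuous η) (by simp only [cut, zero_div, zero_le_one, inf_of_le_right])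
    (fun u hu => cut_nonneg hη0 hu) (fun u _ => cut_le_one η u), fun i => ⟨?_, ?_⟩⟩
  · refine lt_of_pow_lt_pow_left₀ 2 hε.le ?_
    rw [h1, norm_sq_eq, star_mul, hrsa.star_eq]
    have := hconj _ (star_mul_self_nonneg (c i)) (hterm i).1
    simpa only [mul_assoc] using this
  · refine lt_of_pow_lt_pow_left₀ 2 hε.le ?_
    rw [h1, norm_sq_eq', star_mul, hrsa.star_eq]
    have := hconj _ (mul_star_self_nonneg (c i)) (hterm i).2
    simpa only [mul_assoc] using this

/-- Lifting positive elements, inside an ideal. -/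
theorem exists_lift_nonneg {I A : CIdeal M} {a : M} (ha : a ∈ A) (h0 : 0 ≤ qm I a) :
    ∃ b ∈ A, 0 ≤ b ∧ qm I b = qm I a := by
  have hmsa : IsSelfAdjoint (qm I a) := IsSelfAdjoint.of_nonneg h0
  set c : M := (2⁻¹ : ℝ) • (a + star a) with hc
  have hcsa : IsSelfAdjoint c := by
    rw [IsSelfAdjoint, hc, star_smul, star_add, star_star, star_trivial, add_comm]
  have hcA : c ∈ A := A.smul_mem _ (A.add_mem ha (A.star_mem ha))
  have hmc : qm I c = qm I a := by
    rw [hc, qm_real_smul, map_add, map_star, hmsa.star_eq, ← two_smul ℝ (qm I a), smul_smul]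
    norm_num
  refine ⟨cfc (fun s : ℝ => max 0 s) c, cfc_mem_ideal A (by fun_prop) (by simp) hcsa hcA,
    cfc_nonneg fun s _ => le_max_left _ _, ?_⟩
  rw [qm_cfc (by fun_prop) hcsa, hmc,
    cfc_congr' (h := fun s : ℝ => s) h0 (fun s hs => max_eq_right hs), cfc_id' ℝ (qm I a)]

end Order

namespace CIdeal

theorem mem_of_forall_norm {I : CIdeal M} {a : M}
    (h : ∀ ε : ℝ, 0 < ε → ∃ b ∈ I, ‖a - b‖ < ε) : a ∈ I := by
  have : a ∈ closure (I.toSub : Set M) := by
    rw [Metric.mem_closure_iff]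
    intro ε hε
    obtain ⟨b, hb, hab⟩ := h ε hε
    exact ⟨b, hb, by rwa [dist_eq_norm]⟩
  rwa [I.closed'.closure_eq] at this

/-- Image of a larger ideal in the quotient. -/
noncomputable def map (I K : CIdeal M) (h : ∀ x ∈ I, x ∈ K) : CIdeal (Quo I) where
  toSub :=
    { carrier := {y | ∃ x ∈ K, qm I x = y}
      zero_mem' := ⟨0, K.zero_mem, map_zero _⟩
      add_mem' := by
        rintro _ _ ⟨x, hx, rfl⟩ ⟨y, hy, rfl⟩
        exact ⟨x + y, K.add_mem hx hy, map_add _ _ _⟩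
      smul_mem' := by
        rintro c _ ⟨x, hx, rfl⟩
        exact ⟨c • x, K.csmul_mem c hx, map_smul _ _ _⟩ }
  mul_left' := by
    rintro c _ ⟨x, hx, rfl⟩
    obtain ⟨b, rfl⟩ := qm_surjective c
    exact ⟨b * x, K.left_mem _ hx, map_mul _ _ _⟩
  mul_right' := by
    rintro c _ ⟨x, hx, rfl⟩
    obtain ⟨b, rfl⟩ := qm_surjective c
    exact ⟨x * b, K.right_mem hx _, map_mul _ _ _⟩
  star_mem' := by
    rintro _ ⟨x, hx, rfl⟩
    exact ⟨star x, K.star_mem hx, map_star _ _⟩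
  closed' := by
    rw [← isSeqClosed_iff_isClosed]
    intro u y hu huy
    obtain ⟨a, rfl⟩ := qm_surjective y
    refine ⟨a, ?_, rfl⟩
    refine mem_of_forall_norm fun ε hε => ?_
    obtain ⟨n, hn⟩ := (Metric.tendsto_atTop.1 huy) ε hε
    obtain ⟨x, hx, hxu⟩ := hu n
    have h1 : ‖qm I (a - x)‖ < ε := by
      rw [map_sub, hxu, ← dist_eq_norm, dist_comm]
      exact hn n le_rfl
    obtain ⟨b, hb, hbn⟩ := exists_qm_norm_lt (qm I (a - x)) (sub_pos.2 h1)
    have h2 : a - x - b ∈ I := qm_eq_iff.1 hb.symm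
    refine ⟨a - b, ?_, ?_⟩
    · have h3 : a - b = (a - x - b) + x := by abel
      rw [h3]
      exact K.add_mem (h _ h2) hx
    · rw [sub_sub_cancel]
      linarith

theorem qm_mem_map {I K : CIdeal M} (h : ∀ x ∈ I, x ∈ K) {a : M} :
    qm I a ∈ map I K h ↔ a ∈ K := by
  constructor
  · rintro ⟨x, hx, hxa⟩
    have h2 : a - x ∈ I := qm_eq_iff.1 hxa.symm
    have h3 : a = (a - x) + x := by abel
    rw [h3]
    exact K.add_mem (h _ h2) hx
  · intro ha
    exact ⟨a, ha, rfl⟩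

/-- Relative pure infiniteness passes to the quotient. -/
theorem PIrel_map [PartialOrder M] [StarOrderedRing M] {I A : CIdeal M} (h : ∀ x ∈ I, x ∈ A)
    (hA : PIrel A) : PIrel (map I A h) := by
  intro y hy hy0 ε hε
  obtain ⟨a, rfl⟩ := qm_surjective y
  rw [qm_mem_map] at hy
  obtain ⟨b, hb, hb0, hba⟩ := exists_lift_nonneg hy hy0
  obtain ⟨x, hx, z, hz, h1, h2, h3⟩ := hA b hb hb0 ε hε
  refine ⟨qm I x, (qm_mem_map h).2 hx, qm I z, (qm_mem_map h).2 hz, ?_, ?_, ?_⟩
  · rw [← hba]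
    refine lt_of_le_of_lt ?_ h1
    have := norm_qm_le (I := I) (star x * b * x - b)
    rwa [map_sub, map_mul, map_mul, map_star] at this
  · rw [← hba]
    refine lt_of_le_of_lt ?_ h2
    have := norm_qm_le (I := I) (star z * b * z - b)
    rwa [map_sub, map_mul, map_mul, map_star] at this
  · rw [← hba]
    refine lt_of_le_of_lt ?_ h3
    have := norm_qm_le (I := I) (star x * b * z)
    rwa [map_mul, map_mul, map_star] at this

/-- The closed two-sided ideal of elements killed by every hom killing `S`. -/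
noncomputable def gen (S : Set M) : CIdeal M where
  toSub :=
    { carrier := {a | ∀ (C : Type u) [CStarAlgebra C] (π : M →⋆ₐ[ℂ] C),
        (∀ s ∈ S, π s = 0) → π a = 0}
      zero_mem' := fun C _ π _ => map_zero π
      add_mem' := fun {a b} ha hb C _ π h => by rw [map_add, ha C π h, hb C π h, add_zero]
      smul_mem' := fun c a ha C _ π h => by rw [map_smul, ha C π h, smul_zero] }
  mul_left' a x hx := fun C _ π h => by rw [map_mul, hx C π h, mul_zero]
  mul_right' a x hx := fun C _ π h => by rw [map_mul, hx C π h, zero_mul]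
  star_mem' x hx := fun C _ π h => by rw [map_star, hx C π h, star_zero]
  closed' := by
    have : {a : M | ∀ (C : Type u) [CStarAlgebra C] (π : M →⋆ₐ[ℂ] C),
        (∀ s ∈ S, π s = 0) → π a = 0} = ⋂ (C : Type u) (_ : CStarAlgebra C) (π : M →⋆ₐ[ℂ] C)
        (_ : ∀ s ∈ S, π s = 0), {a : M | π a = 0} := by
      ext a
      simp only [Set.mem_ofPred_eq, mem_iInter]
    change IsClosed {a : M | ∀ (C : Type u) [CStarAlgebra C] (π : M →⋆ₐ[ℂ] C),
        (∀ s ∈ S, π s = 0) → π a = 0}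
    rw [this]
    refine isClosed_iInter fun C => isClosed_iInter fun _ => isClosed_iInter fun π =>
      isClosed_iInter fun _ => isClosed_eq ?_ continuous_const
    exact (AddMonoidHomClass.continuous_of_bound π 1 fun a => by
      rw [one_mul]
      exact norm_map_le π a)

theorem subset_gen {S : Set M} {a : M} (h : a ∈ S) : a ∈ gen S := fun _ _ _ hS => hS a h

theorem gen_le {S : Set M} {J : CIdeal M} (h : ∀ x ∈ S, x ∈ J) {a : M} (ha : a ∈ gen S) :
    a ∈ J := by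
  rw [← qm_eq_zero]
  exact ha (Quo J) (qm J) fun s hs => qm_zero_of_mem (h s hs)

/-- The closure of the sum of two closed ideals. -/
noncomputable def sup (I J : CIdeal M) : CIdeal M where
  toSub := (I.toSub ⊔ J.toSub).topologicalClosure
  mul_left' b a h := by
    refine map_mem_closure (f := fun x => b * x) (continuous_const_mul b) h fun x hx => ?_
    obtain ⟨y, hy, z, hz, rfl⟩ := Submodule.mem_sup.1 hx
    change b * (y + z) ∈ (I.toSub ⊔ J.toSub)
    rw [mul_add]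
    exact Submodule.add_mem_sup (I.left_mem b hy) (J.left_mem b hz)
  mul_right' b a h := by
    refine map_mem_closure (f := fun x => x * b) (continuous_mul_const b) h fun x hx => ?_
    obtain ⟨y, hy, z, hz, rfl⟩ := Submodule.mem_sup.1 hx
    change (y + z) * b ∈ (I.toSub ⊔ J.toSub)
    rw [add_mul]
    exact Submodule.add_mem_sup (I.right_mem hy b) (J.right_mem hz b)
  star_mem' a h := by
    refine map_mem_closure (f := fun x => star x) continuous_star h fun x hx => ?_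
    obtain ⟨y, hy, z, hz, rfl⟩ := Submodule.mem_sup.1 hx
    change star (y + z) ∈ (I.toSub ⊔ J.toSub)
    rw [star_add]
    exact Submodule.add_mem_sup (I.star_mem hy) (J.star_mem hz)
  closed' := isClosed_closure

theorem mem_sup_left {I J : CIdeal M} {a : M} (h : a ∈ I) : a ∈ sup I J :=
  subset_closure (Submodule.mem_sup_left h)

theorem mem_sup_right {I J : CIdeal M} {a : M} (h : a ∈ J) : a ∈ sup I J :=
  subset_closure (Submodule.mem_sup_right h)

/-- Elements killed by every hom that kills `I` and `J` are approximately sums. -/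
theorem exists_add_approx (I J : CIdeal M) {h : M}
    (H : ∀ (C : Type u) [CStarAlgebra C] (π : M →⋆ₐ[ℂ] C), (∀ x ∈ I, π x = 0) →
      (∀ x ∈ J, π x = 0) → π h = 0) {ε : ℝ} (hε : 0 < ε) :
    ∃ x ∈ I, ∃ y ∈ J, ‖h - (x + y)‖ < ε := by
  have h1 : h ∈ sup I J := by
    rw [← qm_eq_zero]
    exact H _ _ (fun x hx => qm_zero_of_mem (mem_sup_left hx))
      fun x hx => qm_zero_of_mem (mem_sup_right hx)
  obtain ⟨z, hz, hzn⟩ := Metric.mem_closure_iff.1 h1 ε hε
  obtain ⟨x, hx, y, hy, rfl⟩ := Submodule.mem_sup.1 hz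
  exact ⟨x, hx, y, hy, by rwa [← dist_eq_norm]⟩

/-- Version for two generating sets: `h` is killed when `S` and `T` are killed. -/
theorem exists_decomp (S T : Set M) {h : M}
    (H : ∀ (C : Type u) [CStarAlgebra C] (π : M →⋆ₐ[ℂ] C), (∀ x ∈ S, π x = 0) →
      (∀ x ∈ T, π x = 0) → π h = 0) {ε : ℝ} (hε : 0 < ε) :
    ∃ x ∈ gen S, ∃ y ∈ gen T, ‖h - (x + y)‖ < ε :=
  exists_add_approx (gen S) (gen T) (fun C _ π h1 h2 => H C π
    (fun x hx => h1 x (subset_gen hx)) fun x hx => h2 x (subset_gen hx)) hε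

end CIdeal

end Vale.Agent.P133
end
end

section

section

/-! Interface: consequences of the quotient construction used by T1, T5, T6. -/

open scoped ComplexOrder

namespace Vale.Agent.P133

universe u

/-- Q5: universal property of a surjective homomorphism. -/
theorem exists_factor {M B C : Type u} [CStarAlgebra M] [CStarAlgebra B] [CStarAlgebra C]
    (q : M →⋆ₐ[ℂ] B) (hq : Function.Surjective q) (π : M →⋆ₐ[ℂ] C)
    (h : ∀ x, q x = 0 → π x = 0) : ∃ ρ : B →⋆ₐ[ℂ] C, ∀ x, ρ (q x) = π x := by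
  have key : ∀ a b : M, q a = q b → π a = π b := fun a b hab => by
    rw [← sub_eq_zero, ← map_sub]
    exact h _ (by rw [map_sub, hab, sub_self])
  set o : B → M := Function.surjInv hq with ho
  have hqo : ∀ x, q (o x) = x := Function.surjInv_eq hq
  refine ⟨{ toFun := fun x => π (o x)
            map_one' := by
              rw [← map_one π]
              exact key _ _ (by rw [hqo, map_one])
            map_mul' := fun x y => by
              rw [← map_mul π]
              exact key _ _ (by rw [hqo, map_mul, hqo, hqo])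
            map_zero' := by
              rw [← map_zero π]
              exact key _ _ (by rw [hqo, map_zero])
            map_add' := fun x y => by
              rw [← map_add π]
              exact key _ _ (by rw [hqo, map_add, hqo, hqo])
            commutes' := fun z => by
              rw [← AlgHomClass.commutes π z]
              exact key _ _ (by rw [hqo, AlgHomClass.commutes])
            map_star' := fun x => by
              rw [← map_star π]
              exact key _ _ (by rw [hqo, map_star, hqo]) }, fun x => key _ _ (hqo (q x))⟩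

variable {M : Type u} [CStarAlgebra M] [PartialOrder M] [StarOrderedRing M]

/-- Q1: the quotient by the closed ideal generated by a subset `S` of `A`. -/
theorem exists_quot (A : CIdeal M) (S : Set M) (hS : ∀ s ∈ S, s ∈ A) :
    ∃ (B : Type u) (_ : CStarAlgebra B) (_ : PartialOrder B) (_ : StarOrderedRing B)
      (q : M →⋆ₐ[ℂ] B) (AB : CIdeal B), Function.Surjective q ∧ (∀ s ∈ S, q s = 0) ∧
      (∀ (C : Type u) [CStarAlgebra C] (π : M →⋆ₐ[ℂ] C),
        (∀ s ∈ S, π s = 0) → ∀ x, q x = 0 → π x = 0) ∧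
      (∀ x, q x = 0 → x ∈ A) ∧ (∀ x, x ∈ AB ↔ ∃ a ∈ A, q a = x) ∧ (PIrel A → PIrel AB) := by
  have hle : ∀ x ∈ CIdeal.gen S, x ∈ A := fun x hx => CIdeal.gen_le hS hx
  refine ⟨Quo (CIdeal.gen S), inferInstance, inferInstance, inferInstance,
    Quo.qm (CIdeal.gen S), CIdeal.map (CIdeal.gen S) A hle, Quo.qm_surjective,
    fun s hs => Quo.qm_zero_of_mem (CIdeal.subset_gen hs), fun C _ π hπ x hx =>
    (Quo.qm_eq_zero.1 hx) C π hπ, fun x hx => hle x (Quo.qm_eq_zero.1 hx), fun x => Iff.rfl,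
    fun hA => CIdeal.PIrel_map hle hA⟩

/-- killing a cut-down is a norm bound -/
theorem iface_cut_iff {C : Type u} [CStarAlgebra C] (π : M →⋆ₐ[ℂ] C) {x : M} (hx : 0 ≤ x)
    {κ : ℝ} (hκ : 0 ≤ κ) : π (cfc (fun s : ℝ => max (s - κ) 0) x) = 0 ↔ ‖π x‖ ≤ κ := by
  let _ := CStarAlgebra.spectralOrder C
  let _ := CStarAlgebra.spectralOrderedRing C
  have hx' : IsSelfAdjoint x := IsSelfAdjoint.of_nonneg hx
  have hmx : 0 ≤ π x := map_nonneg' π hx
  rw [map_cfc' π (by fun_prop) hx']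
  constructor
  · intro h
    refine norm_le_of_cfc (g := fun s : ℝ => max (s - κ) 0) (by fun_prop) hmx hκ (t := 0)
      (fun s hs => ?_) (by rw [h, norm_zero])
    rw [abs_of_nonneg (le_max_right _ _)]
    exact lt_max_of_lt_left (by linarith only [hs])
  · intro h
    rw [cfc_congr (g := fun _ : ℝ => (0 : ℝ)) fun s hs => max_eq_right (by
      linarith only [h, spec_le_norm hs]), cfc_const_zero]

theorem iface_cut_mem (A : CIdeal M) {x : M} (hx : 0 ≤ x) (hxA : x ∈ A) {κ : ℝ} (hκ : 0 ≤ κ) :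
    cfc (fun s : ℝ => max (s - κ) 0) x ∈ A :=
  K.cfc_mem_ideal A (by fun_prop) (by simp only [zero_sub, Left.neg_nonpos_iff, hκ, sup_of_le_right]) (IsSelfAdjoint.of_nonneg hx) hxA

/-- Q1': the same quotient, for the norm conditions `‖π (x i)‖ ≤ κ i` (`0 < κ i`). -/
theorem exists_quot_norm (A : CIdeal M) {ι : Type} (x : ι → M) (hx : ∀ i, x i ∈ A)
    (hx0 : ∀ i, 0 ≤ x i) (κ : ℝ) (hκ : 0 < κ) :
    ∃ (B : Type u) (_ : CStarAlgebra B) (_ : PartialOrder B) (_ : StarOrderedRing B)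
      (q : M →⋆ₐ[ℂ] B) (AB : CIdeal B), Function.Surjective q ∧ (∀ i, ‖q (x i)‖ ≤ κ) ∧
      (∀ (C : Type u) [CStarAlgebra C] (π : M →⋆ₐ[ℂ] C),
        (∀ i, ‖π (x i)‖ ≤ κ) → ∀ z, q z = 0 → π z = 0) ∧
      (∀ z, q z = 0 → z ∈ A) ∧ (∀ z, z ∈ AB ↔ ∃ a ∈ A, q a = z) ∧ (PIrel A → PIrel AB) := by
  obtain ⟨B, i1, i2, i3, q, AB, h1, h2, h3, h4, h5, h6⟩ := exists_quot A
    (Set.range fun i => cfc (fun s : ℝ => max (s - κ) 0) (x i))
    (by
      rintro _ ⟨i, rfl⟩
      exact iface_cut_mem A (hx0 i) (hx i) hκ.le)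
  refine ⟨B, i1, i2, i3, q, AB, h1, fun i => (iface_cut_iff q (hx0 i) hκ.le).1 (h2 _ ⟨i, rfl⟩),
    fun C _ π hπ => h3 C π ?_, h4, h5, h6⟩
  rintro _ ⟨i, rfl⟩
  exact (iface_cut_iff π (hx0 i) hκ.le).2 (hπ i)

/-- Q2: `z` is killed whenever all `‖π (x i)‖ ≤ κ` and `‖π y‖ ≤ κ'`: then `z` is approximately
a sum. -/
theorem exists_decomp (A : CIdeal M) {ι : Type} (x : ι → M) (hx : ∀ i, x i ∈ A)
    (hx0 : ∀ i, 0 ≤ x i) {κ : ℝ} (hκ : 0 < κ) {y : M} (hy : y ∈ A) (hy0 : 0 ≤ y) {κ' : ℝ}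
    (hκ' : 0 < κ') {z : M} (hz : z ∈ A)
    (h : ∀ (C : Type u) [CStarAlgebra C] (π : M →⋆ₐ[ℂ] C),
      (∀ i, ‖π (x i)‖ ≤ κ) → ‖π y‖ ≤ κ' → π z = 0) {ε : ℝ} (hε : 0 < ε) :
    ∃ k m : M, k ∈ A ∧ m ∈ A ∧ ‖z - (k + m)‖ ≤ ε ∧
      (∀ (C : Type u) [CStarAlgebra C] (π : M →⋆ₐ[ℂ] C), (∀ i, ‖π (x i)‖ ≤ κ) → π k = 0) ∧
      (∀ (C : Type u) [CStarAlgebra C] (π : M →⋆ₐ[ℂ] C), ‖π y‖ ≤ κ' → π m = 0) := by
  obtain ⟨k, hk, m, hm, hkm⟩ := CIdeal.exists_decomp
    (Set.range fun i => cfc (fun s : ℝ => max (s - κ) 0) (x i))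
    {cfc (fun s : ℝ => max (s - κ') 0) y} (h := z)
    (fun C _ π h1 h2 => h C π (fun i => (iface_cut_iff π (hx0 i) hκ.le).1 (h1 _ ⟨i, rfl⟩))
      ((iface_cut_iff π hy0 hκ'.le).1 (h2 _ rfl))) hε
  refine ⟨k, m, CIdeal.gen_le ?_ hk, CIdeal.gen_le ?_ hm, hkm.le, fun C _ π h1 => hk C π ?_,
    fun C _ π h1 => hm C π ?_⟩
  · rintro _ ⟨i, rfl⟩
    exact iface_cut_mem A (hx0 i) (hx i) hκ.le
  · rintro _ rfl
    exact iface_cut_mem A hy0 hy hκ'.le
  · rintro _ ⟨i, rfl⟩
    exact (iface_cut_iff π (hx0 i) hκ.le).2 (h1 i)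
  · rintro _ rfl
    exact (iface_cut_iff π hy0 hκ'.le).2 h1

/-- Q3: approximate units of a kernel. -/
theorem exists_unit (A : CIdeal M) {B : Type u} [CStarAlgebra B] (q : M →⋆ₐ[ℂ] B) (s : Finset M)
    (hs : ∀ k ∈ s, q k = 0) (hsA : ∀ k ∈ s, k ∈ A) {ε : ℝ} (hε : 0 < ε) :
    ∃ l : M, PC A l ∧ q l = 0 ∧ ∀ k ∈ s, ‖k - l * k‖ ≤ ε := by
  obtain ⟨l, hl, hlk⟩ := exists_approx_unit (ι := s) (CIdeal.gen (s : Set M))
    (c := fun k => k.1) (fun k => CIdeal.subset_gen k.2) hε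
  refine ⟨l, ⟨CIdeal.gen_le hsA hl.mem, hl.nonneg, hl.le_one⟩, hl.mem B q hs, fun k hk => ?_⟩
  have h1 := (hlk ⟨k, hk⟩).2
  have h2 : k - l * k = (1 - l) * k := by noncomm_ring
  rw [h2]
  exact h1.le

/-- Q4: lifting positive contractions. -/
theorem lift_pos (A : CIdeal M) {B : Type u} [CStarAlgebra B] [PartialOrder B]
    [StarOrderedRing B] (q : M →⋆ₐ[ℂ] B) (AB : CIdeal B) (hAB : ∀ x, x ∈ AB ↔ ∃ a ∈ A, q a = x)
    {g : B} (hg : PC AB g) : ∃ y : M, PC A y ∧ q y = g := by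
  obtain ⟨a, ha, hag⟩ := (hAB g).1 hg.mem
  have hgsa : IsSelfAdjoint g := IsSelfAdjoint.of_nonneg hg.nonneg
  set c : M := (2⁻¹ : ℝ) • (a + star a) with hc
  have hcsa : IsSelfAdjoint c := by
    rw [IsSelfAdjoint, hc, star_smul, star_add, star_star, star_trivial, add_comm]
  have hcA : c ∈ A := A.smul_mem _ (A.add_mem ha (A.star_mem ha))
  have hmc : q c = g := by
    have h1 : q c = (2⁻¹ : ℝ) • (q a + star (q a)) := by
      rw [hc, ← Complex.coe_smul, map_smul, Complex.coe_smul, map_add, map_star]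
    rw [h1, hag, hgsa.star_eq, ← two_smul ℝ g, smul_smul]
    norm_num
  have hn : ‖g‖ ≤ 1 := K.PC.norm hg
  set f : ℝ → ℝ := fun s => max 0 (min 1 s) with hf
  have hfc : Continuous f := by fun_prop
  refine ⟨cfc f c, ⟨K.cfc_mem_ideal A hfc (by simp only [hf, zero_le_one, inf_of_le_right, Std.le_refl, sup_of_le_left]) hcsa hcA,
    cfc_nonneg fun s _ => le_max_left _ _,
    cfc_le_one _ _ fun s _ => max_le zero_le_one (min_le_left _ _)⟩, ?_⟩
  rw [map_cfc' q hfc hcsa, hmc]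
  rw [cfc_congr (g := fun s : ℝ => s) fun s hs => by
    have h2 := spec_le_norm hs
    have h3 := spec_nonneg hg.nonneg hs
    simp only [hf]
    rw [min_eq_right (by linarith only [hn, h2]), max_eq_right h3], cfc_id' ℝ g]

omit [PartialOrder M] [StarOrderedRing M] in
/-- Q4': lifting contractions. -/
theorem lift_contr (A : CIdeal M) {B : Type u} [CStarAlgebra B]
    (q : M →⋆ₐ[ℂ] B) {t : B} (ht : ∃ a ∈ A, q a = t) (ht1 : ‖t‖ ≤ 1) :
    ∃ y ∈ A, ‖y‖ ≤ 1 ∧ q y = t := by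
  let _ := CStarAlgebra.spectralOrder M
  let _ := CStarAlgebra.spectralOrderedRing M
  let _ := CStarAlgebra.spectralOrder B
  let _ := CStarAlgebra.spectralOrderedRing B
  obtain ⟨a, ha, rfl⟩ := ht
  set x : M := star a * a with hx
  have hx0 : 0 ≤ x := star_mul_self_nonneg a
  have hx' : IsSelfAdjoint x := IsSelfAdjoint.of_nonneg hx0
  set h : ℝ → ℝ := fun s => 1 / max 1 (√s) with hh
  have hcont : Continuous h := by
    refine continuous_const.div (by fun_prop) fun s => ?_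
    exact (lt_of_lt_of_le one_pos (le_max_left 1 (√s))).ne'
  have hsa : star (cfc h x) = cfc h x := star_cfc _ _
  refine ⟨a * cfc h x, A.right_mem ha _, ?_, ?_⟩
  · have h2 : star (a * cfc h x) * (a * cfc h x) = cfc (fun s => h s * (s * h s)) x := by
      rw [← cfc_mul' hcont (K.cont_id_mul hcont), ← mul_cfc hcont hx0, star_mul, hsa, hx]
      simp only [mul_assoc]
    have h3 : ‖a * cfc h x‖ ^ 2 ≤ 1 := by
      rw [K.norm_sq_eq, h2]
      refine norm_cfc_le' hx0 zero_le_one fun s hs0 _ => ?_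
      have hm : 0 < max 1 (√s) := lt_of_lt_of_le one_pos (le_max_left 1 (√s))
      have h4 : h s * (s * h s) = s / (max 1 (√s)) ^ 2 := by
        rw [hh]
        (clear * -; field_simp)
      rw [h4, abs_of_nonneg (by (clear * - hs0; positivity)), div_le_one (by positivity)]
      calc s = √s ^ 2 := (Real.sq_sqrt hs0).symm
        _ ≤ _ := by
          gcongr
          exact le_max_right _ _
    nlinarith only [h3]
  · have hmx : 0 ≤ q x := map_nonneg' q hx0
    have hmsa : IsSelfAdjoint (q x) := hx'.map q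
    have hn : ‖q x‖ ≤ 1 := by
      rw [hx, map_mul, map_star, ← K.norm_sq_eq]
      nlinarith only [ht1, norm_nonneg (q a)]
    rw [map_mul, map_cfc' q hcont hx']
    rw [cfc_congr (g := fun _ : ℝ => (1 : ℝ)) fun s hs => by
      have h7 : √s ≤ 1 := Real.sqrt_le_one.2 ((spec_le_norm hs).trans hn)
      simp only [hh]
      rw [max_eq_left h7, div_one], cfc_const_one ℝ (q x), mul_one]

end Vale.Agent.P133
end
end

section

section

/-! P133, T1: in a purely infinite ideal every positive element of the closed ideal generated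
by `c` can be doubled under `c`. -/

open scoped ComplexOrder NNReal
open Filter Topology

namespace Vale.Agent.P133

universe u
set_option linter.unusedSectionVars false
variable {M : Type u} [CStarAlgebra M] [PartialOrder M] [StarOrderedRing M]

/-! ### small functional calculus facts -/

theorem t1_sqrt_mul_sqrt {k : M} (hk : 0 ≤ k) : cfc Real.sqrt k * cfc Real.sqrt k = k := by
  rw [← cfc_mul Real.sqrt Real.sqrt k]
  conv_rhs => rw [← cfc_id' ℝ k]
  refine cfc_congr fun s hs => ?_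
  have : 0 ≤ s := spectrum_nonneg_of_nonneg hk hs
  simp [Real.mul_self_sqrt this]

theorem t1_sqrt_sa (k : M) : star (cfc Real.sqrt k) = cfc Real.sqrt k :=
  (cfc_predicate Real.sqrt k : IsSelfAdjoint _).star_eq

/-- `(k + μ)^{-1/2}` for positive `k` -/
noncomputable def t1_f (μ s : ℝ) : ℝ := (Real.sqrt (max s 0 + μ))⁻¹

theorem t1_f_cont {μ : ℝ} (hμ : 0 < μ) : Continuous (t1_f μ) := by
  unfold t1_f
  refine Continuous.inv₀ (by fun_prop) fun s => ?_
  have : 0 < max s 0 + μ := by positivity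
  exact (Real.sqrt_pos.2 this).ne'

theorem t1_f_spec {μ : ℝ} (hμ : 0 < μ) {s : ℝ} (hs : 0 ≤ s) : t1_f μ s * (s + μ) * t1_f μ s = 1 := by
  unfold t1_f
  rw [max_eq_left hs]
  have h : 0 < s + μ := by positivity
  have h1 : Real.sqrt (s + μ) * Real.sqrt (s + μ) = s + μ := Real.mul_self_sqrt h.le
  have h2 : Real.sqrt (s + μ) ≠ 0 := (Real.sqrt_pos.2 h).ne'
  field_simp
  rw [sq, h1]

/-- the heredity estimate -/
theorem t1_hered {k k' : M} (hk' : 0 ≤ k') (hkk : k' ≤ k) {μ : ℝ} (hμ : 0 < μ) :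
    ∃ v : M, ‖v‖ ≤ 1 ∧ ‖star v * k * v - k'‖ ≤ μ := by
  have hk : 0 ≤ k := hk'.trans hkk
  have hc := t1_f_cont hμ
  set r : M := cfc (t1_f μ) k with hr
  set s : M := cfc Real.sqrt k' with hs
  have hrsa : star r = r := (cfc_predicate (t1_f μ) k : IsSelfAdjoint _).star_eq
  have hssa : star s = s := t1_sqrt_sa k'
  have hss : s * s = k' := t1_sqrt_mul_sqrt hk'
  have hksa : IsSelfAdjoint k := hk.isSelfAdjoint
  have hid : k = cfc (fun s : ℝ => s) k := (cfc_id' ℝ k hksa).symm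
  have hkμ : k + algebraMap ℝ M μ = cfc (fun s : ℝ => s + μ) k := by
    rw [cfc_add_const μ (fun s : ℝ => s) k (by fun_prop) hksa, ← hid]
  have hrr : r * (k + algebraMap ℝ M μ) * r = 1 := by
    rw [hkμ, hr, ← cfc_mul (t1_f μ) (fun s : ℝ => s + μ) k (hc.continuousOn) (by fun_prop),
      ← cfc_mul (fun s => t1_f μ s * (s + μ)) (t1_f μ) k
        (by exact (hc.mul (by fun_prop)).continuousOn) hc.continuousOn]
    have : Set.EqOn (fun s : ℝ => t1_f μ s * (s + μ) * t1_f μ s) (1 : ℝ → ℝ) (spectrum ℝ k) := by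
      intro s hs
      exact t1_f_spec hμ (spectrum_nonneg_of_nonneg hk hs)
    rw [cfc_congr this, cfc_one ℝ k hksa]
  have hμ1 : r * (algebraMap ℝ M μ) * r = μ • (r * r) := by
    rw [Algebra.algebraMap_eq_smul_one, mul_smul_comm, mul_one, smul_mul_assoc]
  have hnorm : ‖r * s‖ ≤ 1 := by
    have h1 : ‖r * s‖ * ‖r * s‖ = ‖r * k' * r‖ := by
      rw [← CStarRing.norm_self_mul_star, star_mul, hssa, hrsa]
      congr 1
      rw [← hss]; noncomm_ring
    have h2 : r * k' * r ≤ r * (k + algebraMap ℝ M μ) * r := by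
      have hle : k' ≤ k + algebraMap ℝ M μ := by
        refine hkk.trans (le_add_of_nonneg_right ?_)
        rw [Algebra.algebraMap_eq_smul_one]
        exact smul_nonneg hμ.le zero_le_one
      have := star_left_conjugate_le_conjugate hle r
      rwa [hrsa] at this
    have h3 : 0 ≤ r * k' * r := by
      have := star_left_conjugate_nonneg hk' r
      rwa [hrsa] at this
    have h4 : ‖r * k' * r‖ ≤ 1 := by
      refine (CStarAlgebra.norm_le_norm_of_nonneg_of_le h3 h2).trans ?_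
      rw [hrr]
      rcases subsingleton_or_nontrivial M with h | h
      · rw [Subsingleton.elim (1 : M) 0, norm_zero]; exact zero_le_one
      · rw [CStarRing.norm_one]
    by_contra hcon
    push Not at hcon
    nlinarith only [h1, h4, hcon]
  refine ⟨r * s, hnorm, ?_⟩
  have e : star (r * s) * k * (r * s) - k' = -(μ • (star (r * s) * (r * s))) := by
    have h1 : star (r * s) * k * (r * s) = s * (r * (k + algebraMap ℝ M μ) * r) * s -
        s * (r * algebraMap ℝ M μ * r) * s := by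
      rw [star_mul, hssa, hrsa]; noncomm_ring
    rw [h1, hrr, hμ1, mul_one, hss, star_mul, hssa, hrsa]
    simp only [mul_smul_comm, smul_mul_assoc]
    rw [sub_sub_cancel_left]
    congr 2
    noncomm_ring
  rw [e, norm_neg, norm_smul, Real.norm_of_nonneg hμ.le]
  have h5 : ‖star (r * s) * (r * s)‖ ≤ 1 := by
    rw [CStarRing.norm_star_mul_self]
    nlinarith only [hnorm, norm_nonneg (r * s)]
  nlinarith only [hμ, h5]

/-- closure of the set of all `u* c u`, `u ∈ A` -/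
def t1_S (A : CIdeal M) (c : M) : Set M := closure ((fun u => star u * c * u) '' {u | u ∈ A})

theorem t1_mem_S_iff {A : CIdeal M} {c k : M} :
    k ∈ t1_S A c ↔ ∀ ε > 0, ∃ u ∈ A, ‖star u * c * u - k‖ < ε := by
  rw [t1_S, Metric.mem_closure_iff]
  constructor
  · intro h ε hε
    obtain ⟨_, ⟨u, hu, rfl⟩, hd⟩ := h ε hε
    exact ⟨u, hu, by rwa [dist_eq_norm, norm_sub_rev] at hd⟩
  · intro h ε hε
    obtain ⟨u, hu, hd⟩ := h ε hε
    exact ⟨_, ⟨u, hu, rfl⟩, by rwa [dist_eq_norm, norm_sub_rev]⟩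

theorem t1_conj {A : CIdeal M} {c k : M} (hk : k ∈ t1_S A c) (z : M) :
    star z * k * z ∈ t1_S A c := by
  rw [t1_mem_S_iff] at hk ⊢
  intro ε hε
  obtain ⟨u, hu, hd⟩ := hk (ε / (‖z‖ ^ 2 + 1)) (by positivity)
  refine ⟨u * z, A.mul_right' _ _ hu, ?_⟩
  have e : star (u * z) * c * (u * z) - star z * k * z =
      star z * (star u * c * u - k) * z := by
    rw [star_mul]; noncomm_ring
  rw [e]
  calc ‖star z * (star u * c * u - k) * z‖ ≤ ‖star z‖ * ‖star u * c * u - k‖ * ‖z‖ := by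
        refine (norm_mul_le _ _).trans ?_
        gcongr
        exact norm_mul_le _ _
    _ = ‖z‖ ^ 2 * ‖star u * c * u - k‖ := by rw [norm_star]; ring
    _ ≤ ‖z‖ ^ 2 * (ε / (‖z‖ ^ 2 + 1)) := by gcongr
    _ < (‖z‖ ^ 2 + 1) * (ε / (‖z‖ ^ 2 + 1)) := by
        have : 0 < ε / (‖z‖ ^ 2 + 1) := by positivity
        linarith
    _ = ε := by field_simp

theorem t1_smul {A : CIdeal M} {c k : M} (hk : k ∈ t1_S A c) {r : ℝ} (hr : 0 ≤ r) :
    r • k ∈ t1_S A c := by
  have h := t1_conj hk (algebraMap ℝ M (Real.sqrt r))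
  have e : star (algebraMap ℝ M (Real.sqrt r)) * k * algebraMap ℝ M (Real.sqrt r) = r • k := by
    rw [Algebra.algebraMap_eq_smul_one, star_smul, star_one, smul_mul_assoc, one_mul,
      smul_mul_assoc, mul_smul_comm, mul_one, smul_smul]
    simp [Real.mul_self_sqrt hr]
  rwa [e] at h

theorem t1_hered_mem {A : CIdeal M} {c k k' : M} (hk : k ∈ t1_S A c) (hk' : 0 ≤ k')
    (hkk : k' ≤ k) : k' ∈ t1_S A c := by
  have hcl : IsClosed (t1_S A c) := isClosed_closure
  rw [← hcl.closure_eq, Metric.mem_closure_iff]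
  intro ε hε
  obtain ⟨v, -, hv⟩ := t1_hered hk' hkk (μ := ε / 2) (by positivity)
  refine ⟨_, t1_conj hk v, ?_⟩
  rw [dist_eq_norm, norm_sub_rev]
  linarith only [hε, hv]

theorem t1_add {A : CIdeal M} (hA : PIrel A) {c : M} (hc : 0 ≤ c) (hcA : c ∈ A) {k l : M}
    (hk : k ∈ t1_S A c) (hl : l ∈ t1_S A c) : k + l ∈ t1_S A c := by
  rw [t1_mem_S_iff] at hk hl ⊢
  intro ε hε
  obtain ⟨u, hu, hud⟩ := hk (ε / 4) (by positivity)
  obtain ⟨v, hv, hvd⟩ := hl (ε / 4) (by positivity)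
  set K : ℝ := (‖u‖ + ‖v‖) ^ 2 + 1 with hK
  have hK0 : 0 < K := by (clear * -; positivity)
  obtain ⟨x, hx, y, hy, hxx, hyy, hxy⟩ := hA c hcA hc (ε / (2 * K)) (by (clear * - hε; positivity))
  refine ⟨x * u + y * v, ?_, ?_⟩
  · exact A.toSub.add_mem (A.mul_left' _ _ hu) (A.mul_left' _ _ hv)
  have hyx : ‖star y * c * x‖ < ε / (2 * K) := by
    rw [← norm_star]
    have : star (star y * c * x) = star x * c * y := by
      rw [star_mul, star_mul, star_star, hc.isSelfAdjoint.star_eq, mul_assoc]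
    rwa [this]
  have e : star (x * u + y * v) * c * (x * u + y * v) - (k + l) =
      (star u * (star x * c * x - c) * u + star v * (star y * c * y - c) * v +
        star u * (star x * c * y) * v + star v * (star y * c * x) * u) +
      ((star u * c * u - k) + (star v * c * v - l)) := by
    simp only [star_add, star_mul]; noncomm_ring
  have b : ∀ (p q w : M), ‖star p * w * q‖ ≤ ‖p‖ * ‖w‖ * ‖q‖ := by
    intro p q w
    refine (norm_mul_le _ _).trans ?_
    gcongr
    refine (norm_mul_le _ _).trans_eq ?_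
    rw [norm_star]
  rw [e]
  set η := ε / (2 * K) with hη
  have b1 := b u u (star x * c * x - c)
  have b2 := b v v (star y * c * y - c)
  have b3 := b u v (star x * c * y)
  have b4 := b v u (star y * c * x)
  have n1 : ‖star u * (star x * c * x - c) * u + star v * (star y * c * y - c) * v +
        star u * (star x * c * y) * v + star v * (star y * c * x) * u‖ ≤
      (‖u‖ + ‖v‖) ^ 2 * η := by
    refine (norm_add_le _ _).trans ?_
    refine (add_le_add (norm_add_le _ _) le_rfl).trans ?_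
    refine (add_le_add (add_le_add (norm_add_le _ _) le_rfl) le_rfl).trans ?_
    have hu0 := norm_nonneg u
    have hv0 := norm_nonneg v
    have c1 : ‖u‖ * ‖star x * c * x - c‖ * ‖u‖ ≤ ‖u‖ * η * ‖u‖ := by (clear * - hxx; gcongr)
    have c2 : ‖v‖ * ‖star y * c * y - c‖ * ‖v‖ ≤ ‖v‖ * η * ‖v‖ := by (clear * - hyy; gcongr)
    have c3 : ‖u‖ * ‖star x * c * y‖ * ‖v‖ ≤ ‖u‖ * η * ‖v‖ := by (clear * - hxy; gcongr)
    have c4 : ‖v‖ * ‖star y * c * x‖ * ‖u‖ ≤ ‖v‖ * η * ‖u‖ := by (clear * - hyx; gcongr)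
    linarith
  have n2 : (‖u‖ + ‖v‖) ^ 2 * η ≤ ε / 2 := by
    have : K * η = ε / 2 := by rw [hη]; (clear * - hK0 hε; field_simp)
    have hη0 : 0 ≤ η := by (clear * - hε; positivity)
    nlinarith only [this, hη0]
  have n3 : ‖(star u * c * u - k) + (star v * c * v - l)‖ < ε / 2 := by
    refine (norm_add_le _ _).trans_lt ?_
    linarith only [hud, hvd]
  refine (norm_add_le _ _).trans_lt ?_
  linarith only [n1, n2, n3]

/-- `h² ∈ S` implies `h ∈ S` for `h ≥ 0` -/
theorem t1_of_sq {A : CIdeal M} {c h : M} (hh : 0 ≤ h) (h2 : h * h ∈ t1_S A c) :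
    h ∈ t1_S A c := by
  have hcl : IsClosed (t1_S A c) := isClosed_closure
  rw [← hcl.closure_eq, Metric.mem_closure_iff]
  intro ε hε
  set μ : ℝ := ε / 2 with hμ
  have hμ0 : 0 < μ := by positivity
  have hcont : Continuous fun s : ℝ => max (s - μ) 0 := by fun_prop
  refine ⟨cfc (fun s : ℝ => max (s - μ) 0) h, ?_, ?_⟩
  · refine t1_hered_mem (t1_smul h2 (r := (4 * μ)⁻¹) (by positivity)) ?_ ?_
    · exact cfc_nonneg fun s _ => le_max_right _ _
    · have e : (4 * μ)⁻¹ • (h * h) = cfc (fun s : ℝ => (4 * μ)⁻¹ * (s * s)) h := by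
        rw [cfc_const_mul (4 * μ)⁻¹ (fun s : ℝ => s * s) h (by fun_prop),
          cfc_mul (fun s : ℝ => s) (fun s : ℝ => s) h, cfc_id' ℝ h]
      rw [e]
      refine cfc_mono (fun s _ => ?_) hcont.continuousOn (by fun_prop)
      refine max_le ?_ (mul_nonneg (by positivity) (mul_self_nonneg s))
      rw [inv_mul_eq_div, le_div_iff₀ (by positivity)]
      nlinarith only [sq_nonneg (s - 2 * μ)]
  · rw [dist_eq_norm]
    have e : h - cfc (fun s : ℝ => max (s - μ) 0) h =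
        cfc (fun s : ℝ => s - max (s - μ) 0) h := by
      rw [cfc_sub (fun s : ℝ => s) (fun s : ℝ => max (s - μ) 0) h, cfc_id' ℝ h]
    rw [e]
    have : ‖cfc (fun s : ℝ => s - max (s - μ) 0) h‖ ≤ μ := by
      refine norm_cfc_le hμ0.le fun s hs => ?_
      have hs0 : 0 ≤ s := spectrum_nonneg_of_nonneg hh hs
      rw [Real.norm_eq_abs, abs_le]
      constructor
      · rcases max_cases (s - μ) 0 with h | h <;> linarith only [hs0, h, hμ0]
      · rcases max_cases (s - μ) 0 with h | h <;> linarith only [h]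
    linarith only [hμ, hμ0, this]

/-- the closed two-sided ideal of all `x` with `x* x ∈ S` -/
def t1_I (A : CIdeal M) (hA : PIrel A) (c : M) (hc : 0 ≤ c) (hcA : c ∈ A) : CIdeal M where
  toSub :=
    { carrier := {x | star x * x ∈ t1_S A c}
      zero_mem' := by
        refine t1_mem_S_iff.2 fun ε hε => ⟨0, A.toSub.zero_mem, by simpa using hε⟩
      add_mem' := by
        intro x y hx hy
        have h2 : (2 : ℝ) • (star x * x + star y * y) ∈ t1_S A c :=
          t1_smul (t1_add hA hc hcA hx hy) (by norm_num)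
        refine t1_hered_mem h2 (star_mul_self_nonneg _) ?_
        rw [← sub_nonneg]
        have e : (2 : ℝ) • (star x * x + star y * y) - star (x + y) * (x + y) =
            star (x - y) * (x - y) := by
          simp only [star_add, star_sub, two_smul]; noncomm_ring
        rw [e]
        exact star_mul_self_nonneg _
      smul_mem' := by
        intro r x hx
        have h := t1_conj hx (algebraMap ℂ M r)
        have e : star (algebraMap ℂ M r) * (star x * x) * algebraMap ℂ M r =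
            star (r • x) * (r • x) := by
          rw [Algebra.algebraMap_eq_smul_one, star_smul, star_one, star_smul]
          simp only [smul_mul_assoc, mul_smul_comm, one_mul, mul_one]
        show star (r • x) * (r • x) ∈ t1_S A c
        rwa [e] at h }
  mul_left' := by
    intro a x hx
    have h2 : (‖a‖ ^ 2 : ℝ) • (star x * x) ∈ t1_S A c := t1_smul hx (by positivity)
    refine t1_hered_mem h2 (star_mul_self_nonneg _) ?_
    have h3 : star a * a ≤ algebraMap ℝ M (‖a‖ ^ 2) := CStarAlgebra.star_mul_le_algebraMap_norm_sq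
    have h4 := star_left_conjugate_le_conjugate h3 x
    calc star (a * x) * (a * x) = star x * (star a * a) * x := by rw [star_mul]; noncomm_ring
      _ ≤ star x * algebraMap ℝ M (‖a‖ ^ 2) * x := h4
      _ = (‖a‖ ^ 2 : ℝ) • (star x * x) := by
        rw [Algebra.algebraMap_eq_smul_one]
        simp only [smul_mul_assoc, mul_smul_comm, mul_one]
  mul_right' := by
    intro a x hx
    have h := t1_conj hx a
    have e : star a * (star x * x) * a = star (x * a) * (x * a) := by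
      rw [star_mul]; noncomm_ring
    show star (x * a) * (x * a) ∈ t1_S A c
    rwa [e] at h
  star_mem' := by
    intro x hx
    show star (star x) * star x ∈ t1_S A c
    rw [star_star]
    refine t1_of_sq (mul_star_self_nonneg x) ?_
    have h := t1_conj hx (star x)
    have e : star (star x) * (star x * x) * star x = x * star x * (x * star x) := by
      rw [star_star]; noncomm_ring
    rwa [e] at h
  closed' := by
    have hcl : IsClosed (t1_S A c) := isClosed_closure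
    exact hcl.preimage (continuous_star.mul continuous_id)

/-- T1, with the hypothesis that `k` belongs to every closed ideal containing `c`. -/
theorem T1_ideal (A : CIdeal M) (hA : PIrel A) {c k : M} (hc : 0 ≤ c) (hcA : c ∈ A) (hk : 0 ≤ k)
    (hdom : ∀ I : CIdeal M, c ∈ I → k ∈ I) {ε : ℝ} (hε : 0 < ε) :
    ∃ x y : M, (∃ x' ∈ A, x = cfc Real.sqrt c * x') ∧ (∃ y' ∈ A, y = cfc Real.sqrt c * y') ∧
      ‖star x * x - k‖ < ε ∧ ‖star y * y - k‖ < ε ∧ ‖star x * y‖ < ε := by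
  have hcS : c ∈ t1_S A c := by
    refine t1_mem_S_iff.2 fun δ hδ => ?_
    obtain ⟨x, hx, -, -, hxx, -⟩ := hA c hcA hc δ hδ
    exact ⟨x, hx, hxx⟩
  have hcI : c ∈ t1_I A hA c hc hcA := by
    show star c * c ∈ t1_S A c
    rw [hc.isSelfAdjoint.star_eq]
    refine t1_hered_mem (t1_smul hcS (norm_nonneg c)) ?_ ?_
    · exact hc.isSelfAdjoint.mul_self_nonneg
    · have hcsa : IsSelfAdjoint c := hc.isSelfAdjoint
      have hid : cfc (fun s : ℝ => s) c = c := cfc_id' ℝ c hcsa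
      have e1 : c * c = cfc (fun s : ℝ => s * s) c := by
        rw [cfc_mul (fun s : ℝ => s) (fun s : ℝ => s) c (by fun_prop) (by fun_prop), hid]
      have e2 : ‖c‖ • c = cfc (fun s : ℝ => ‖c‖ * s) c := by
        rw [cfc_const_mul ‖c‖ (fun s : ℝ => s) c (by fun_prop), hid]
      rw [e1, e2]
      refine cfc_mono (fun s hs => ?_) (by fun_prop) (by fun_prop)
      have hs0 : 0 ≤ s := spectrum_nonneg_of_nonneg hc hs
      have hs1 : s ≤ ‖c‖ := by
        have := norm_apply_le_norm_cfc (fun s : ℝ => s) c hs (by fun_prop) hcsa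
        rwa [hid, Real.norm_of_nonneg hs0] at this
      nlinarith only [hs0, hs1]
  have hkS : k ∈ t1_S A c := by
    have : star k * k ∈ t1_S A c := hdom _ hcI
    rw [hk.isSelfAdjoint.star_eq] at this
    exact t1_of_sq hk this
  obtain ⟨u, hu, hud⟩ := t1_mem_S_iff.1 hkS (ε / 2) (by positivity)
  obtain ⟨s₁, hs₁, s₂, hs₂, h11, h22, h12⟩ := hA c hcA hc (ε / (2 * (‖u‖ ^ 2 + 1)))
    (by (clear * - hε; positivity))
  have hsq : cfc Real.sqrt c * cfc Real.sqrt c = c := t1_sqrt_mul_sqrt hc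
  have hstar := t1_sqrt_sa c
  have key : ∀ p q : M, star (cfc Real.sqrt c * p) * (cfc Real.sqrt c * q) = star p * c * q := by
    intro p q
    rw [star_mul, hstar]
    calc star p * cfc Real.sqrt c * (cfc Real.sqrt c * q)
        = star p * (cfc Real.sqrt c * cfc Real.sqrt c) * q := by noncomm_ring
      _ = _ := by rw [hsq]
  have b : ∀ w : M, ‖star u * w * u‖ ≤ ‖u‖ ^ 2 * ‖w‖ := by
    intro w
    refine (norm_mul_le _ _).trans ?_
    refine (mul_le_mul_of_nonneg_right (norm_mul_le _ _) (norm_nonneg _)).trans_eq ?_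
    rw [norm_star]; ring
  have small : ∀ w : M, ‖w‖ < ε / (2 * (‖u‖ ^ 2 + 1)) → ‖star u * w * u‖ < ε / 2 := by
    intro w hw
    refine (b w).trans_lt ?_
    have h1 : (‖u‖ ^ 2 + 1) * (ε / (2 * (‖u‖ ^ 2 + 1))) = ε / 2 := by (clear * - hε; field_simp)
    have h2 : 0 < ε / (2 * (‖u‖ ^ 2 + 1)) := by (clear * - hε; positivity)
    nlinarith only [h1, h2, hw]
  refine ⟨_, _, ⟨s₁ * u, A.mul_left' _ _ hu, rfl⟩, ⟨s₂ * u, A.mul_left' _ _ hu, rfl⟩, ?_, ?_, ?_⟩
  · rw [key]
    have e : star (s₁ * u) * c * (s₁ * u) - k =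
        star u * (star s₁ * c * s₁ - c) * u + (star u * c * u - k) := by
      rw [star_mul]; noncomm_ring
    rw [e]
    refine (norm_add_le _ _).trans_lt ?_
    have := small _ h11
    linarith only [hud, this]
  · rw [key]
    have e : star (s₂ * u) * c * (s₂ * u) - k =
        star u * (star s₂ * c * s₂ - c) * u + (star u * c * u - k) := by
      rw [star_mul]; noncomm_ring
    rw [e]
    refine (norm_add_le _ _).trans_lt ?_
    have := small _ h22
    linarith only [hud, this]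
  · rw [key]
    have e : star (s₁ * u) * c * (s₂ * u) = star u * (star s₁ * c * s₂) * u := by
      rw [star_mul]; noncomm_ring
    rw [e]
    have := small _ h12
    linarith only [hε, this]

end Vale.Agent.P133
end
end

section

section

open scoped ComplexOrder

namespace Vale.Agent.P133

universe u

/-- Domination over all homomorphisms passes to closed ideals (use the quotient map). -/
theorem mem_of_ctl {M : Type u} [CStarAlgebra M] {c k : M} (h : Ctl c 0 k 0) (I : CIdeal M)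
    (hc : c ∈ I) : k ∈ I := by
  have h1 : ‖Quo.qm I k‖ ≤ 0 := by
    refine h (Quo I) (Quo.qm I) ?_
    rw [Quo.qm_zero_of_mem hc, norm_zero]
  exact Quo.qm_eq_zero.1 (norm_le_zero_iff.1 h1)

variable {M : Type u} [CStarAlgebra M] [PartialOrder M] [StarOrderedRing M]

/-- T1. -/
theorem T1 (A : CIdeal M) (hA : PIrel A) {c k : M} (hc : 0 ≤ c) (hcA : c ∈ A) (hk : 0 ≤ k)
    (hdom : Ctl c 0 k 0) {ε : ℝ} (hε : 0 < ε) :
    ∃ x y : M, (∃ x' ∈ A, x = cfc Real.sqrt c * x') ∧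
      (∃ y' ∈ A, y = cfc Real.sqrt c * y') ∧
      ‖star x * x - k‖ < ε ∧ ‖star y * y - k‖ < ε ∧ ‖star x * y‖ < ε :=
  T1_ideal A hA hc hcA hk (mem_of_ctl hdom) hε

end Vale.Agent.P133
end
end

section

section

/-! P133: functional calculus under unital star homomorphisms `π : M →⋆ₐ[ℂ] C`. -/

open scoped ComplexOrder NNReal

namespace Vale.Agent.P133

universe u
set_option linter.unusedSectionVars false

section noorder

variable {M : Type u} [CStarAlgebra M] {C : Type u} [CStarAlgebra C] (π : M →⋆ₐ[ℂ] C)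

theorem pi_sa {a : M} (ha : IsSelfAdjoint a) : IsSelfAdjoint (π a) := ha.map π

theorem pi_norm_le (a : M) : ‖π a‖ ≤ ‖a‖ := NonUnitalStarAlgHom.norm_apply_le π a

theorem pi_continuous : Continuous π :=
  AddMonoidHomClass.continuous_of_bound π 1 fun x => by simpa only [one_mul] using pi_norm_le π x

theorem pi_cfc {a : M} (ha : IsSelfAdjoint a) {f : ℝ → ℝ} (hf : Continuous f) :
    π (cfc f a) = cfc f (π a) :=
  StarAlgHomClass.map_cfc π f a hf.continuousOn (pi_continuous π) ha (pi_sa π ha)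

end noorder

variable {M : Type u} [CStarAlgebra M] [PartialOrder M] [StarOrderedRing M]
variable {C : Type u} [CStarAlgebra C] (π : M →⋆ₐ[ℂ] C)

theorem pi_spec_nonneg {a : M} (ha : 0 ≤ a) {s : ℝ} (hs : s ∈ spectrum ℝ (π a)) : 0 ≤ s := by
  have h := AlgHom.spectrum_apply_subset (π.toAlgHom.restrictScalars ℝ) a
  exact spectrum_nonneg_of_nonneg ha (h hs)

theorem pi_spec_le {a : M} (ha : IsSelfAdjoint a) {s : ℝ} (hs : s ∈ spectrum ℝ (π a)) :
    |s| ≤ ‖π a‖ := by
  have := norm_apply_le_norm_cfc (fun s : ℝ => s) (π a) hs (by fun_prop) (pi_sa π ha)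
  rwa [cfc_id' ℝ (π a) (pi_sa π ha)] at this

/-- if `f = 0` on `[0, r]` and `‖π a‖ ≤ r` then `π (f(a)) = 0` -/
theorem pi_cfc_eq_zero {a : M} (ha : 0 ≤ a) {f : ℝ → ℝ} (hf : Continuous f) {r : ℝ}
    (hfr : ∀ s, 0 ≤ s → s ≤ r → f s = 0) (h : ‖π a‖ ≤ r) : π (cfc f a) = 0 := by
  have hsa : IsSelfAdjoint a := ha.isSelfAdjoint
  rw [pi_cfc π hsa hf]
  have : Set.EqOn f 0 (spectrum ℝ (π a)) := fun s hs =>
    hfr s (pi_spec_nonneg π ha hs) ((le_abs_self s).trans ((pi_spec_le π hsa hs).trans h))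
  rw [cfc_congr this]
  exact cfc_zero ℝ (π a)

/-- if `‖π a‖ ≠ 0` then `‖π a‖` belongs to the spectrum of `π a`, for `a ≥ 0` -/
theorem pi_norm_mem_spec {a : M} (ha : 0 ≤ a) (h : 0 < ‖π a‖) : ‖π a‖ ∈ spectrum ℝ (π a) := by
  have hnt : Nontrivial C := ⟨π a, 0, norm_pos_iff.1 h⟩
  rcases CStarAlgebra.norm_or_neg_norm_mem_spectrum (pi_sa π ha.isSelfAdjoint) with h1 | h1
  · exact h1
  · have := pi_spec_nonneg π ha h1
    linarith only [h, this]

/-- if `|f| ≥ m` on `(r, ∞)` and `‖π (f(a))‖ < m` then `‖π a‖ ≤ r` -/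
theorem pi_norm_le_of_cfc_lt {a : M} (ha : 0 ≤ a) {f : ℝ → ℝ} (hf : Continuous f) {r m : ℝ}
    (hr : 0 ≤ r) (hfr : ∀ s, r < s → m ≤ |f s|) (h : ‖π (cfc f a)‖ < m) : ‖π a‖ ≤ r := by
  by_contra hcon
  push Not at hcon
  have h1 := pi_norm_mem_spec π ha (hr.trans_lt hcon)
  have h2 := norm_apply_le_norm_cfc f (π a) h1 hf.continuousOn (pi_sa π ha.isSelfAdjoint)
  rw [← pi_cfc π ha.isSelfAdjoint hf] at h2
  have h3 := hfr _ hcon
  rw [Real.norm_eq_abs] at h2
  linarith only [h, h2, h3]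

/-- if `f > 0` on `(r, ∞)` and `π (f(a)) = 0` then `‖π a‖ ≤ r` -/
theorem pi_norm_le_of_cfc_eq_zero {a : M} (ha : 0 ≤ a) {f : ℝ → ℝ} (hf : Continuous f) {r : ℝ}
    (hr : 0 ≤ r) (hfr : ∀ s, r < s → f s ≠ 0) (h : π (cfc f a) = 0) : ‖π a‖ ≤ r := by
  by_contra hcon
  push Not at hcon
  have h1 := pi_norm_mem_spec π ha (hr.trans_lt hcon)
  have h2 := norm_apply_le_norm_cfc f (π a) h1 hf.continuousOn (pi_sa π ha.isSelfAdjoint)
  rw [← pi_cfc π ha.isSelfAdjoint hf, h, norm_zero] at h2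
  exact hfr _ hcon (norm_le_zero_iff.1 h2)

/-- products of functional calculi -/
theorem cfc_mul_cfc {a : M} {f g k : ℝ → ℝ} (ha : 0 ≤ a) (hf : Continuous f) (hg : Continuous g)
    (h : ∀ s, 0 ≤ s → f s * g s = k s) : cfc f a * cfc g a = cfc k a := by
  rw [← cfc_mul f g a hf.continuousOn hg.continuousOn]
  exact cfc_congr fun s hs => h s (spectrum_nonneg_of_nonneg ha hs)

theorem cfc_mul_cfc_zero {a : M} {f g : ℝ → ℝ} (ha : 0 ≤ a) (hf : Continuous f)
    (hg : Continuous g) (h : ∀ s, 0 ≤ s → f s * g s = 0) : cfc f a * cfc g a = 0 := by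
  rw [cfc_mul_cfc (k := fun _ => 0) ha hf hg h]
  exact cfc_zero ℝ a

theorem cfc_sa (f : ℝ → ℝ) (a : M) : IsSelfAdjoint (cfc f a) := cfc_predicate f a

theorem pi_star_cfc (f : ℝ → ℝ) (a : M) : star (cfc f a) = cfc f a := (cfc_sa f a).star_eq

theorem norm_cfc_le_nonneg {a : M} {f : ℝ → ℝ} {m : ℝ} (ha : 0 ≤ a) (hm : 0 ≤ m)
    (h : ∀ s, 0 ≤ s → |f s| ≤ m) : ‖cfc f a‖ ≤ m :=
  norm_cfc_le hm fun s hs => h s (spectrum_nonneg_of_nonneg ha hs)

/-- if `f(s) = s k(s)` then `f(a) = a k(a)` lies in the ideal -/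
theorem cfc_mem_of_mul (A : CIdeal M) {a : M} (haA : a ∈ A) (ha : 0 ≤ a) {f k : ℝ → ℝ}
    (hk : Continuous k) (h : ∀ s, 0 ≤ s → f s = s * k s) : cfc f a ∈ A := by
  have e : cfc f a = a * cfc k a := by
    rw [← cfc_mul_cfc (f := fun s => s) (g := k) (k := f) ha (by fun_prop) hk
      (fun s hs => (h s hs).symm), cfc_id' ℝ a ha.isSelfAdjoint]
  rw [e]
  exact A.mul_right' _ _ haA

end Vale.Agent.P133
end
end

section

section

/-! P133, T3: a gap in the norms `‖π a‖` produces a projection. -/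

open scoped ComplexOrder NNReal

namespace Vale.Agent.P133

universe u
set_option linter.unusedSectionVars false

/-- `0` up to `l`, `1` from `r` on, linear in between -/
noncomputable def t3_g (l r s : ℝ) : ℝ := max 0 (min 1 ((s - l) / (r - l)))

theorem t3_g_cont (l r : ℝ) : Continuous (t3_g l r) := by
  unfold t3_g; fun_prop

theorem t3_g_nonneg (l r s : ℝ) : 0 ≤ t3_g l r s := le_max_left _ _

theorem t3_g_le_one (l r s : ℝ) : t3_g l r s ≤ 1 := max_le zero_le_one (min_le_left _ _)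

theorem t3_g_zero {l r s : ℝ} (h : l < r) (hs : s ≤ l) : t3_g l r s = 0 := by
  unfold t3_g
  refine max_eq_left ((min_le_right _ _).trans ?_)
  exact div_nonpos_of_nonpos_of_nonneg (by linarith) (by linarith)

theorem t3_g_one {l r s : ℝ} (h : l < r) (hs : r ≤ s) : t3_g l r s = 1 := by
  unfold t3_g
  have : 1 ≤ (s - l) / (r - l) := by
    rw [le_div_iff₀ (by linarith)]; linarith
  rw [min_eq_left this]
  exact max_eq_right zero_le_one

variable {M : Type u} [CStarAlgebra M] [PartialOrder M] [StarOrderedRing M]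

/-- spectral projections of almost idempotent elements -/
theorem t3_proj {p₀ : M} (hsa : IsSelfAdjoint p₀) {ε : ℝ} (hε0 : 0 ≤ ε) (hε : ε < 3 / 16)
    (h : ‖p₀ * p₀ - p₀‖ ≤ ε) :
    ∃ p : M, IsSelfAdjoint p ∧ p * p = p ∧ ‖p - p₀‖ ≤ 4 / 3 * ε ∧ (∃ z, p = p₀ * z) := by
  set θ : ℝ → ℝ := t3_g (1 / 4) (3 / 4) with hθ
  have hθc : Continuous θ := t3_g_cont _ _
  have hspec : ∀ s ∈ spectrum ℝ p₀, |s * s - s| ≤ ε := by
    intro s hs
    have h1 := norm_apply_le_norm_cfc (fun s : ℝ => s * s - s) p₀ hs (by fun_prop) hsa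
    have h2 : cfc (fun s : ℝ => s * s - s) p₀ = p₀ * p₀ - p₀ := by
      rw [cfc_sub (fun s : ℝ => s * s) (fun s : ℝ => s) p₀ (by fun_prop) (by fun_prop),
        cfc_mul (fun s : ℝ => s) (fun s : ℝ => s) p₀ (by fun_prop) (by fun_prop),
        cfc_id' ℝ p₀ hsa]
    rw [h2] at h1
    exact h1.trans h
  have hcase : ∀ s ∈ spectrum ℝ p₀, (s ≤ 1 / 4 ∧ |s| ≤ 4 / 3 * ε) ∨
      (3 / 4 ≤ s ∧ |1 - s| ≤ 4 / 3 * ε) := by
    intro s hs
    have h1 := abs_le.1 (hspec s hs)
    rcases lt_or_ge s (1 / 4) with h2 | h2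
    · left
      refine ⟨h2.le, abs_le.2 ⟨?_, ?_⟩⟩ <;> nlinarith only [h1, h2]
    · rcases lt_or_ge (3 / 4) s with h3 | h3
      · right
        refine ⟨h3.le, abs_le.2 ⟨?_, ?_⟩⟩ <;> nlinarith only [h1, h3]
      · exfalso
        nlinarith only [hε, h1, h2, h3]
  refine ⟨cfc θ p₀, cfc_predicate θ p₀, ?_, ?_, ?_⟩
  · rw [← cfc_mul θ θ p₀ hθc.continuousOn hθc.continuousOn]
    refine cfc_congr fun s hs => ?_
    rcases hcase s hs with h1 | h1
    · have : θ s = 0 := t3_g_zero (by norm_num) h1.1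
      simp [this]
    · have : θ s = 1 := t3_g_one (by norm_num) h1.1
      simp [this]
  · have e : cfc θ p₀ - p₀ = cfc (fun s : ℝ => θ s - s) p₀ := by
      rw [cfc_sub θ (fun s : ℝ => s) p₀ hθc.continuousOn (by fun_prop), cfc_id' ℝ p₀ hsa]
    rw [e]
    refine norm_cfc_le (by positivity) fun s hs => ?_
    rw [Real.norm_eq_abs]
    rcases hcase s hs with h1 | h1
    · have : θ s = 0 := t3_g_zero (by norm_num) h1.1
      rw [this, zero_sub, abs_neg]; exact h1.2
    · have : θ s = 1 := t3_g_one (by norm_num) h1.1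
      rw [this]; exact h1.2
  · have hkc : Continuous fun s : ℝ => θ s * (max s (1 / 4))⁻¹ :=
      hθc.mul (Continuous.inv₀ (by fun_prop) fun s => by positivity)
    refine ⟨cfc (fun s : ℝ => θ s * (max s (1 / 4))⁻¹) p₀, ?_⟩
    have e : p₀ * cfc (fun s : ℝ => θ s * (max s (1 / 4))⁻¹) p₀ =
        cfc (fun s : ℝ => s * (θ s * (max s (1 / 4))⁻¹)) p₀ := by
      rw [cfc_mul (fun s : ℝ => s) (fun s : ℝ => θ s * (max s (1 / 4))⁻¹) p₀ (by fun_prop)
        hkc.continuousOn, cfc_id' ℝ p₀ hsa]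
    rw [e]
    refine cfc_congr fun s hs => ?_
    rcases lt_or_ge (1 / 4) s with h1 | h1
    · rw [max_eq_left h1.le]
      (clear * - h1; field_simp)
    · have : θ s = 0 := t3_g_zero (by norm_num) h1
      simp only [this, one_div, zero_mul, mul_zero]

/-- T3 with the bridge `Ctl c 0 k 0 → (k ∈ every closed ideal containing c)` as a hypothesis. -/
theorem T3_of (hbr : ∀ c k : M, Ctl c 0 k 0 → ∀ I : CIdeal M, c ∈ I → k ∈ I)
    (A : CIdeal M) (hA : PIrel A) {a : M} (ha : PC A a) {t' t : ℝ} (ht' : 0 < t')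
    (htt : t' < t) (H : Ctl a t a t') :
    ∃ p : M, p ∈ A ∧ IsSelfAdjoint p ∧ p * p = p ∧ Level a t' p ∧ Ctl p 0 a t' := by
  have ha0 : 0 ≤ a := ha.nonneg
  set t'' : ℝ := (t' + t) / 2 with ht''
  have h1 : t' < t'' := by rw [ht'']; linarith only [htt]
  have h2 : t'' < t := by rw [ht'']; linarith only [htt]
  have ht0 : 0 < t := ht'.trans htt
  set g : ℝ → ℝ := t3_g t'' t with hg
  set ω : ℝ → ℝ := t3_g t' t'' with hω
  set χ : ℝ → ℝ := fun s => Real.sqrt (1 - g s) with hχ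
  set cf : ℝ → ℝ := fun s => max (s - t) 0 with hcf
  have hgc : Continuous g := t3_g_cont _ _
  have hωc : Continuous ω := t3_g_cont _ _
  have hχc : Continuous χ := by rw [hχ]; fun_prop
  have hcfc : Continuous cf := by rw [hcf]; fun_prop
  set G : M := cfc g a with hG
  set Ω : M := cfc ω a with hΩ
  set X : M := cfc χ a with hX
  set c : M := cfc cf a with hc
  have hG0 : 0 ≤ G := cfc_nonneg fun s _ => t3_g_nonneg _ _ _
  have hc0 : 0 ≤ c := cfc_nonneg fun s _ => le_max_right _ _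
  have hcA : c ∈ A := by
    refine cfc_mem_of_mul A ha.mem ha0 (k := fun s => max (s - t) 0 * (max s t)⁻¹) ?_ ?_
    · exact Continuous.mul (by fun_prop) (Continuous.inv₀ (by fun_prop) fun s => by (clear * - ht0; positivity))
    · intro s hs
      rw [hcf]
      dsimp only
      rcases le_total s t with h | h
      · rw [max_eq_right (show s - t ≤ 0 by linarith only [h])]; simp only [zero_mul, mul_zero]
      · have hs0 : s ≠ 0 := (ht0.trans_le h).ne'
        rw [max_eq_left h]; field_simp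
  -- domination
  have hdom : Ctl c 0 G 0 := by
    intro C _ π hπ
    have hπc : π c = 0 := norm_le_zero_iff.1 hπ
    have h3 : ‖π a‖ ≤ t := by
      refine pi_norm_le_of_cfc_eq_zero π ha0 hcfc ht0.le (fun s hs => ?_) hπc
      rw [hcf]; dsimp only
      rw [max_eq_left (by linarith only [hs])]
      exact (sub_pos.2 hs).ne'
    have h4 := H C π h3
    have h5 : π G = 0 := pi_cfc_eq_zero π ha0 hgc
      (fun s _ hs' => t3_g_zero h2 (hs'.trans h1.le)) h4
    rw [h5, norm_zero]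
  obtain ⟨x₀, y₀, ⟨x', -, hx'⟩, ⟨y', -, hy'⟩, hxx, hyy, hxy⟩ := T1_ideal A hA hc0 hcA hG0
    (hbr c G hdom) (ε := 1 / 100) (by norm_num)
  have hΩn : ‖Ω‖ ≤ 1 := norm_cfc_le_nonneg ha0 zero_le_one fun s _ => by
    rw [abs_of_nonneg (t3_g_nonneg _ _ _)]; exact t3_g_le_one _ _ _
  have hXn : ‖X‖ ≤ 1 := norm_cfc_le_nonneg ha0 zero_le_one fun s _ => by
    rw [hχ]; dsimp only
    rw [abs_of_nonneg (Real.sqrt_nonneg _)]
    rw [show (1 : ℝ) = Real.sqrt 1 by simp]
    refine Real.sqrt_le_sqrt ?_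
    have := t3_g_nonneg t'' t s
    simp only [Real.sqrt_one]
    linarith only [this]
  have hΩs : star Ω = Ω := pi_star_cfc _ _
  have hXs : star X = X := pi_star_cfc _ _
  have hGs : star G = G := pi_star_cfc _ _
  have hΩG : Ω * G = G := cfc_mul_cfc ha0 hωc hgc fun s _ => by
    rcases le_total s t'' with h | h
    · rw [hg]; simp [t3_g_zero h2 h]
    · rw [hω, t3_g_one h1 h, one_mul]
  have hGΩ : G * Ω = G := by
    have := congrArg star hΩG
    rwa [star_mul, hΩs, hGs] at this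
  -- `X √c = 0`
  have hsq : cfc Real.sqrt c = cfc (fun s => Real.sqrt (cf s)) a := by
    rw [hc, ← cfc_comp' Real.sqrt cf a (by fun_prop) hcfc.continuousOn ha0.isSelfAdjoint]
  have hsqc : Continuous fun s => Real.sqrt (cf s) := by fun_prop
  have hXc : X * cfc Real.sqrt c = 0 := by
    rw [hsq]
    refine cfc_mul_cfc_zero ha0 hχc hsqc fun s _ => ?_
    rcases le_total s t with h | h
    · have : cf s = 0 := max_eq_right (by linarith only [h])
      rw [this]; simp
    · have : χ s = 0 := by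
        rw [hχ]; dsimp only
        rw [hg, t3_g_one h2 h]; simp
      rw [this, zero_mul]
  -- functions equal to one above `t'`
  have hWc : ∀ w : ℝ → ℝ, Continuous w → (∀ u, t' ≤ u → w u = 1) →
      cfc w a * cfc Real.sqrt c = cfc Real.sqrt c ∧ cfc w a * G = G ∧ cfc w a * Ω = Ω := by
    intro w hw hw1
    refine ⟨?_, ?_, ?_⟩
    · rw [hsq]
      refine cfc_mul_cfc ha0 hw hsqc fun s _ => ?_
      rcases le_total s t with h | h
      · have : cf s = 0 := max_eq_right (by linarith only [h])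
        rw [this]; simp
      · rw [hw1 s (by linarith only [ht'', h1, h]), one_mul]
    · refine cfc_mul_cfc ha0 hw hgc fun s _ => ?_
      rcases le_total s t'' with h | h
      · rw [hg]; simp [t3_g_zero h2 h]
      · rw [hw1 s (by linarith only [h1, h]), one_mul]
    · refine cfc_mul_cfc ha0 hw hωc fun s _ => ?_
      rcases le_total s t' with h | h
      · rw [hω]; simp [t3_g_zero h1 h]
      · rw [hw1 s h, one_mul]
  set x : M := x₀ * Ω with hx
  set y : M := y₀ * Ω with hy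
  have hXx : X * x = 0 := by
    rw [hx, hx', ← mul_assoc, ← mul_assoc, hXc, zero_mul, zero_mul]
  have hXy : X * y = 0 := by
    rw [hy, hy', ← mul_assoc, ← mul_assoc, hXc, zero_mul, zero_mul]
  have hxX : star x * X = 0 := by
    have := congrArg star hXx
    rwa [star_mul, hXs, star_zero] at this
  have conjb : ∀ w : M, ‖Ω * w * Ω‖ ≤ ‖w‖ := by
    intro w
    refine (norm_mul_le _ _).trans ?_
    have := norm_mul_le Ω w
    nlinarith only [this, hΩn, norm_nonneg w, norm_nonneg (Ω * w)]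
  have hx1 : ‖star x * x - G‖ ≤ 1 / 100 := by
    have e : star x * x - G = Ω * (star x₀ * x₀ - G) * Ω := by
      rw [mul_sub, sub_mul, hΩG, hGΩ, hx, star_mul, hΩs]; noncomm_ring
    rw [e]
    exact (conjb _).trans hxx.le
  have hy1 : ‖star y * y - G‖ ≤ 1 / 100 := by
    have e : star y * y - G = Ω * (star y₀ * y₀ - G) * Ω := by
      rw [mul_sub, sub_mul, hΩG, hGΩ, hy, star_mul, hΩs]; noncomm_ring
    rw [e]
    exact (conjb _).trans hyy.le
  have hxy1 : ‖star x * y‖ ≤ 1 / 100 := by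
    have e : star x * y = Ω * (star x₀ * y₀) * Ω := by
      rw [hx, hy, star_mul, hΩs]; noncomm_ring
    rw [e]
    exact (conjb _).trans hxy.le
  -- `X² = 1 - G`
  have hXX : X * X = 1 - G := by
    have e1 : (1 : M) - G = cfc (fun s => 1 - g s) a := by
      rw [cfc_sub (fun _ : ℝ => (1 : ℝ)) g a (by fun_prop) hgc.continuousOn,
        cfc_const_one ℝ a ha0.isSelfAdjoint]
    rw [e1]
    refine cfc_mul_cfc ha0 hχc hχc fun s _ => ?_
    rw [hχ]; dsimp only
    exact Real.mul_self_sqrt (by have := t3_g_le_one t'' t s; rw [hg]; linarith only [this])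
  set V : M := x + X with hV
  have hVV : star V * V = 1 + (star x * x - G) := by
    have e : star V * V = star x * x + star x * X + X * x + X * X := by
      rw [hV, star_add, hXs]; noncomm_ring
    rw [e, hxX, hXx, hXX]; abel
  set p₀ : M := 1 - V * star V with hp₀
  have hp₀sa : IsSelfAdjoint p₀ := by
    rw [hp₀]
    exact (IsSelfAdjoint.one M).sub (IsSelfAdjoint.mul_star_self V)
  have hone : ‖(1 : M)‖ ≤ 1 := by
    rcases subsingleton_or_nontrivial M with h | h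
    · rw [Subsingleton.elim (1 : M) 0, norm_zero]; exact zero_le_one
    · rw [CStarRing.norm_one]
  have hVn2 : ‖V‖ * ‖V‖ ≤ 101 / 100 := by
    rw [← CStarRing.norm_star_mul_self, hVV]
    refine (norm_add_le _ _).trans ?_
    linarith only [hx1, hone]
  have hVn : ‖V‖ ≤ 101 / 100 := by
    by_contra hcon
    push Not at hcon
    nlinarith only [hVn2, hcon]
  have hpp : ‖p₀ * p₀ - p₀‖ ≤ 101 / 10000 := by
    have e : p₀ * p₀ - p₀ = V * (star V * V - 1) * star V := by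
      rw [hp₀]; noncomm_ring
    have e2 : star V * V - 1 = star x * x - G := by rw [hVV]; abel
    rw [e, e2]
    calc ‖V * (star x * x - G) * star V‖ ≤ ‖V‖ * ‖star x * x - G‖ * ‖star V‖ := by
          refine (norm_mul_le _ _).trans ?_
          gcongr
          exact norm_mul_le _ _
      _ = (‖V‖ * ‖V‖) * ‖star x * x - G‖ := by rw [norm_star]; ring
      _ ≤ (101 / 100) * (1 / 100) := by (clear * - hVn2 hx1; gcongr)
      _ = 101 / 10000 := by norm_num
  obtain ⟨p, hpsa, hpidem, hpnear, z, hpz⟩ := t3_proj hp₀sa (ε := 101 / 10000) (by norm_num)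
    (by norm_num) hpp
  -- the level of `p`
  have hp₀e : p₀ = G - x * star x - x * X - X * star x := by
    have e : V * star V = x * star x + x * X + X * star x + X * X := by
      rw [hV, star_add, hXs]; noncomm_ring
    rw [hp₀, e, hXX]; abel
  have hlevel : Level a t' p := by
    intro w hw hw1
    obtain ⟨w1, w2, w3⟩ := hWc w hw hw1
    have hWx : cfc w a * x = x := by
      rw [hx, hx', ← mul_assoc, ← mul_assoc, w1]
    have hWsx : cfc w a * star x = star x := by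
      rw [hx, star_mul, hΩs, ← mul_assoc, w3]
    have hWX : cfc w a * X = X * cfc w a := by
      rw [hX, ← cfc_mul w χ a hw.continuousOn hχc.continuousOn,
        ← cfc_mul χ w a hχc.continuousOn hw.continuousOn]
      exact cfc_congr fun s _ => mul_comm _ _
    have hWp₀ : cfc w a * p₀ = p₀ := by
      calc cfc w a * p₀ = cfc w a * G - (cfc w a * x) * star x - (cfc w a * x) * X -
            (cfc w a * X) * star x := by rw [hp₀e]; noncomm_ring
        _ = G - x * star x - x * X - X * (cfc w a * star x) := by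
            rw [w2, hWx, hWX]; noncomm_ring
        _ = p₀ := by rw [hWsx, hp₀e]
    rw [hpz, ← mul_assoc, hWp₀]
  have hpA : p ∈ A := by
    have hwc : Continuous fun s : ℝ => s * (max s t')⁻¹ :=
      continuous_id.mul (Continuous.inv₀ (by fun_prop) fun s => by (clear * - ht'; positivity))
    have h3 := hlevel (fun s : ℝ => s * (max s t')⁻¹) hwc (fun s hs => by
      rw [max_eq_left hs]
      exact mul_inv_cancel₀ (ht'.trans_le hs).ne')
    rw [← h3]
    refine A.mul_right' _ _ ?_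
    exact cfc_mem_of_mul A ha.mem ha0 (k := fun s : ℝ => (max s t')⁻¹)
      (Continuous.inv₀ (by fun_prop) fun s => by (clear * - ht'; positivity)) (fun s _ => rfl)
  refine ⟨p, hpA, hpsa, hpidem, hlevel, ?_⟩
  -- fullness
  intro C _ π hπ
  have hπp : π p = 0 := norm_le_zero_iff.1 hπ
  have hGn : ‖G‖ ≤ 1 := norm_cfc_le_nonneg ha0 zero_le_one fun s _ => by
    rw [abs_of_nonneg (t3_g_nonneg _ _ _)]; exact t3_g_le_one _ _ _
  have hyn : ‖y‖ ≤ 101 / 100 := by
    have h3 : ‖y‖ * ‖y‖ ≤ 101 / 100 := by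
      rw [← CStarRing.norm_star_mul_self]
      have : star y * y = (star y * y - G) + G := by abel
      rw [this]
      refine (norm_add_le _ _).trans ?_
      linarith only [hy1, hGn]
    by_contra hcon
    push Not at hcon
    nlinarith only [h3, hcon]
  have hπp₀ : ‖π p₀‖ ≤ 2 / 100 := by
    have e : π p₀ = -π (p - p₀) := by rw [map_sub π p p₀, hπp]; abel
    rw [e, norm_neg]
    refine (pi_norm_le π _).trans (hpnear.trans ?_)
    norm_num
  have hp₀y : p₀ * y = y - V * (star x * y) := by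
    have e : star V * y = star x * y := by
      rw [hV, star_add, hXs, add_mul, hXy, add_zero]
    rw [hp₀, sub_mul, one_mul, mul_assoc, e]
  have hπy : ‖π y‖ ≤ 4 / 100 := by
    have e : π y = π p₀ * π y + π (V * (star x * y)) := by
      rw [← map_mul π p₀ y, hp₀y, map_sub π y (V * (star x * y))]; abel
    have e1 : ‖π p₀ * π y‖ ≤ 2 / 100 * (101 / 100) := by
      refine (norm_mul_le _ _).trans ?_
      exact mul_le_mul hπp₀ ((pi_norm_le π y).trans hyn) (norm_nonneg _) (by norm_num)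
    have e2 : ‖π (V * (star x * y))‖ ≤ 101 / 100 * (1 / 100) := by
      refine (pi_norm_le π _).trans ((norm_mul_le _ _).trans ?_)
      exact mul_le_mul hVn hxy1 (norm_nonneg _) (by norm_num)
    rw [e]
    refine (norm_add_le _ _).trans ((add_le_add e1 e2).trans ?_)
    norm_num
  have hπG : ‖π G‖ < 1 := by
    have e : π G = star (π y) * π y - π (star y * y - G) := by
      rw [map_sub π (star y * y) G, map_mul π (star y) y, map_star π y]; abel
    rw [e]
    refine (norm_sub_le _ _).trans_lt ?_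
    have e1 : ‖star (π y) * π y‖ ≤ 4 / 100 * (4 / 100) := by
      rw [CStarRing.norm_star_mul_self]
      exact mul_le_mul hπy hπy (norm_nonneg _) (by norm_num)
    have e2 := (pi_norm_le π (star y * y - G)).trans hy1
    linarith only [e1, e2]
  have h3 : ‖π a‖ ≤ t := by
    refine pi_norm_le_of_cfc_lt π ha0 hgc ht0.le (fun s hs => ?_) hπG
    rw [hg, t3_g_one h2 hs.le, abs_one]
  exact H C π h3

end Vale.Agent.P133
end
end

section

section

open scoped ComplexOrder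

namespace Vale.Agent.P133

universe u

variable {M : Type u} [CStarAlgebra M] [PartialOrder M] [StarOrderedRing M]

/-- T3. -/
theorem T3 (A : CIdeal M) (hA : PIrel A) {a : M} (ha : PC A a) {t' t : ℝ} (ht' : 0 < t')
    (htt : t' < t) (H : Ctl a t a t') :
    ∃ p : M, p ∈ A ∧ IsSelfAdjoint p ∧ p * p = p ∧ Level a t' p ∧ Ctl p 0 a t' :=
  T3_of (fun _ _ h => mem_of_ctl h) A hA ha ht' htt H

end Vale.Agent.P133
end
end

section

section

/-! P133, module T4, part a: explicit elements in a C*-algebra. -/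

open scoped ComplexOrder CStarAlgebra

set_option linter.unusedSectionVars false
set_option linter.unusedVariables false

namespace Vale.Agent.P133.T4

open Vale.Agent.P133

universe u
variable {M : Type u} [CStarAlgebra M]

/-- `(s - r)_+` -/
noncomputable def cc (r : ℝ) (s : ℝ) : ℝ := max (s - r) 0

/-- `χ² s = (s-r)_+` -/
noncomputable def chi (r : ℝ) (s : ℝ) : ℝ := Real.sqrt (max (s - r) 0 / max s r)

/-- `0` on `[0,r]`, `1` on `[2r, ∞)` -/
noncomputable def KK (r : ℝ) (s : ℝ) : ℝ := min 1 (max (s - r) 0 / r)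

lemma cc_cont (r : ℝ) : Continuous (cc r) := by unfold cc; fun_prop
lemma chi_cont {r : ℝ} (hr : 0 < r) : Continuous (chi r) := by
  unfold chi
  refine Real.continuous_sqrt.comp (Continuous.div (by fun_prop) (by fun_prop) (fun s => ?_))
  exact (lt_of_lt_of_le hr (le_max_right _ _)).ne'
lemma KK_cont (r : ℝ) : Continuous (KK r) := by unfold KK; fun_prop

lemma chi_zero {r s : ℝ} (hs : s ≤ r) : chi r s = 0 := by
  unfold chi
  rw [max_eq_right (by linarith : s - r ≤ 0)]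
  simp only [zero_div, Real.sqrt_zero]

lemma chi_sq {r s : ℝ} (hr : 0 < r) : chi r s * chi r s = max (s - r) 0 / max s r := by
  unfold chi
  exact Real.mul_self_sqrt (div_nonneg (le_max_right _ _) (le_trans hr.le (le_max_right _ _)))

lemma chi_mul {r s : ℝ} (hr : 0 < r) : chi r s * (s * chi r s) = cc r s := by
  have h := chi_sq (s := s) hr
  rw [mul_left_comm, h]
  unfold cc
  rcases le_total s r with h1 | h1
  · rw [max_eq_right (by linarith only [h1] : s - r ≤ 0)]; simp only [zero_div, mul_zero]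
  · rw [max_eq_left h1, max_eq_left (by linarith only [h1] : (0:ℝ) ≤ s - r)]
    have : 0 < s := by linarith only [hr, h1]
    (clear * - this; field_simp)

lemma chi_factor {r s : ℝ} (hr : 0 < r) : chi r s = s * (chi r s * (1 / max r s)) := by
  rcases le_total s r with h1 | h1
  · rw [chi_zero h1]; simp only [one_div, zero_mul, mul_zero]
  · rw [max_eq_right h1]
    have : 0 < s := by linarith
    field_simp

lemma KK_factor {r s : ℝ} (hr : 0 < r) : KK r s = cc r s * (1 / max r (cc r s)) := by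
  unfold KK cc
  set t := max (s - r) 0
  have ht : 0 ≤ t := le_max_right _ _
  rcases le_total r t with h | h
  · rw [max_eq_right h, min_eq_left (by rw [le_div_iff₀ hr]; linarith)]
    have : 0 < t := by linarith
    field_simp
  · rw [max_eq_left h, min_eq_right (by rw [div_le_one hr]; exact h)]
    ring

lemma KK_eq_one {r s : ℝ} (hr : 0 < r) (hs : 2 * r ≤ s) : KK r s = 1 := by
  unfold KK
  rw [max_eq_left (by linarith)]
  exact min_eq_left (by rw [le_div_iff₀ hr]; linarith)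

lemma KK_nonneg {r s : ℝ} (hr : 0 < r) : 0 ≤ KK r s :=
  le_min zero_le_one (div_nonneg (le_max_right _ _) hr.le)

lemma KK_le_one {r s : ℝ} : KK r s ≤ 1 := min_le_left _ _

/-- `m = P B P` -/
def mm (P B : M) : M := P * B * P

/-- `x = χ(m) z` -/
noncomputable def xx (r : ℝ) (P B Z : M) : M := cfc (chi r) (mm P B) * Z

/-- `w = B x x* B` -/
noncomputable def ww (r : ℝ) (P B Z : M) : M := B * (xx r P B Z * star (xx r P B Z)) * B

/-- `f₀ = B (1 - φ(BPB)) B` -/
noncomputable def f0 (r : ℝ) (P B : M) : M :=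
  B * cfc (fun s => 1 - cut (16 * r) s) (B * P * B) * B

noncomputable def fraw (r : ℝ) (P B Z : M) : M := (2 : ℝ) • f0 r P B + (2 / r) • ww r P B Z

noncomputable def ff (r : ℝ) (P B Z : M) : M := cfc (fun s : ℝ => min 1 s) (fraw r P B Z)

noncomputable def NN (r : ℝ) (P B Z : M) : M := P * fraw r P B Z * P

noncomputable def ee (r : ℝ) (P B Z : M) : M := P - cfc (cut (32 * r)) (NN r P B Z)

/-- the basic data. -/
structure Data (r : ℝ) (P B Z₁ Z₂ : M) : Prop where
  hr : 0 < r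
  hr' : r ≤ 1 / 32
  hPs : star P = P
  hPP : P * P = P
  h1 : ‖star Z₁ * cfc (cc r) (mm P B) * Z₁ - cfc (KK r) (mm P B)‖ ≤ r ^ 2
  h2 : ‖star Z₂ * cfc (cc r) (mm P B) * Z₂ - cfc (KK r) (mm P B)‖ ≤ r ^ 2
  h12 : ‖star Z₁ * cfc (cc r) (mm P B) * Z₂‖ ≤ r ^ 2

variable [PartialOrder M] [StarOrderedRing M]

section
variable {r : ℝ} {P B Z Z₁ Z₂ : M}

lemma mm_nonneg (hPs : star P = P) (hB0 : 0 ≤ B) : 0 ≤ mm P B := by
  have := star_left_conjugate_nonneg hB0 P
  rwa [hPs] at this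

lemma P_nonneg (hPs : star P = P) (hPP : P * P = P) : 0 ≤ P := by
  have := star_mul_self_nonneg P
  rwa [hPs, hPP] at this

lemma P_le_one (hPs : star P = P) (hPP : P * P = P) : P ≤ 1 := by
  have h := star_mul_self_nonneg (1 - P)
  have h2 : star (1 - P) * (1 - P) = 1 - P := by
    rw [star_sub, star_one, hPs, sub_mul, one_mul, mul_sub, mul_one, hPP]; abel
  rw [h2] at h
  exact sub_nonneg.mp h

lemma norm_le_one_of {a : M} (h0 : 0 ≤ a) (h1 : a ≤ 1) : ‖a‖ ≤ 1 :=
  (CStarAlgebra.norm_le_one_iff_of_nonneg a h0).mpr h1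

lemma P_mul_mm (hPP : P * P = P) : P * mm P B = mm P B := by
  unfold mm; rw [← mul_assoc, ← mul_assoc, hPP]

/-- `P χ(m) = χ(m)` -/
lemma P_mul_chi (hr : 0 < r) (hPs : star P = P) (hPP : P * P = P) (hB0 : 0 ≤ B) :
    P * cfc (chi r) (mm P B) = cfc (chi r) (mm P B) := by
  refine unit_cfc (v := fun s => chi r s * (1 / max r s)) ?_ (mm_nonneg hPs hB0)
    (fun s hs => chi_factor hr) (P_mul_mm hPP)
  exact (chi_cont hr).mul (inv_max_continuous hr)

lemma P_mul_xx (hr : 0 < r) (hPs : star P = P) (hPP : P * P = P) (hB0 : 0 ≤ B) :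
    P * xx r P B Z = xx r P B Z := by
  unfold xx; rw [← mul_assoc, P_mul_chi hr hPs hPP hB0]

lemma star_xx : star (xx r P B Z) = star Z * cfc (chi r) (mm P B) := by
  unfold xx; rw [star_mul, star_cfc]

lemma star_xx_mul_P (hr : 0 < r) (hPs : star P = P) (hPP : P * P = P) (hB0 : 0 ≤ B) :
    star (xx r P B Z) * P = star (xx r P B Z) := by
  have := congrArg star (P_mul_xx (Z := Z) hr hPs hPP hB0)
  rwa [star_mul, hPs] at this

/-- `χ(m) m χ(m) = c` -/
lemma chi_mm_chi (hr : 0 < r) (hPs : star P = P) (hB0 : 0 ≤ B) :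
    cfc (chi r) (mm P B) * mm P B * cfc (chi r) (mm P B) = cfc (cc r) (mm P B) := by
  have hm := mm_nonneg hPs hB0
  have hc : Continuous fun s => s * chi r s := continuous_id.mul (chi_cont hr)
  rw [mul_assoc, mul_cfc (chi_cont hr) hm, cfc_mul' (chi_cont hr) hc]
  exact cfc_congr' hm (fun s _ => chi_mul hr)

/-- `x_i* B x_j = z_i* c z_j` -/
lemma xx_B_xx (hr : 0 < r) (hPs : star P = P) (hPP : P * P = P) (hB0 : 0 ≤ B) (Z Z' : M) :
    star (xx r P B Z) * B * xx r P B Z' = star Z * cfc (cc r) (mm P B) * Z' := by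
  have h1 : star (xx r P B Z) * B * xx r P B Z' =
      (star (xx r P B Z) * P) * B * (P * xx r P B Z') := by
    rw [star_xx_mul_P hr hPs hPP hB0, P_mul_xx hr hPs hPP hB0]
  rw [h1, ← chi_mm_chi hr hPs hB0, star_xx]
  unfold xx mm
  noncomm_ring

lemma c_nonneg (hPs : star P = P) (hB0 : 0 ≤ B) : 0 ≤ cfc (cc r) (mm P B) :=
  cfc_nonneg' (mm_nonneg hPs hB0) (fun s _ => le_max_right _ _)

lemma K_nonneg (hr : 0 < r) (hPs : star P = P) (hB0 : 0 ≤ B) : 0 ≤ cfc (KK r) (mm P B) :=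
  cfc_nonneg' (mm_nonneg hPs hB0) (fun s _ => KK_nonneg hr)

lemma K_norm (hr : 0 < r) (hPs : star P = P) (hB0 : 0 ≤ B) : ‖cfc (KK r) (mm P B)‖ ≤ 1 :=
  norm_le_one_of (K_nonneg hr hPs hB0)
    (cfc_le_one' (mm_nonneg hPs hB0) (fun s _ => KK_le_one))

/-- `K = c v` with `v` continuous -/
lemma K_eq_c_mul (hr : 0 < r) : cfc (KK r) (mm P B) =
    cfc (cc r) (mm P B) * cfc (fun s => 1 / max r (cc r s)) (mm P B) := by
  have hc : Continuous fun s => 1 / max r (cc r s) := (inv_max_continuous hr).comp (cc_cont r)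
  rw [cfc_mul' (cc_cont r) hc]
  congr 1
  funext s
  exact KK_factor hr

/-- `x* x ≤ (1/r) z* c z` -/
lemma xx_sq_le (hr : 0 < r) (hPs : star P = P) (hB0 : 0 ≤ B) :
    star (xx r P B Z) * xx r P B Z ≤ (1 / r) • (star Z * cfc (cc r) (mm P B) * Z) := by
  have hm := mm_nonneg hPs hB0
  have h1 : cfc (fun s => chi r s * chi r s) (mm P B) ≤ cfc (fun s => (1 / r) * cc r s) (mm P B) := by
    refine cfc_le_cfc ((chi_cont hr).mul (chi_cont hr)) (continuous_const.mul (cc_cont r)) hm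
      (fun s _ => ?_)
    show chi r s * chi r s ≤ (1 / r) * cc r s
    rw [chi_sq hr]
    unfold cc
    rw [div_eq_mul_one_div, mul_comm]
    refine mul_le_mul_of_nonneg_right ?_ (le_max_right _ _)
    exact one_div_le_one_div_of_le hr (le_max_right _ _)
  have h2 : cfc (fun s => (1 / r) * cc r s) (mm P B) = (1 / r) • cfc (cc r) (mm P B) := by
    rw [cfc_const_mul (1 / r) (cc r) (mm P B) (cc_cont r).continuousOn]
  rw [h2] at h1
  have h3 := star_left_conjugate_le_conjugate h1 Z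
  have h4 : star (xx r P B Z) * xx r P B Z =
      star Z * cfc (fun s => chi r s * chi r s) (mm P B) * Z := by
    rw [star_xx, ← cfc_mul' (chi_cont hr) (chi_cont hr)]
    unfold xx; noncomm_ring
  rw [h4]
  refine h3.trans_eq ?_
  rw [mul_smul_comm, smul_mul_assoc]

end

end Vale.Agent.P133.T4
end
end

section

section

/-! P133, module T4, part b: the two implications in a fixed C*-algebra. -/

open scoped ComplexOrder CStarAlgebra

set_option linter.unusedSectionVars false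
set_option linter.unusedVariables false

namespace Vale.Agent.P133.T4

open Vale.Agent.P133

universe u
variable {M : Type u} [CStarAlgebra M] [PartialOrder M] [StarOrderedRing M]
variable {r : ℝ} {P B Z Z₁ Z₂ : M}

lemma le_smul_one_of_norm {a : M} (ha : 0 ≤ a) {δ : ℝ} (hδ : 0 ≤ δ) (h : ‖a‖ ≤ δ) :
    a ≤ δ • (1 : M) := by
  have := (CStarAlgebra.norm_le_iff_le_algebraMap a hδ ha).mp h
  rwa [Algebra.algebraMap_eq_smul_one] at this

lemma conj_sa_le {a b c : M} (hc : star c = c) (h : a ≤ b) : c * a * c ≤ c * b * c := by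
  have := star_left_conjugate_le_conjugate h c
  rwa [hc] at this

lemma conj_sa_nonneg {a c : M} (hc : star c = c) (h : 0 ≤ a) : 0 ≤ c * a * c := by
  have := star_left_conjugate_nonneg h c
  rwa [hc] at this

lemma norm_mono {a b : M} (ha : 0 ≤ a) (h : a ≤ b) : ‖a‖ ≤ ‖b‖ :=
  CStarAlgebra.norm_le_norm_of_nonneg_of_le ha h

lemma real_smul_le_smul {a b : M} {c : ℝ} (hc : 0 ≤ c) (h : a ≤ b) : c • a ≤ c • b := by
  have h1 : 0 ≤ c • (b - a) := smul_nonneg hc (sub_nonneg.mpr h)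
  rw [smul_sub] at h1
  exact sub_nonneg.mp h1

lemma norm_rsmul {c : ℝ} (hc : 0 ≤ c) (a : M) : ‖c • a‖ = c * ‖a‖ := by
  rw [norm_smul, Real.norm_eq_abs, abs_of_nonneg hc]

lemma sq_le_self {B : M} (hB0 : 0 ≤ B) (hB1 : B ≤ 1) : B * B ≤ B := by
  have hs : star B = B := (IsSelfAdjoint.of_nonneg hB0).star_eq
  have h1 : B * B = cfc (fun s : ℝ => s * s) B := by
    have := mul_cfc (g := fun s : ℝ => s) continuous_id hB0
    rw [cfc_id' ℝ B (IsSelfAdjoint.of_nonneg hB0)] at this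
    exact this
  have h2 : B = cfc (fun s : ℝ => s) B := (cfc_id' ℝ B (IsSelfAdjoint.of_nonneg hB0)).symm
  rw [h1]
  conv_rhs => rw [h2]
  refine cfc_mono (fun s hs => ?_) (by fun_prop) (by fun_prop)
  have h3 := spec_nonneg hB0 hs
  have h4 : s ≤ 1 := (spec_le_norm hs).trans (norm_le_one_of hB0 hB1)
  show s * s ≤ s
  nlinarith only [h3, h4]

lemma ww_nonneg (hB0 : 0 ≤ B) : 0 ≤ ww r P B Z := by
  have hs : star B = B := (IsSelfAdjoint.of_nonneg hB0).star_eq
  exact conj_sa_nonneg hs (mul_star_self_nonneg _)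

lemma BPB_nonneg (hPs : star P = P) (hPP : P * P = P) (hB0 : 0 ≤ B) : 0 ≤ B * P * B :=
  conj_sa_nonneg (IsSelfAdjoint.of_nonneg hB0).star_eq (P_nonneg hPs hPP)

lemma f0_nonneg (hPs : star P = P) (hPP : P * P = P) (hB0 : 0 ≤ B) : 0 ≤ f0 r P B := by
  refine conj_sa_nonneg (IsSelfAdjoint.of_nonneg hB0).star_eq ?_
  exact cfc_nonneg' (BPB_nonneg hPs hPP hB0) (fun s _ => sub_nonneg.mpr (cut_le_one _ _))

lemma fraw_nonneg (hr : 0 < r) (hPs : star P = P) (hPP : P * P = P) (hB0 : 0 ≤ B) :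
    0 ≤ fraw r P B Z := by
  refine add_nonneg (smul_nonneg (by norm_num) (f0_nonneg hPs hPP hB0)) ?_
  exact smul_nonneg (by positivity) (ww_nonneg hB0)

lemma NN_nonneg (hr : 0 < r) (hPs : star P = P) (hPP : P * P = P) (hB0 : 0 ≤ B) :
    0 ≤ NN r P B Z := conj_sa_nonneg hPs (fraw_nonneg hr hPs hPP hB0)

lemma PfP_le (hr : 0 < r) (hPs : star P = P) (hPP : P * P = P) (hB0 : 0 ≤ B) :
    P * f0 r P B * P ≤ (4 * r) • P := by
  have hBs : star B = B := (IsSelfAdjoint.of_nonneg hB0).star_eq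
  have h1 : ‖P * B * cfc (fun s => 1 - cut (16 * r) s) (star (P * B) * (P * B)) * star (P * B)‖
      ≤ 4 * r := by
    refine norm_conj_cfc_le (g := fun s => 1 - cut (16 * r) s)
      (continuous_const.sub (cut_continuous _)) ?_ (by positivity) ?_ _
    · intro s _; exact sub_nonneg.mpr (cut_le_one _ _)
    · intro s hs
      have := mul_one_sub_cut_le (σ := 16 * r) (by positivity) hs
      linarith only [this]
  have h2 : star (P * B) * (P * B) = B * P * B := by
    rw [star_mul, hBs, hPs]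
    calc B * P * (P * B) = B * (P * P) * B := by noncomm_ring
      _ = _ := by rw [hPP]
  have h3 : P * B * cfc (fun s => 1 - cut (16 * r) s) (star (P * B) * (P * B)) * star (P * B)
      = P * f0 r P B * P := by
    rw [h2, star_mul, hBs, hPs]; unfold f0; noncomm_ring
  rw [h3] at h1
  have h4 : 0 ≤ P * f0 r P B * P := conj_sa_nonneg hPs (f0_nonneg hPs hPP hB0)
  have h5 := conj_sa_le hPs (le_smul_one_of_norm h4 (by positivity) h1)
  have h6 : P * (P * f0 r P B * P) * P = P * f0 r P B * P := by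
    calc P * (P * f0 r P B * P) * P = (P * P) * f0 r P B * (P * P) := by noncomm_ring
      _ = _ := by rw [hPP]
  rw [h6] at h5
  refine h5.trans_eq ?_
  rw [mul_smul_comm, smul_mul_assoc, mul_one, hPP]

lemma P_mul_NN (hPP : P * P = P) : P * NN r P B Z = NN r P B Z := by
  unfold NN; rw [← mul_assoc, ← mul_assoc, hPP]

lemma NN_mul_P (hPP : P * P = P) : NN r P B Z * P = NN r P B Z := by
  unfold NN; rw [mul_assoc, hPP]

lemma P_mul_cutN (hr : 0 < r) (hPs : star P = P) (hPP : P * P = P) (hB0 : 0 ≤ B) :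
    P * cfc (cut (32 * r)) (NN r P B Z) = cfc (cut (32 * r)) (NN r P B Z) :=
  unit_cfc (inv_max_continuous (by positivity : (0:ℝ) < 32 * r)) (NN_nonneg hr hPs hPP hB0)
    (fun s hs => cut_factor (by positivity) hs) (P_mul_NN hPP)

lemma cutN_mul_P (hr : 0 < r) (hPs : star P = P) (hPP : P * P = P) (hB0 : 0 ≤ B) :
    cfc (cut (32 * r)) (NN r P B Z) * P = cfc (cut (32 * r)) (NN r P B Z) := by
  have := congrArg star (P_mul_cutN (Z := Z) hr hPs hPP hB0)
  rwa [star_mul, hPs, star_cfc] at this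

lemma P_mul_ee (hr : 0 < r) (hPs : star P = P) (hPP : P * P = P) (hB0 : 0 ≤ B) :
    P * ee r P B Z = ee r P B Z := by
  unfold ee; rw [mul_sub, hPP, P_mul_cutN hr hPs hPP hB0]

lemma ee_mul_P (hr : 0 < r) (hPs : star P = P) (hPP : P * P = P) (hB0 : 0 ≤ B) :
    ee r P B Z * P = ee r P B Z := by
  unfold ee; rw [sub_mul, hPP, cutN_mul_P hr hPs hPP hB0]

lemma ee_nonneg (hr : 0 < r) (hPs : star P = P) (hPP : P * P = P) (hB0 : 0 ≤ B) :
    0 ≤ ee r P B Z := by
  have h1 : cfc (cut (32 * r)) (NN r P B Z) ≤ 1 :=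
    cfc_le_one' (NN_nonneg hr hPs hPP hB0) (fun s _ => cut_le_one _ _)
  have h2 := conj_sa_le hPs h1
  rw [mul_one, hPP, P_mul_cutN hr hPs hPP hB0, cutN_mul_P hr hPs hPP hB0] at h2
  exact sub_nonneg.mpr h2

lemma ee_le_P (hr : 0 < r) (hPs : star P = P) (hPP : P * P = P) (hB0 : 0 ≤ B) :
    ee r P B Z ≤ P := by
  have h1 : 0 ≤ cfc (cut (32 * r)) (NN r P B Z) :=
    cfc_nonneg' (NN_nonneg hr hPs hPP hB0) (fun s hs => cut_nonneg (by positivity) hs)
  exact sub_le_self _ h1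

lemma ee_le_one (hr : 0 < r) (hPs : star P = P) (hPP : P * P = P) (hB0 : 0 ≤ B) :
    ee r P B Z ≤ 1 := (ee_le_P hr hPs hPP hB0).trans (P_le_one hPs hPP)

lemma ff_nonneg (hr : 0 < r) (hPs : star P = P) (hPP : P * P = P) (hB0 : 0 ≤ B) :
    0 ≤ ff r P B Z := cfc_nonneg' (fraw_nonneg hr hPs hPP hB0) (fun s hs => le_min zero_le_one hs)

lemma ff_le_one (hr : 0 < r) (hPs : star P = P) (hPP : P * P = P) (hB0 : 0 ≤ B) :
    ff r P B Z ≤ 1 := cfc_le_one' (fraw_nonneg hr hPs hPP hB0) (fun s hs => min_le_left _ _)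

/-- left units of `B` are left units of `f` -/
lemma unit_ff (hr : 0 < r) (hPs : star P = P) (hPP : P * P = P) (hB0 : 0 ≤ B) {w : M}
    (hw : w * B = B) : w * ff r P B Z = ff r P B Z := by
  refine unit_cfc (inv_max_continuous one_pos) (fraw_nonneg hr hPs hPP hB0) (fun s hs => ?_) ?_
  · have := cut_factor one_pos hs
    unfold cut at this
    rwa [div_one] at this
  · unfold fraw f0 ww
    rw [mul_add, mul_smul_comm, mul_smul_comm]
    congr 2
    · rw [← mul_assoc, ← mul_assoc, hw]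
    · rw [← mul_assoc, ← mul_assoc, hw]

/-- `‖w‖ ≤ ‖z* c z‖` -/
lemma ww_norm_le (hr : 0 < r) (hPs : star P = P) (hPP : P * P = P) (hB0 : 0 ≤ B) (hB1 : B ≤ 1) :
    ‖ww r P B Z‖ ≤ ‖star Z * cfc (cc r) (mm P B) * Z‖ := by
  have hBs : star B = B := (IsSelfAdjoint.of_nonneg hB0).star_eq
  set x := xx r P B Z with hx
  have h1 : ww r P B Z = star (star x * B) * (star x * B) := by
    rw [star_mul, star_star, hBs]; unfold ww; rw [← hx]; noncomm_ring
  rw [h1, CStarRing.norm_star_mul_self, ← CStarRing.norm_self_mul_star, star_mul, star_star, hBs,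
    ← xx_B_xx hr hPs hPP hB0 Z Z, ← hx]
  have h2 : star x * B * (B * x) = star x * (B * B) * x := by noncomm_ring
  rw [h2]
  refine norm_mono ?_ (star_left_conjugate_le_conjugate (sq_le_self hB0 hB1) x)
  have : 0 ≤ B * B := by
    have := star_mul_self_nonneg B
    rwa [hBs] at this
  exact star_left_conjugate_nonneg this x

lemma proj_zero_of_norm_lt_one (hPs : star P = P) (hPP : P * P = P) (h : ‖P‖ < 1) : P = 0 := by
  have h1 : ‖P‖ = ‖P‖ * ‖P‖ := by
    conv_lhs => rw [← hPP]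
    have := CStarRing.norm_star_mul_self (x := P)
    rwa [hPs] at this
  have h2 : ‖P‖ * (1 - ‖P‖) = 0 := by linarith only [h1]
  rcases mul_eq_zero.mp h2 with h3 | h3
  · exact norm_eq_zero.mp h3
  · linarith only [h, h3]

/-- Claim 1. -/
theorem claim_e (D : Data r P B Z₁ Z₂) (hB0 : 0 ≤ B) (hB1 : B ≤ 1)
    (he : ‖ee r P B Z₁‖ ≤ 1 / 2) : P = 0 := by
  obtain ⟨hr, hr', hPs, hPP, h1, h2, h12⟩ := D
  have hBs : star B = B := (IsSelfAdjoint.of_nonneg hB0).star_eq
  have hN0 := NN_nonneg (Z := Z₁) hr hPs hPP hB0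
  -- `8 r P ≤ (2/r) P w P`
  have k1 : (8 * r) • P ≤ (2 / r) • (P * ww r P B Z₁ * P) := by
    have a1 := conj_sa_le hPs
      (le_smul_one_of_norm (ee_nonneg (Z := Z₁) hr hPs hPP hB0) (by norm_num) he)
    rw [P_mul_ee hr hPs hPP hB0, ee_mul_P hr hPs hPP hB0, mul_smul_comm, smul_mul_assoc, mul_one,
      hPP] at a1
    have a2 : cfc (cut (32 * r)) (NN r P B Z₁) ≤ (1 / (32 * r)) • NN r P B Z₁ := by
      have : (1 / (32 * r)) • NN r P B Z₁ = cfc (fun s : ℝ => (1 / (32 * r)) * s) (NN r P B Z₁) := by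
        rw [cfc_const_mul (1 / (32 * r)) (fun s : ℝ => s) (NN r P B Z₁) (by fun_prop),
          cfc_id' ℝ _ (IsSelfAdjoint.of_nonneg hN0)]
      rw [this]
      refine cfc_le_cfc (cut_continuous _) (by fun_prop) hN0 (fun s hs => ?_)
      rw [one_div_mul_eq_div]
      exact cut_le
    have a3 : NN r P B Z₁ ≤ (8 * r) • P + (2 / r) • (P * ww r P B Z₁ * P) := by
      have b1 : NN r P B Z₁ = (2 : ℝ) • (P * f0 r P B * P) + (2 / r) • (P * ww r P B Z₁ * P) := by
        unfold NN fraw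
        rw [mul_add, add_mul, mul_smul_comm, mul_smul_comm, smul_mul_assoc, smul_mul_assoc]
      rw [b1]
      have b2 := real_smul_le_smul (c := 2) (by norm_num) (PfP_le hr hPs hPP hB0)
      rw [smul_smul] at b2
      have b3 : (2 : ℝ) * (4 * r) = 8 * r := by ring
      rw [b3] at b2
      exact add_le_add_left b2 _
    unfold ee at a1
    have a4 : P ≤ (1 / 2 : ℝ) • P + cfc (cut (32 * r)) (NN r P B Z₁) := sub_le_iff_le_add.mp a1
    have a5 : (1 / 2 : ℝ) • P ≤ (1 / (32 * r)) • NN r P B Z₁ := by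
      have : P = (1 / 2 : ℝ) • P + (1 / 2 : ℝ) • P := by
        rw [← add_smul]; norm_num
      have a6 : (1 / 2 : ℝ) • P + (1 / 2 : ℝ) • P ≤
          (1 / 2 : ℝ) • P + cfc (cut (32 * r)) (NN r P B Z₁) := by
        rw [← this]; exact a4
      exact (le_of_add_le_add_left a6).trans a2
    have a7 := real_smul_le_smul (c := 32 * r) (by positivity) a5
    rw [smul_smul, smul_smul] at a7
    have c1 : 32 * r * (1 / 2) = 16 * r := by ring
    have c2 : 32 * r * (1 / (32 * r)) = 1 := by field_simp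
    rw [c1, c2, one_smul] at a7
    have a8 := a7.trans a3
    have c3 : (16 * r) • P = (8 * r) • P + (8 * r) • P := by rw [← add_smul]; ring_nf
    rw [c3] at a8
    exact le_of_add_le_add_left a8
  set x₁ := xx r P B Z₁ with hx₁
  set x₂ := xx r P B Z₂ with hx₂
  have hPx₂ : P * x₂ = x₂ := P_mul_xx hr hPs hPP hB0
  have hxP₂ : star x₂ * P = star x₂ := star_xx_mul_P hr hPs hPP hB0
  -- conjugate by `x₂`
  have k2 : ‖star x₂ * x₂‖ ≤ r ^ 2 / 4 := by
    have a1 := star_left_conjugate_le_conjugate k1 x₂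
    have a2 : star x₂ * ((8 * r) • P) * x₂ = (8 * r) • (star x₂ * x₂) := by
      rw [mul_smul_comm, smul_mul_assoc, hxP₂]
    have a3 : star x₂ * ((2 / r) • (P * ww r P B Z₁ * P)) * x₂ =
        (2 / r) • (star (star x₁ * B * x₂) * (star x₁ * B * x₂)) := by
      rw [mul_smul_comm, smul_mul_assoc]
      congr 1
      calc star x₂ * (P * ww r P B Z₁ * P) * x₂ = (star x₂ * P) * ww r P B Z₁ * (P * x₂) := by
            noncomm_ring
        _ = star x₂ * ww r P B Z₁ * x₂ := by rw [hxP₂, hPx₂]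
        _ = _ := by
            rw [star_mul, star_mul, star_star, hBs]; unfold ww; rw [← hx₁]; noncomm_ring
    rw [a2, a3] at a1
    have a4 := norm_mono (smul_nonneg (by positivity) (star_mul_self_nonneg x₂)) a1
    rw [norm_rsmul (by positivity), norm_rsmul (by positivity),
      CStarRing.norm_star_mul_self (x := star x₁ * B * x₂), hx₁, hx₂,
      xx_B_xx hr hPs hPP hB0 Z₁ Z₂] at a4
    have a5 : ‖star Z₁ * cfc (cc r) (mm P B) * Z₂‖ * ‖star Z₁ * cfc (cc r) (mm P B) * Z₂‖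
        ≤ r ^ 2 * r ^ 2 := mul_le_mul h12 h12 (norm_nonneg _) (by positivity)
    have a6 : 8 * r * ‖star x₂ * x₂‖ ≤ 2 / r * (r ^ 2 * r ^ 2) := by
      refine a4.trans ?_
      exact mul_le_mul_of_nonneg_left a5 (by positivity)
    have a7 : 2 / r * (r ^ 2 * r ^ 2) = 8 * r * (r ^ 2 / 4) := by field_simp; ring
    rw [a7] at a6
    exact le_of_mul_le_mul_left a6 (by positivity)
  have k3 : ‖star Z₂ * cfc (cc r) (mm P B) * Z₂‖ ≤ r ^ 2 / 4 := by
    rw [← xx_B_xx hr hPs hPP hB0 Z₂ Z₂, ← hx₂]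
    refine le_trans (norm_mono (star_left_conjugate_nonneg hB0 x₂) ?_) k2
    have := star_left_conjugate_le_conjugate hB1 x₂
    rwa [mul_one] at this
  have k4 : ‖cfc (KK r) (mm P B)‖ ≤ r ^ 2 / 4 + r ^ 2 := by
    have : cfc (KK r) (mm P B) = star Z₂ * cfc (cc r) (mm P B) * Z₂ -
        (star Z₂ * cfc (cc r) (mm P B) * Z₂ - cfc (KK r) (mm P B)) := by abel
    rw [this]
    exact (norm_sub_le _ _).trans (add_le_add k3 h2)
  have k5 : ‖star Z₁ * cfc (cc r) (mm P B) * Z₁‖ ≤ r ^ 2 / 4 + r ^ 2 + r ^ 2 := by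
    have : star Z₁ * cfc (cc r) (mm P B) * Z₁ = cfc (KK r) (mm P B) +
        (star Z₁ * cfc (cc r) (mm P B) * Z₁ - cfc (KK r) (mm P B)) := by abel
    rw [this]
    exact (norm_add_le _ _).trans (add_le_add k4 h1)
  have k6 : ‖ww r P B Z₁‖ ≤ r ^ 2 / 4 + r ^ 2 + r ^ 2 :=
    (ww_norm_le hr hPs hPP hB0 hB1).trans k5
  have hPn : ‖P‖ ≤ 1 := norm_le_one_of (P_nonneg hPs hPP) (P_le_one hPs hPP)
  have k7 : ‖P * ww r P B Z₁ * P‖ ≤ r ^ 2 / 4 + r ^ 2 + r ^ 2 := by
    calc ‖P * ww r P B Z₁ * P‖ ≤ ‖P‖ * ‖ww r P B Z₁‖ * ‖P‖ :=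
          (norm_mul_le _ _).trans (mul_le_mul_of_nonneg_right (norm_mul_le _ _) (norm_nonneg _))
      _ ≤ 1 * ‖ww r P B Z₁‖ * 1 := by
          refine mul_le_mul (mul_le_mul_of_nonneg_right hPn (norm_nonneg _)) hPn (norm_nonneg _)
            (by (clear * -; positivity))
      _ = ‖ww r P B Z₁‖ := by ring
      _ ≤ _ := k6
  have k8 := norm_mono (smul_nonneg (by positivity) (P_nonneg hPs hPP)) k1
  rw [norm_rsmul (by positivity), norm_rsmul (by positivity)] at k8
  refine proj_zero_of_norm_lt_one hPs hPP ?_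
  have k9 : 8 * r * ‖P‖ ≤ 2 / r * (r ^ 2 / 4 + r ^ 2 + r ^ 2) :=
    k8.trans (mul_le_mul_of_nonneg_left k7 (by positivity))
  have k10 : 2 / r * (r ^ 2 / 4 + r ^ 2 + r ^ 2) = 8 * r * (9 / 16) := by field_simp; ring
  rw [k10] at k9
  have := le_of_mul_le_mul_left k9 (by positivity)
  linarith only [this]

/-- Claim 2. -/
theorem claim_f (D : Data r P B Z₁ Z₂) (hB0 : 0 ≤ B) (hB1 : B ≤ 1)
    (hf : ‖ff r P B Z₁‖ ≤ 1 / 2) : ‖B‖ ≤ 3 / 4 := by
  obtain ⟨hr, hr', hPs, hPP, h1, h2, h12⟩ := D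
  have hBs : star B = B := (IsSelfAdjoint.of_nonneg hB0).star_eq
  have hraw0 := fraw_nonneg (Z := Z₁) hr hPs hPP hB0
  have hw0 := ww_nonneg (r := r) (P := P) (Z := Z₁) hB0
  have hf0 := f0_nonneg (r := r) hPs hPP hB0
  have k1 : ‖fraw r P B Z₁‖ ≤ 1 / 2 := by
    refine norm_le_of_cfc (g := fun s : ℝ => min 1 s) (by fun_prop) hraw0 (t := 1 / 2)
      (by norm_num) (fun s hs => ?_) hf
    refine lt_of_lt_of_le ?_ (le_abs_self _)
    exact lt_min (by norm_num) hs
  have k2 : ‖f0 r P B‖ ≤ 1 / 4 := by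
    have a1 : (2 : ℝ) • f0 r P B ≤ fraw r P B Z₁ := by
      unfold fraw
      exact le_add_of_nonneg_right (smul_nonneg (by positivity) hw0)
    have a2 := norm_mono (smul_nonneg (by norm_num) hf0) a1
    rw [norm_rsmul (by norm_num)] at a2
    linarith only [k1, a2]
  have k3 : ‖ww r P B Z₁‖ ≤ r / 4 := by
    have a1 : (2 / r) • ww r P B Z₁ ≤ fraw r P B Z₁ := by
      unfold fraw
      exact le_add_of_nonneg_left (smul_nonneg (by positivity) hf0)
    have a2 := norm_mono (smul_nonneg (by positivity) hw0) a1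
    rw [norm_rsmul (by positivity)] at a2
    have a3 : 2 / r * ‖ww r P B Z₁‖ ≤ 2 / r * (r / 4) := by
      have : 2 / r * (r / 4) = 1 / 2 := by field_simp; norm_num
      rw [this]; exact a2.trans k1
    exact le_of_mul_le_mul_left a3 (by positivity)
  set y := star Z₁ * cfc (cc r) (mm P B) * Z₁ with hy
  have hy0 : 0 ≤ y := star_left_conjugate_nonneg (c_nonneg hPs hB0) Z₁
  have hys : star y = y := (IsSelfAdjoint.of_nonneg hy0).star_eq
  set x := xx r P B Z₁ with hx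
  have hyx : star x * B * x = y := xx_B_xx hr hPs hPP hB0 Z₁ Z₁
  have hK := K_norm hr hPs hB0 (P := P)
  have k4 : ‖y‖ ≤ 1 + r ^ 2 := by
    have : y = cfc (KK r) (mm P B) + (y - cfc (KK r) (mm P B)) := by abel
    rw [this]
    exact (norm_add_le _ _).trans (add_le_add hK h1)
  have k5 : ‖star x * x‖ ≤ (1 / r) * (1 + r ^ 2) := by
    have a1 := norm_mono (star_mul_self_nonneg x) (xx_sq_le (Z := Z₁) hr hPs hB0)
    rw [norm_rsmul (by positivity)] at a1
    exact a1.trans (mul_le_mul_of_nonneg_left k4 (by positivity))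
  have k6 : ‖y‖ * ‖y‖ ≤ (1 + r ^ 2) / 4 := by
    have a1 : ‖y‖ * ‖y‖ = ‖star y * y‖ := (CStarRing.norm_star_mul_self).symm
    have a2 : star y * y = star x * ww r P B Z₁ * x := by
      rw [hys, ← hyx]; unfold ww; rw [← hx]; noncomm_ring
    rw [a1, a2]
    have a3 : ‖star x * ww r P B Z₁ * x‖ ≤ ‖ww r P B Z₁‖ * ‖star x * x‖ := by
      have b1 := star_left_conjugate_le_conjugate
        (le_smul_one_of_norm hw0 (norm_nonneg _) le_rfl) x
      have b2 := norm_mono (star_left_conjugate_nonneg hw0 x) b1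
      rw [mul_smul_comm, smul_mul_assoc, mul_one, norm_rsmul (norm_nonneg _)] at b2
      exact b2
    refine a3.trans ?_
    calc ‖ww r P B Z₁‖ * ‖star x * x‖ ≤ (r / 4) * ((1 / r) * (1 + r ^ 2)) :=
          mul_le_mul k3 k5 (norm_nonneg _) (by positivity)
      _ = _ := by field_simp
  have hr2 : r ^ 2 ≤ 1 / 1024 := by nlinarith only [hr', hr]
  have k7 : ‖y‖ ≤ 51 / 100 := by
    by_contra hc
    push Not at hc
    nlinarith only [hr', k6, hc, hr]
  have k8 : ‖cfc (KK r) (mm P B)‖ < 1 := by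
    have : cfc (KK r) (mm P B) = y - (y - cfc (KK r) (mm P B)) := by abel
    rw [this]
    have := (norm_sub_le y (y - cfc (KK r) (mm P B))).trans (add_le_add k7 h1)
    linarith only [hr2, this]
  have k9 : ‖mm P B‖ < 2 * r := by
    refine norm_lt_of_cfc (KK_cont r) (mm_nonneg hPs hB0) (t := 1) (by positivity)
      (fun s hs => ?_) k8
    rw [KK_eq_one hr hs, abs_one]
  have k10 : ‖B * P * B‖ ≤ 2 * r := by
    have a1 : B * P * B = star (P * B) * (P * B) := by
      rw [star_mul, hBs, hPs]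
      calc B * P * B = B * (P * P) * B := by rw [hPP]
        _ = _ := by noncomm_ring
    have a2 : (P * B) * star (P * B) = P * (B * B) * P := by
      rw [star_mul, hBs, hPs]; noncomm_ring
    rw [a1, CStarRing.norm_star_mul_self, ← CStarRing.norm_self_mul_star, a2]
    refine le_trans (norm_mono ?_ (conj_sa_le hPs (sq_le_self hB0 hB1))) k9.le
    refine conj_sa_nonneg hPs ?_
    have := star_mul_self_nonneg B
    rwa [hBs] at this
  have k11 : (7 / 8 : ℝ) • (B * B) ≤ f0 r P B := by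
    have a1 : (7 / 8 : ℝ) • (1 : M) ≤ cfc (fun s => 1 - cut (16 * r) s) (B * P * B) := by
      rw [← Algebra.algebraMap_eq_smul_one]
      refine algebraMap_le_cfc (fun s => 1 - cut (16 * r) s) (7 / 8) (B * P * B) (fun s hs => ?_)
        (continuous_const.sub (cut_continuous _)).continuousOn
      have b1 : s ≤ 2 * r := (spec_le_norm hs).trans k10
      have b2 : cut (16 * r) s ≤ s / (16 * r) := cut_le
      have b3 : s / (16 * r) ≤ 1 / 8 := by
        rw [div_le_iff₀ (by positivity)]; linarith only [b1]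
      show (7 / 8 : ℝ) ≤ 1 - cut (16 * r) s
      linarith only [b2, b3]
    have a2 := conj_sa_le hBs a1
    rw [mul_smul_comm, smul_mul_assoc, mul_one] at a2
    exact a2
  have hBB : 0 ≤ B * B := by
    have := star_mul_self_nonneg B
    rwa [hBs] at this
  have k12 := norm_mono (smul_nonneg (by norm_num) hBB) k11
  rw [norm_rsmul (by norm_num)] at k12
  have k13 : ‖B * B‖ = ‖B‖ * ‖B‖ := by
    have := CStarRing.norm_star_mul_self (x := B)
    rwa [hBs] at this
  rw [k13] at k12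
  by_contra hc
  push Not at hc
  nlinarith only [k2, k12, hc]

/-- the smallness of `e f`. -/
theorem ee_mul_ff (hr : 0 < r) (hPs : star P = P) (hPP : P * P = P) (hB0 : 0 ≤ B) :
    ‖ee r P B Z * ff r P B Z‖ ^ 2 ≤ 8 * r := by
  have hraw0 := fraw_nonneg (Z := Z) hr hPs hPP hB0
  have hN0 := NN_nonneg (Z := Z) hr hPs hPP hB0
  set e := ee r P B Z with he
  set f := ff r P B Z with hf
  have hes : star e = e := (IsSelfAdjoint.of_nonneg (ee_nonneg hr hPs hPP hB0)).star_eq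
  have hfs : star f = f := (IsSelfAdjoint.of_nonneg (ff_nonneg hr hPs hPP hB0)).star_eq
  have k1 : ‖e * f‖ ^ 2 = ‖e * (f * f) * e‖ := by
    rw [sq, ← CStarRing.norm_self_mul_star, star_mul, hes, hfs]
    congr 1; noncomm_ring
  have k2 : f * f ≤ fraw r P B Z := by
    have hc : Continuous (fun s : ℝ => min 1 s) := by fun_prop
    have a1 : f * f = cfc (fun s : ℝ => min 1 s * min 1 s) (fraw r P B Z) := by
      rw [hf]; unfold ff; exact cfc_mul' hc hc _
    have a2 : fraw r P B Z = cfc (fun s : ℝ => s) (fraw r P B Z) :=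
      (cfc_id' ℝ _ (IsSelfAdjoint.of_nonneg hraw0)).symm
    rw [a1]
    conv_rhs => rw [a2]
    refine cfc_le_cfc (hc.mul hc) continuous_id hraw0 (fun s hs => ?_)
    show min 1 s * min 1 s ≤ s
    rcases le_total 1 s with h | h
    · rw [min_eq_left h]; linarith only [h]
    · rw [min_eq_right h]; nlinarith only [hs, h]
  have hff0 : 0 ≤ f * f := by
    have := star_mul_self_nonneg f
    rwa [hfs] at this
  have k3 : ‖e * (f * f) * e‖ ≤ ‖e * fraw r P B Z * e‖ :=
    norm_mono (conj_sa_nonneg hes hff0) (conj_sa_le hes k2)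
  have k4 : e * fraw r P B Z * e = e * NN r P B Z * e := by
    unfold NN
    calc e * fraw r P B Z * e = (e * P) * fraw r P B Z * (P * e) := by
          rw [he, P_mul_ee hr hPs hPP hB0, ee_mul_P hr hPs hPP hB0]
      _ = _ := by noncomm_ring
  have k5 : e * NN r P B Z * e = cfc (fun s => s * (1 - cut (32 * r) s) ^ 2) (NN r P B Z) := by
    set N := NN r P B Z with hN
    set k := cfc (cut (32 * r)) N with hk
    have a0 : e = P - k := rfl
    have a1 : N * k = k * N := by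
      rw [hk, mul_cfc (cut_continuous _) hN0, cfc_mul_self (cut_continuous _) hN0]
    have a2 : e * N * e = N - N * k - k * N + k * N * k := by
      rw [a0]
      calc (P - k) * N * (P - k) = (P * N) * P - (P * N) * k - k * (N * P) + k * N * k := by
            noncomm_ring
        _ = _ := by rw [P_mul_NN hPP, NN_mul_P hPP]
    have hc1 : Continuous (fun s : ℝ => s * cut (32 * r) s) := continuous_id.mul (cut_continuous _)
    have hc2 : Continuous (fun s : ℝ => s * cut (32 * r) s * cut (32 * r) s) :=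
      hc1.mul (cut_continuous _)
    have a3 : k * N * k = cfc (fun s : ℝ => s * cut (32 * r) s * cut (32 * r) s) N := by
      rw [← a1, hk, mul_cfc (cut_continuous _) hN0, cfc_mul' hc1 (cut_continuous _)]
    have a4 : N * k = cfc (fun s : ℝ => s * cut (32 * r) s) N := by
      rw [hk, mul_cfc (cut_continuous _) hN0]
    have a5 : N = cfc (fun s : ℝ => s) N := (cfc_id' ℝ _ (IsSelfAdjoint.of_nonneg hN0)).symm
    rw [a2, a3, ← a1, a4]
    nth_rewrite 1 [a5]
    rw [← cfc_sub (fun s : ℝ => s) (fun s : ℝ => s * cut (32 * r) s) N (by fun_prop)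
        hc1.continuousOn,
      ← cfc_sub (fun s : ℝ => s - s * cut (32 * r) s) (fun s : ℝ => s * cut (32 * r) s) N
        (continuous_id.sub hc1).continuousOn hc1.continuousOn,
      ← cfc_add N (fun s : ℝ => s - s * cut (32 * r) s - s * cut (32 * r) s)
        (fun s : ℝ => s * cut (32 * r) s * cut (32 * r) s)
        ((continuous_id.sub hc1).sub hc1).continuousOn hc2.continuousOn]
    congr 1
    funext s
    ring
  rw [k1]
  refine k3.trans ?_
  rw [k4, k5]
  refine norm_cfc_le' hN0 (by positivity) (fun s hs _ => ?_)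
  rw [abs_of_nonneg (mul_nonneg hs (sq_nonneg _))]
  have := mul_one_sub_cut_sq_le (σ := 32 * r) (by positivity) hs
  linarith only [this]

end Vale.Agent.P133.T4
end
end

section

section

/-! P133, module T4, part c: transport along homomorphisms and the one-`b` statement. -/

open scoped ComplexOrder CStarAlgebra

set_option linter.unusedSectionVars false
set_option linter.unusedVariables false

namespace Vale.Agent.P133.T4

open Vale.Agent.P133

universe u
variable {M : Type u} [CStarAlgebra M] [PartialOrder M] [StarOrderedRing M]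

/-- the conclusion of T1 for the ideal `A`. -/
def T1Concl (A : CIdeal M) : Prop :=
  ∀ {c k : M}, 0 ≤ c → c ∈ A → 0 ≤ k → Ctl c 0 k 0 → ∀ {ε : ℝ}, 0 < ε →
    ∃ x y : M, (∃ x' ∈ A, x = cfc Real.sqrt c * x') ∧ (∃ y' ∈ A, y = cfc Real.sqrt c * y') ∧
      ‖star x * x - k‖ < ε ∧ ‖star y * y - k‖ < ε ∧ ‖star x * y‖ < ε

section maps
variable {C : Type u} [CStarAlgebra C] [PartialOrder C] [StarOrderedRing C] (π : M →⋆ₐ[ℂ] C)
variable {r : ℝ} {P B Z Z₁ Z₂ : M}

lemma map_mm : π (mm P B) = mm (π P) (π B) := by unfold mm; simp only [map_mul]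

lemma map_rsmul (c : ℝ) (a : M) : π (c • a) = c • π a := by
  rw [← Complex.coe_smul, ← Complex.coe_smul, map_smul]

lemma map_xx (hr : 0 < r) (hPs : star P = P) (hB0 : 0 ≤ B) :
    π (xx r P B Z) = xx r (π P) (π B) (π Z) := by
  unfold xx
  rw [map_mul, map_cfc' π (chi_cont hr) (IsSelfAdjoint.of_nonneg (mm_nonneg hPs hB0)), map_mm]

lemma map_ww (hr : 0 < r) (hPs : star P = P) (hB0 : 0 ≤ B) :
    π (ww r P B Z) = ww r (π P) (π B) (π Z) := by
  unfold ww
  simp only [map_mul, map_star, map_xx π hr hPs hB0]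

lemma map_f0 (hPs : star P = P) (hPP : P * P = P) (hB0 : 0 ≤ B) :
    π (f0 r P B) = f0 r (π P) (π B) := by
  unfold f0
  rw [map_mul, map_mul, map_cfc' π (g := fun s => 1 - cut (16 * r) s)
    (continuous_const.sub (cut_continuous _))
    (IsSelfAdjoint.of_nonneg (BPB_nonneg hPs hPP hB0)), map_mul, map_mul]

lemma map_fraw (hr : 0 < r) (hPs : star P = P) (hPP : P * P = P) (hB0 : 0 ≤ B) :
    π (fraw r P B Z) = fraw r (π P) (π B) (π Z) := by
  unfold fraw
  rw [map_add, map_rsmul, map_rsmul, map_f0 π hPs hPP hB0, map_ww π hr hPs hB0]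

lemma map_ff (hr : 0 < r) (hPs : star P = P) (hPP : P * P = P) (hB0 : 0 ≤ B) :
    π (ff r P B Z) = ff r (π P) (π B) (π Z) := by
  unfold ff
  rw [map_cfc' π (g := fun s : ℝ => min 1 s) (by fun_prop)
    (IsSelfAdjoint.of_nonneg (fraw_nonneg hr hPs hPP hB0)), map_fraw π hr hPs hPP hB0]

lemma map_NN (hr : 0 < r) (hPs : star P = P) (hPP : P * P = P) (hB0 : 0 ≤ B) :
    π (NN r P B Z) = NN r (π P) (π B) (π Z) := by
  unfold NN
  rw [map_mul, map_mul, map_fraw π hr hPs hPP hB0]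

lemma map_ee (hr : 0 < r) (hPs : star P = P) (hPP : P * P = P) (hB0 : 0 ≤ B) :
    π (ee r P B Z) = ee r (π P) (π B) (π Z) := by
  unfold ee
  rw [map_sub, map_cfc' π (cut_continuous _)
    (IsSelfAdjoint.of_nonneg (NN_nonneg hr hPs hPP hB0)), map_NN π hr hPs hPP hB0]

lemma map_data (D : Data r P B Z₁ Z₂) (hB0 : 0 ≤ B) :
    Data r (π P) (π B) (π Z₁) (π Z₂) := by
  obtain ⟨hr, hr', hPs, hPP, h1, h2, h12⟩ := D
  have hm := IsSelfAdjoint.of_nonneg (mm_nonneg hPs hB0)
  have hc : π (cfc (cc r) (mm P B)) = cfc (cc r) (mm (π P) (π B)) := by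
    rw [map_cfc' π (cc_cont r) hm, map_mm]
  have hk : π (cfc (KK r) (mm P B)) = cfc (KK r) (mm (π P) (π B)) := by
    rw [map_cfc' π (KK_cont r) hm, map_mm]
  refine ⟨hr, hr', by rw [← map_star, hPs], by rw [← map_mul, hPP], ?_, ?_, ?_⟩
  · refine le_trans (le_of_eq ?_) ((norm_map_le π _).trans h1)
    rw [map_sub, map_mul, map_mul, map_star, hc, hk]
  · refine le_trans (le_of_eq ?_) ((norm_map_le π _).trans h2)
    rw [map_sub, map_mul, map_mul, map_star, hc, hk]
  · refine le_trans (le_of_eq ?_) ((norm_map_le π _).trans h12)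
    rw [map_mul, map_mul, map_star, hc]

end maps

/-! ### membership in the ideal -/

section mem
variable {r : ℝ} {P B Z Z₁ Z₂ : M} (A : CIdeal M)

lemma cfc_mem_of_factor {g v : ℝ → ℝ} (hv : Continuous v) {a : M} (ha : 0 ≤ a) (haA : a ∈ A)
    (h : ∀ s, 0 ≤ s → g s = s * v s) : cfc g a ∈ A := by
  rw [cfc_factor hv ha h]; exact A.right_mem haA _

lemma fraw_mem (hB : B ∈ A) : fraw r P B Z ∈ A := by
  unfold fraw f0 ww
  exact A.add_mem (A.smul_mem _ (A.left_mem _ hB)) (A.smul_mem _ (A.left_mem _ hB))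

lemma ff_mem (hr : 0 < r) (hPs : star P = P) (hPP : P * P = P) (hB0 : 0 ≤ B) (hB : B ∈ A) :
    ff r P B Z ∈ A := by
  refine cfc_mem_of_factor A (inv_max_continuous one_pos) (fraw_nonneg hr hPs hPP hB0)
    (fraw_mem A hB) (fun s hs => ?_)
  have := cut_factor one_pos hs
  unfold cut at this
  rwa [div_one] at this

lemma ee_mem (hr : 0 < r) (hPs : star P = P) (hPP : P * P = P) (hB0 : 0 ≤ B) (hP : P ∈ A) :
    ee r P B Z ∈ A := by
  refine A.sub_mem hP ?_
  refine cfc_mem_of_factor A (inv_max_continuous (by positivity : (0:ℝ) < 32 * r))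
    (NN_nonneg hr hPs hPP hB0) ?_ (fun s hs => cut_factor (by positivity) hs)
  unfold NN
  exact A.left_mem _ hP

end mem

lemma sqrt_mul_sqrt {c : M} (hc : 0 ≤ c) : cfc Real.sqrt c * cfc Real.sqrt c = c := by
  rw [cfc_mul' Real.continuous_sqrt Real.continuous_sqrt]
  conv_rhs => rw [← cfc_id' ℝ c (IsSelfAdjoint.of_nonneg hc)]
  exact cfc_congr' hc (fun s hs => Real.mul_self_sqrt hs)

/-- T4 with one `b`. -/
theorem one (A : CIdeal M) (hT1 : T1Concl A) {P B : M} (hPs : star P = P) (hPP : P * P = P)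
    (hPA : P ∈ A) (hB : PC A B) {σ : ℝ} (hσ : 0 < σ) :
    ∃ e f : M, PC A e ∧ PC A f ∧ P * e = e ∧ (∀ w : M, w * B = B → w * f = f) ∧
      ‖e * f‖ ≤ σ ∧ Ctl e (1 / 2) P 0 ∧ Ctl f (1 / 2) B (3 / 4) := by
  obtain ⟨hBA, hB0, hB1⟩ := hB
  -- choose `r`
  obtain ⟨r, hr, hr32, hrσ⟩ : ∃ r : ℝ, 0 < r ∧ r ≤ 1 / 32 ∧ 8 * r ≤ σ ^ 2 := by
    refine ⟨min (1 / 32) (σ ^ 2 / 8), lt_min (by norm_num) (by positivity), min_le_left _ _, ?_⟩
    have := min_le_right (1 / 32) (σ ^ 2 / 8)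
    linarith only [this]
  have hm0 := mm_nonneg hPs hB0
  have hc0 : 0 ≤ cfc (cc r) (mm P B) := c_nonneg hPs hB0
  have hcA : cfc (cc r) (mm P B) ∈ A := by
    have h1 : (mm P B) ∈ A := by unfold mm; exact A.left_mem _ hPA
    refine cfc_mem_of_factor A (v := fun s => cc r s * (1 / max r s))
      ((cc_cont r).mul (inv_max_continuous hr)) hm0 h1 (fun s hs => ?_)
    rcases le_total s r with h | h
    · have : cc r s = 0 := by unfold cc; exact max_eq_right (by linarith only [h])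
      rw [this]; ring
    · rw [max_eq_right h]
      have : 0 < s := by linarith only [hr, h]
      (clear * - this; field_simp)
  have hK0 := K_nonneg hr hPs hB0 (P := P)
  have hdom : Ctl (cfc (cc r) (mm P B)) 0 (cfc (KK r) (mm P B)) 0 := by
    intro C _ π h
    have h0 : π (cfc (cc r) (mm P B)) = 0 := norm_le_zero_iff.mp h
    rw [K_eq_c_mul hr, map_mul, h0, zero_mul, norm_zero]
  obtain ⟨x, y, ⟨Z₁, hZ₁, rfl⟩, ⟨Z₂, hZ₂, rfl⟩, h1, h2, h12⟩ :=
    hT1 hc0 hcA hK0 hdom (ε := r ^ 2) (by positivity)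
  have key : ∀ Z Z' : M, star (cfc Real.sqrt (cfc (cc r) (mm P B)) * Z) *
      (cfc Real.sqrt (cfc (cc r) (mm P B)) * Z') = star Z * cfc (cc r) (mm P B) * Z' := by
    intro Z Z'
    rw [star_mul, star_cfc]
    conv_rhs => rw [← sqrt_mul_sqrt hc0]
    noncomm_ring
  rw [key] at h1 h2 h12
  have D : Data r P B Z₁ Z₂ := ⟨hr, hr32, hPs, hPP, h1.le, h2.le, h12.le⟩
  refine ⟨ee r P B Z₁, ff r P B Z₁, ⟨ee_mem A hr hPs hPP hB0 hPA, ee_nonneg hr hPs hPP hB0,
    ee_le_one hr hPs hPP hB0⟩, ⟨ff_mem A hr hPs hPP hB0 hBA, ff_nonneg hr hPs hPP hB0,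
    ff_le_one hr hPs hPP hB0⟩, P_mul_ee hr hPs hPP hB0,
    fun w hw => unit_ff hr hPs hPP hB0 hw, ?_, ?_, ?_⟩
  · have h3 := ee_mul_ff (Z := Z₁) hr hPs hPP hB0
    exact le_of_sq_le_sq (h3.trans hrσ) hσ.le
  · intro C _ π h
    let _ : PartialOrder C := CStarAlgebra.spectralOrder C
    have _ : StarOrderedRing C := CStarAlgebra.spectralOrderedRing C
    rw [map_ee π hr hPs hPP hB0] at h
    have := claim_e (map_data π D hB0) (map_nonneg' π hB0)
      (by simpa only [map_one] using map_mono' π hB1) h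
    rw [this, norm_zero]
  · intro C _ π h
    let _ : PartialOrder C := CStarAlgebra.spectralOrder C
    have _ : StarOrderedRing C := CStarAlgebra.spectralOrderedRing C
    rw [map_ff π hr hPs hPP hB0] at h
    exact claim_f (map_data π D hB0) (map_nonneg' π hB0)
      (by simpa only [map_one] using map_mono' π hB1) h

end Vale.Agent.P133.T4
end
end

section

section

/-! P133, module T4: projection against two positive contractions. -/

open scoped ComplexOrder CStarAlgebra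

set_option linter.unusedSectionVars false
set_option linter.unusedVariables false

namespace Vale.Agent.P133

universe u
variable {M : Type u} [CStarAlgebra M] [PartialOrder M] [StarOrderedRing M]

namespace T4

/-- `0` on `[0,1/4]`, `1` on `[3/4,∞)` -/
noncomputable def theta (s : ℝ) : ℝ := min 1 (max 0 (2 * s - 1 / 2))

lemma theta_cont : Continuous theta := by unfold theta; fun_prop

lemma theta_zero {s : ℝ} (hs : s ≤ 1 / 4) : theta s = 0 := by
  unfold theta
  rw [max_eq_left (by linarith only [hs])]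
  exact min_eq_right zero_le_one

lemma theta_one {s : ℝ} (hs : 3 / 4 ≤ s) : theta s = 1 := by
  unfold theta
  rw [max_eq_right (by linarith only [hs])]
  exact min_eq_left (by linarith)

lemma theta_factor {s : ℝ} : theta s = s * (theta s * (1 / max (1 / 4) s)) := by
  rcases le_total s (1 / 4) with h | h
  · rw [theta_zero h]; ring
  · rw [max_eq_right h]
    have : 0 < s := by linarith only [h]
    field_simp

lemma vtheta_cont : Continuous (fun s => theta s * (1 / max (1 / 4) s)) :=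
  theta_cont.mul (inv_max_continuous (by norm_num))

/-- near projection to projection -/
lemma near_proj {y : M} (hy : 0 ≤ y) (h : ‖y * y - y‖ < 3 / 16) :
    cfc theta y * cfc theta y = cfc theta y := by
  rw [cfc_mul' theta_cont theta_cont]
  refine cfc_congr (fun s hs => ?_)
  have h1 : y * y - y = cfc (fun s : ℝ => s * s - s) y := by
    have hy' : y = cfc (fun s : ℝ => s) y := (cfc_id' ℝ y (IsSelfAdjoint.of_nonneg hy)).symm
    rw [cfc_sub (fun s : ℝ => s * s) (fun s : ℝ => s) y (by fun_prop) (by fun_prop),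
      cfc_mul (fun s : ℝ => s) (fun s : ℝ => s) y (by fun_prop) (by fun_prop),
      cfc_id' ℝ y (IsSelfAdjoint.of_nonneg hy)]
  have h2 : ‖s * s - s‖ ≤ ‖y * y - y‖ := by
    rw [h1]
    exact norm_apply_le_norm_cfc (fun s : ℝ => s * s - s) y hs (by fun_prop)
  have h3 : |s * s - s| < 3 / 16 := lt_of_le_of_lt h2 h
  rw [abs_lt] at h3
  rcases le_total s (1 / 4) with h4 | h4
  · simp only [theta_zero h4, mul_zero]
  · rcases le_total (3 / 4) s with h5 | h5
    · simp only [theta_one h5, mul_one]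
    · exfalso; nlinarith only [h3, h4, h5]

lemma cut_two_mul {s : ℝ} : cut (1 / 2) s * Real.sqrt (max (s - 1 / 2) 0) =
    Real.sqrt (max (s - 1 / 2) 0) := by
  rcases le_total s (1 / 2) with h | h
  · rw [max_eq_right (by linarith)]; simp
  · rw [cut_eq_one (by norm_num) h, one_mul]

/-- passage to a subprojection at the level `1/2` of `e'`. -/
lemma sub_proj (A : CIdeal M) (hT1 : T1Concl A) {P e' : M} (hPs : star P = P) (hPP : P * P = P)
    (hPA : P ∈ A) (he' : PC A e') (hPe : P * e' = e') (hctl : Ctl e' (1 / 2) P 0) :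
    ∃ p : M, p ∈ A ∧ star p = p ∧ p * p = p ∧ P * p = p ∧ cfc (cut (1 / 2)) e' * p = p ∧
      Ctl p 0 P 0 := by
  obtain ⟨heA, he0, he1⟩ := he'
  set c : M := cfc (fun s : ℝ => max (s - 1 / 2) 0) e' with hc
  have hcont : Continuous (fun s : ℝ => max (s - 1 / 2) 0) := by fun_prop
  have hc0 : 0 ≤ c := cfc_nonneg' he0 (fun s _ => le_max_right _ _)
  have hfac : ∀ s : ℝ, 0 ≤ s → max (s - 1 / 2) 0 = s * (max (s - 1 / 2) 0 * (1 / max (1 / 2) s)) := by
    intro s hs
    rcases le_total s (1 / 2) with h | h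
    · rw [max_eq_right (by linarith only [h] : s - 1 / 2 ≤ 0)]; ring
    · rw [max_eq_right h]
      have : 0 < s := by linarith only [h]
      (clear * - h; field_simp)
  have hcA : c ∈ A := cfc_mem_of_factor A (v := fun s => max (s - 1 / 2) 0 * (1 / max (1 / 2) s))
    (hcont.mul (inv_max_continuous (by norm_num))) he0 heA hfac
  have hdom : Ctl c 0 P 0 := by
    intro C _ π h
    let _ : PartialOrder C := CStarAlgebra.spectralOrder C
    have _ : StarOrderedRing C := CStarAlgebra.spectralOrderedRing C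
    refine hctl C π ?_
    rw [hc, map_cfc' π hcont (IsSelfAdjoint.of_nonneg he0)] at h
    refine norm_le_of_cfc hcont (map_nonneg' π he0) (by norm_num) (fun s hs => ?_) h
    rw [abs_of_nonneg (le_max_right _ _)]
    exact lt_max_of_lt_left (by linarith only [hs])
  obtain ⟨x₀, -, ⟨Z, hZ, rfl⟩, -, h1, -, -⟩ :=
    hT1 hc0 hcA (P_nonneg hPs hPP) hdom (ε := 1 / 16) (by norm_num)
  set q : M := cfc Real.sqrt c with hq
  have hq' : q = cfc (fun s : ℝ => Real.sqrt (max (s - 1 / 2) 0)) e' := by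
    rw [hq, hc]
    exact (cfc_comp' Real.sqrt (fun s : ℝ => max (s - 1 / 2) 0) e'
      (Real.continuous_sqrt.continuousOn) hcont.continuousOn (IsSelfAdjoint.of_nonneg he0)).symm
  have hsc : Continuous (fun s : ℝ => Real.sqrt (max (s - 1 / 2) 0)) :=
    Real.continuous_sqrt.comp hcont
  have hPq : P * q = q := by
    rw [hq']
    refine unit_cfc (v := fun s => Real.sqrt (max (s - 1 / 2) 0) * (1 / max (1 / 2) s))
      (hsc.mul (inv_max_continuous (by norm_num))) he0 (fun s hs => ?_) hPe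
    rcases le_total s (1 / 2) with h | h
    · rw [max_eq_right (by linarith only [h] : s - 1 / 2 ≤ 0)]; simp only [Real.sqrt_zero, one_div, zero_mul, mul_zero]
    · rw [max_eq_right h]
      have : 0 < s := by linarith only [h]
      (clear * - h; field_simp)
  have hmq : cfc (cut (1 / 2)) e' * q = q := by
    rw [hq', cfc_mul' (cut_continuous _) hsc]
    exact cfc_congr' he0 (fun s _ => cut_two_mul)
  set x : M := q * Z * P with hx
  have hxP : x * P = x := by rw [hx, mul_assoc, hPP]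
  have hPx : P * x = x := by rw [hx, ← mul_assoc, ← mul_assoc, hPq]
  have hmx : cfc (cut (1 / 2)) e' * x = x := by rw [hx, ← mul_assoc, ← mul_assoc, hmq]
  have hPn : ‖P‖ ≤ 1 := norm_le_one_of (P_nonneg hPs hPP) (P_le_one hPs hPP)
  have hxx : ‖star x * x - P‖ ≤ 1 / 16 := by
    have : star x * x - P = P * (star (q * Z) * (q * Z) - P) * P := by
      rw [hx, star_mul, hPs]
      calc P * star (q * Z) * (q * Z * P) - P
          = P * (star (q * Z) * (q * Z)) * P - P := by noncomm_ring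
        _ = P * (star (q * Z) * (q * Z)) * P - P * P * P := by rw [hPP, hPP]
        _ = _ := by noncomm_ring
    rw [this]
    calc ‖P * (star (q * Z) * (q * Z) - P) * P‖
        ≤ ‖P‖ * ‖star (q * Z) * (q * Z) - P‖ * ‖P‖ :=
          (norm_mul_le _ _).trans (mul_le_mul_of_nonneg_right (norm_mul_le _ _) (norm_nonneg _))
      _ ≤ 1 * (1 / 16) * 1 := by
          refine mul_le_mul (mul_le_mul hPn h1.le (norm_nonneg _) (by norm_num)) hPn
            (norm_nonneg _) (by norm_num)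
      _ = 1 / 16 := by norm_num
  set y : M := x * star x with hy
  have hy0 : 0 ≤ y := mul_star_self_nonneg x
  have hnx : ‖x‖ * ‖x‖ ≤ 17 / 16 := by
    rw [← CStarRing.norm_star_mul_self]
    have : star x * x = P + (star x * x - P) := by abel
    rw [this]
    refine (norm_add_le _ _).trans ?_
    linarith only [hPn, hxx]
  have hyy : ‖y * y - y‖ < 3 / 16 := by
    have : y * y - y = x * (star x * x - P) * star x := by
      rw [hy, mul_sub, sub_mul, hxP]; noncomm_ring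
    rw [this]
    calc ‖x * (star x * x - P) * star x‖ ≤ ‖x‖ * ‖star x * x - P‖ * ‖star x‖ :=
          (norm_mul_le _ _).trans (mul_le_mul_of_nonneg_right (norm_mul_le _ _) (norm_nonneg _))
      _ = (‖x‖ * ‖x‖) * ‖star x * x - P‖ := by rw [norm_star]; ring
      _ ≤ 17 / 16 * (1 / 16) := mul_le_mul hnx hxx (norm_nonneg _) (by norm_num)
      _ < 3 / 16 := by norm_num
  have hyA : y ∈ A := by
    rw [hy, hx]
    exact A.right_mem (A.left_mem _ hPA) _
  refine ⟨cfc theta y, cfc_mem_of_factor A vtheta_cont hy0 hyA (fun s _ => theta_factor),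
    star_cfc _ _, near_proj hy0 hyy, ?_, ?_, ?_⟩
  · refine unit_cfc vtheta_cont hy0 (fun s _ => theta_factor) ?_
    rw [hy, ← mul_assoc, hPx]
  · refine unit_cfc vtheta_cont hy0 (fun s _ => theta_factor) ?_
    rw [hy, ← mul_assoc, hmx]
  · intro C _ π h
    let _ : PartialOrder C := CStarAlgebra.spectralOrder C
    have _ : StarOrderedRing C := CStarAlgebra.spectralOrderedRing C
    rw [map_cfc' π theta_cont (IsSelfAdjoint.of_nonneg hy0)] at h
    have h3 : ‖π y‖ < 3 / 4 := by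
      refine norm_lt_of_cfc theta_cont (map_nonneg' π hy0) (t := 1) (by norm_num)
        (fun s hs => ?_) (lt_of_le_of_lt h one_pos)
      rw [theta_one hs, abs_one]
    have h4 : ‖π (star x * x)‖ < 3 / 4 := by
      have : ‖π (star x * x)‖ = ‖π y‖ := by
        have e1 : π (star x * x) = star (π x) * π x := by
          rw [← map_star]; exact map_mul π (star x) x
        have e2 : π y = π x * star (π x) := by
          rw [← map_star]; exact map_mul π x (star x)
        rw [e1, e2, CStarRing.norm_star_mul_self, CStarRing.norm_self_mul_star]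
      rwa [this]
    have h5 : ‖π P‖ < 1 := by
      have h6 : π P = π (star x * x) - π (star x * x - P) := by rw [map_sub]; abel
      rw [h6]
      have h7 := norm_sub_le (π (star x * x)) (π (star x * x - P))
      have h8 := (norm_map_le π (star x * x - P)).trans hxx
      linarith only [h4, h7, h8]
    have h9 : π P = 0 := proj_zero_of_norm_lt_one (by rw [← map_star, hPs])
      (by rw [← map_mul, hPP]) h5
    rw [h9, norm_zero]

end T4

/-- T4, given the conclusion of T1. -/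
theorem T4_of_T1 (A : CIdeal M) (hT1 : T4.T1Concl A) {p b₁ b₂ : M} (hp : IsSelfAdjoint p)
    (hpp : p * p = p) (hpA : p ∈ A) (hb₁ : PC A b₁) (hb₂ : PC A b₂) {σ : ℝ} (hσ : 0 < σ) :
    ∃ e f₁ f₂ : M, PC A e ∧ PC A f₁ ∧ PC A f₂ ∧ p * e = e ∧
      (∀ w : M, w * b₁ = b₁ → w * f₁ = f₁) ∧ (∀ w : M, w * b₂ = b₂ → w * f₂ = f₂) ∧
      ‖e * f₁‖ ≤ σ ∧ ‖e * f₂‖ ≤ σ ∧
      Ctl e (1 / 2) p 0 ∧ Ctl f₁ (1 / 2) b₁ (3 / 4) ∧ Ctl f₂ (1 / 2) b₂ (3 / 4) := by
  obtain ⟨e', f₁, he', hf₁, hpe', hw₁, hs₁, hce', hcf₁⟩ :=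
    T4.one A hT1 hp.star_eq hpp hpA hb₁ (σ := σ / 2) (by positivity)
  obtain ⟨p', hp'A, hp's, hp'p, hpp', hm, hc⟩ :=
    T4.sub_proj A hT1 hp.star_eq hpp hpA he' hpe' hce'
  obtain ⟨e, f₂, he, hf₂, hpe, hw₂, hs₂, hce, hcf₂⟩ :=
    T4.one A hT1 hp's hp'p hp'A hb₂ hσ
  refine ⟨e, f₁, f₂, he, hf₁, hf₂, ?_, hw₁, hw₂, ?_, hs₂, ?_, hcf₁, hcf₂⟩
  · rw [← hpe, ← mul_assoc, hpp']
  · have hes : star e = e := (IsSelfAdjoint.of_nonneg he.nonneg).star_eq
    have hep : e * p' = e := by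
      have := congrArg star hpe
      rwa [star_mul, hes, hp's] at this
    have hpm : p' * cfc (cut (1 / 2)) e' = p' := by
      have := congrArg star hm
      rwa [star_mul, hp's, star_cfc] at this
    have hfac : cfc (cut (1 / 2)) e' = cfc (fun s : ℝ => 1 / max (1 / 2) s) e' * e' :=
      cfc_factor' (inv_max_continuous (by norm_num)) he'.nonneg
        (fun s hs => cut_factor (by norm_num) hs)
    have h1 : e * f₁ = e * (p' * cfc (fun s : ℝ => 1 / max (1 / 2) s) e' * (e' * f₁)) := by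
      calc e * f₁ = e * p' * f₁ := by rw [hep]
        _ = e * (p' * cfc (cut (1 / 2)) e') * f₁ := by rw [hpm]
        _ = _ := by rw [hfac]; noncomm_ring
    have hen : ‖e‖ ≤ 1 := T4.norm_le_one_of he.nonneg he.le_one
    have hpn : ‖p'‖ ≤ 1 :=
      T4.norm_le_one_of (T4.P_nonneg hp's hp'p) (T4.P_le_one hp's hp'p)
    have hvn : ‖cfc (fun s : ℝ => 1 / max (1 / 2) s) e'‖ ≤ 2 := by
      refine norm_cfc_le' he'.nonneg (by norm_num) (fun s hs _ => ?_)
      have h2 : (1 / 2 : ℝ) ≤ max (1 / 2) s := le_max_left _ _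
      rw [abs_of_nonneg (by positivity), div_le_iff₀ (by linarith only [h2])]
      linarith only [h2]
    rw [h1]
    calc ‖e * (p' * cfc (fun s : ℝ => 1 / max (1 / 2) s) e' * (e' * f₁))‖
        ≤ ‖e‖ * (‖p'‖ * ‖cfc (fun s : ℝ => 1 / max (1 / 2) s) e'‖ * ‖e' * f₁‖) := by
          refine (norm_mul_le _ _).trans (mul_le_mul_of_nonneg_left ?_ (norm_nonneg _))
          exact (norm_mul_le _ _).trans
            (mul_le_mul_of_nonneg_right (norm_mul_le _ _) (norm_nonneg _))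
      _ ≤ 1 * (1 * 2 * (σ / 2)) := by
          refine mul_le_mul hen ?_ (by (clear * -; positivity)) (by norm_num)
          exact mul_le_mul (mul_le_mul hpn hvn (norm_nonneg _) (by norm_num)) hs₁
            (norm_nonneg _) (by norm_num)
      _ = σ := by ring
  · intro C _ π h
    exact hc C π (hce C π h)

end Vale.Agent.P133
end
end

section

section

/-! P133, module T5, part 1: statement of the gap pair (T3 + T4 combined) and small tools. -/

open scoped ComplexOrder CStarAlgebra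

set_option linter.unusedSectionVars false
set_option linter.unusedVariables false

namespace Vale.Agent.P133

universe u

namespace T5

variable {M : Type u} [CStarAlgebra M] [PartialOrder M] [StarOrderedRing M]

/-- the combination of T3 and T4 in the ideal `A`. -/
def GapPair (A : CIdeal M) : Prop :=
  ∀ {a b₁ b₂ : M}, PC A a → PC A b₁ → PC A b₂ → ∀ {t' t σ : ℝ}, 0 < t' → t' < t →
    Ctl a t a t' → 0 < σ →
    ∃ e f₁ f₂ : M, PC A e ∧ PC A f₁ ∧ PC A f₂ ∧ Level a t' e ∧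
      (∀ w : M, w * b₁ = b₁ → w * f₁ = f₁) ∧ (∀ w : M, w * b₂ = b₂ → w * f₂ = f₂) ∧
      ‖e * f₁‖ ≤ σ ∧ ‖e * f₂‖ ≤ σ ∧
      Ctl e (1 / 2) a t' ∧ Ctl f₁ (1 / 2) b₁ (3 / 4) ∧ Ctl f₂ (1 / 2) b₂ (3 / 4)

/-- the statement of T3 for the ideal `A`. -/
def T3Concl (A : CIdeal M) : Prop :=
  ∀ {a : M}, PC A a → ∀ {t' t : ℝ}, 0 < t' → t' < t → Ctl a t a t' →
    ∃ p : M, p ∈ A ∧ IsSelfAdjoint p ∧ p * p = p ∧ Level a t' p ∧ Ctl p 0 a t'

/-- the statement of T4 for the ideal `A`. -/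
def T4Concl (A : CIdeal M) : Prop :=
  ∀ {p b₁ b₂ : M}, IsSelfAdjoint p → p * p = p → p ∈ A → PC A b₁ → PC A b₂ → ∀ {σ : ℝ}, 0 < σ →
    ∃ e f₁ f₂ : M, PC A e ∧ PC A f₁ ∧ PC A f₂ ∧ p * e = e ∧
      (∀ w : M, w * b₁ = b₁ → w * f₁ = f₁) ∧ (∀ w : M, w * b₂ = b₂ → w * f₂ = f₂) ∧
      ‖e * f₁‖ ≤ σ ∧ ‖e * f₂‖ ≤ σ ∧
      Ctl e (1 / 2) p 0 ∧ Ctl f₁ (1 / 2) b₁ (3 / 4) ∧ Ctl f₂ (1 / 2) b₂ (3 / 4)

theorem gapPair_of (A : CIdeal M) (h3 : T3Concl A) (h4 : T4Concl A) : GapPair A := by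
  intro a b₁ b₂ ha hb₁ hb₂ t' t σ ht' htt hgap hσ
  obtain ⟨p, hpA, hps, hpp, hlev, hctl⟩ := h3 ha ht' htt hgap
  obtain ⟨e, f₁, f₂, he, hf₁, hf₂, hpe, hw₁, hw₂, hs₁, hs₂, hce, hcf₁, hcf₂⟩ :=
    h4 hps hpp hpA hb₁ hb₂ hσ
  refine ⟨e, f₁, f₂, he, hf₁, hf₂, ?_, hw₁, hw₂, hs₁, hs₂, ?_, hcf₁, hcf₂⟩
  · intro w hw h1
    rw [← hpe, ← mul_assoc, hlev w hw h1]
  · intro C _ π h
    exact hctl C π (hce C π h)

/-- the cutting estimate for `Z Z* ≤ W`. -/
theorem cut_mul_le {s : ℝ} (hs : 0 < s) {W Z : M} (hZ : Z * star Z ≤ W) :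
    ‖(1 - cfc (cut s) W) * Z‖ ^ 2 ≤ s / 4 := by
  have h0 : 0 ≤ W := (mul_star_self_nonneg Z).trans hZ
  have hc : Continuous (fun u => 1 - cut s u) := continuous_const.sub (cut_continuous s)
  have h1 : (1 : M) - cfc (cut s) W = cfc (fun u => 1 - cut s u) W := by
    rw [cfc_sub (fun _ => (1 : ℝ)) (cut s) W continuousOn_const
      (cut_continuous s).continuousOn, cfc_const_one ℝ W]
  have h2 : ‖cfc (fun u => 1 - cut s u) W * W * cfc (fun u => 1 - cut s u) W‖ ≤ s / 4 := by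
    rw [mul_assoc, mul_cfc hc h0, cfc_mul' hc (K.cont_id_mul hc)]
    refine norm_cfc_le' h0 (by positivity) (fun u hu _ => ?_)
    have h3 := mul_one_sub_cut_sq_le hs hu
    have h4 : 0 ≤ u * (1 - cut s u) ^ 2 := by (clear * - hu; positivity)
    rw [abs_of_nonneg (by nlinarith only [h4])]
    linarith
  rw [h1, K.norm_sq_eq', star_mul, star_cfc]
  have h3 : cfc (fun u => 1 - cut s u) W * Z * (star Z * cfc (fun u => 1 - cut s u) W) =
      cfc (fun u => 1 - cut s u) W * (Z * star Z) * cfc (fun u => 1 - cut s u) W := by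
    noncomm_ring
  rw [h3]
  refine (K.norm_mono (K.sa_conj_nonneg (cfc_predicate _ _) (mul_star_self_nonneg Z))
    (K.sa_conj_le (cfc_predicate _ _) hZ)).trans h2

/-- multiplication by `cut s W` costs at most `1/s`. -/
theorem cut_left_le {s : ℝ} (hs : 0 < s) {W : M} (hW : 0 ≤ W) (x : M) :
    ‖cfc (cut s) W * x‖ ≤ (1 / s) * ‖W * x‖ := by
  rw [cfc_factor' (inv_max_continuous hs) hW (fun u hu => cut_factor hs hu), mul_assoc]
  exact (norm_mul_le _ _).trans
    (mul_le_mul_of_nonneg_right (K.inv_max_norm hW hs) (norm_nonneg _))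

theorem cut_right_le {s : ℝ} (hs : 0 < s) {W : M} (hW : 0 ≤ W) (x : M) :
    ‖x * cfc (cut s) W‖ ≤ (1 / s) * ‖x * W‖ := by
  have h := cut_left_le hs hW (star x)
  have e1 : ‖cfc (cut s) W * star x‖ = ‖x * cfc (cut s) W‖ := by
    rw [← norm_star, star_mul, star_star, star_cfc]
  have e2 : ‖W * star x‖ = ‖x * W‖ := by
    rw [← norm_star, star_mul, star_star, (IsSelfAdjoint.of_nonneg hW).star_eq]
  rwa [e1, e2] at h

/-- contraction property of `1 - k`. -/
theorem norm_one_sub_mul_le {k : M} (h0 : 0 ≤ k) (h1 : k ≤ 1) (x : M) :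
    ‖(1 - k) * x‖ ≤ ‖x‖ := by
  have h2 : ‖1 - k‖ ≤ 1 := by
    refine (CStarAlgebra.norm_le_one_iff_of_nonneg (1 - k) (sub_nonneg.mpr h1)).mpr ?_
    exact sub_le_self _ h0
  calc ‖(1 - k) * x‖ ≤ ‖1 - k‖ * ‖x‖ := norm_mul_le _ _
    _ ≤ 1 * ‖x‖ := mul_le_mul_of_nonneg_right h2 (norm_nonneg _)
    _ = ‖x‖ := one_mul _

end T5

end Vale.Agent.P133
end
end

section

section

/-! P133, module T5, part 2: the element `g` on the side of `h`. -/

open scoped ComplexOrder CStarAlgebra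

set_option linter.unusedSectionVars false
set_option linter.unusedVariables false

namespace Vale.Agent.P133

universe u

namespace T5

variable {M : Type u} [CStarAlgebra M] [PartialOrder M] [StarOrderedRing M]

/-- if `1 ≤ |g|` on `[t', ∞)` and `‖π g(a)‖ < 1` then `‖π a‖ < t'`. -/
theorem map_norm_lt {g : ℝ → ℝ} (hg : Continuous g) {a : M} (ha : 0 ≤ a) {t t' : ℝ}
    (ht' : 0 < t') (h : ∀ s, t' ≤ s → t ≤ |g s|) {C : Type u} [CStarAlgebra C]
    (π : M →⋆ₐ[ℂ] C) (hn : ‖π (cfc g a)‖ < t) : ‖π a‖ < t' := by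
  let _ : PartialOrder C := CStarAlgebra.spectralOrder C
  have _ : StarOrderedRing C := CStarAlgebra.spectralOrderedRing C
  rw [map_cfc' π hg (IsSelfAdjoint.of_nonneg ha)] at hn
  exact norm_lt_of_cfc hg (map_nonneg' π ha) ht' h hn

theorem map_norm_le {g : ℝ → ℝ} (hg : Continuous g) {a : M} (ha : 0 ≤ a) {t t' : ℝ}
    (ht' : 0 ≤ t') (h : ∀ s, t' < s → t < |g s|) {C : Type u} [CStarAlgebra C]
    (π : M →⋆ₐ[ℂ] C) (hn : ‖π (cfc g a)‖ ≤ t) : ‖π a‖ ≤ t' := by
  let _ : PartialOrder C := CStarAlgebra.spectralOrder C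
  have _ : StarOrderedRing C := CStarAlgebra.spectralOrderedRing C
  rw [map_cfc' π hg (IsSelfAdjoint.of_nonneg ha)] at hn
  exact norm_le_of_cfc hg (map_nonneg' π ha) ht' h hn

/-- if `1 ≤ |g|` on `(t', ∞)` and `‖π g(a)‖ < 1` then `‖π a‖ ≤ t'`. -/
theorem map_norm_le' {g : ℝ → ℝ} (hg : Continuous g) {a : M} (ha : 0 ≤ a) {t t' : ℝ}
    (ht' : 0 ≤ t') (h : ∀ s, t' < s → t ≤ |g s|) {C : Type u} [CStarAlgebra C]
    (π : M →⋆ₐ[ℂ] C) (hn : ‖π (cfc g a)‖ < t) : ‖π a‖ ≤ t' := by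
  refine map_norm_le hg ha (t := ‖π (cfc g a)‖) ht' (fun s hs => ?_) π le_rfl
  exact lt_of_lt_of_le hn (h s hs)

theorem map_cfc_zero {g : ℝ → ℝ} (hg : Continuous g) {a : M} (ha : 0 ≤ a) {r : ℝ}
    (h : ∀ s, s ≤ r → g s = 0) {C : Type u} [CStarAlgebra C]
    (π : M →⋆ₐ[ℂ] C) (hn : ‖π a‖ ≤ r) : π (cfc g a) = 0 := by
  rw [map_cfc' π hg (IsSelfAdjoint.of_nonneg ha)]
  have : Set.EqOn g (fun _ => (0 : ℝ)) (spectrum ℝ (π a)) :=
    fun s hs => h s ((spec_le_norm hs).trans hn)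
  rw [cfc_congr this]
  exact cfc_const_zero ℝ (π a)

/-- `h¹` -/
noncomputable def hh1 (s : ℝ) (h : M) : M := cfc (K.ramp (s / 2) s) h
/-- `h²` -/
noncomputable def hh2 (s : ℝ) (h : M) : M := cfc (K.ramp (s / 4) (s / 2)) h

theorem hh2_hh1 {s : ℝ} (hs : 0 < s) (h : M) : hh2 s h * hh1 s h = hh1 s h := by
  unfold hh2 hh1
  rw [cfc_mul' (K.ramp_cont _ _) (K.ramp_cont _ _)]
  congr 1
  funext u
  rcases le_total u (s / 2) with hu | hu
  · rw [K.ramp_eq_zero (l := s / 2) (r := s) (by linarith only [hs]) hu, mul_zero]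
  · rw [K.ramp_eq_one (l := s / 4) (r := s / 2) (by linarith only [hs]) hu, one_mul]

theorem sides (A : CIdeal M) {B : Type u} [CStarAlgebra B] [PartialOrder B] [StarOrderedRing B]
    (q : M →⋆ₐ[ℂ] B) (hq : Function.Surjective q) {e₀ : M} (he₀A : e₀ ∈ A) (he₀0 : 0 ≤ e₀)
    (hq0 : ‖q e₀‖ ≤ 1 / 2)
    (hker : ∀ (C : Type u) [CStarAlgebra C] (π : M →⋆ₐ[ℂ] C), ‖π e₀‖ ≤ 1 / 2 →
      ∀ z, q z = 0 → π z = 0)
    (AB : CIdeal B) (hAB : ∀ x, x ∈ AB ↔ ∃ a ∈ A, q a = x) {h : M} (hh : PC A h) {s : ℝ}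
    (hs : 0 < s) {f : B} (hf : PC AB f) (hqf : q (hh2 s h) * f = f)
    (hctl : Ctl f (1 / 2) (q (hh1 s h)) (3 / 4)) :
    ∃ gt l : M, PC A gt ∧ q gt = f ∧ Level h (s / 4) gt ∧ PC A l ∧ q l = 0 ∧
      (∀ (C : Type u) [CStarAlgebra C] (π : M →⋆ₐ[ℂ] C),
        ‖π (gt + hh1 s h * l * hh1 s h)‖ ≤ 1 / 2 → ‖π h‖ ≤ 2 * s) := by
  obtain ⟨y, hyA, hqy⟩ := lift_pos A q AB hAB hf
  set h1 : M := hh1 s h with hh1d
  set h2 : M := hh2 s h with hh2d
  have hh2PC : PC A h2 := K.PC.ramp A hh.nonneg hh.mem (by positivity) (by linarith only [hs])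
  have hh1PC : PC A h1 := K.PC.ramp A hh.nonneg hh.mem (by positivity) (by linarith only [hs])
  have h2s : star h2 = h2 := star_cfc _ _
  have h1s : star h1 = h1 := star_cfc _ _
  have h2sa : IsSelfAdjoint h2 := h2s
  set gt : M := h2 * y * h2 with hgt
  have hgt0 : 0 ≤ gt := K.sa_conj_nonneg h2sa hyA.nonneg
  have hgtA : gt ∈ A := A.left_mem _ hh2PC.mem
  have hgtn : ‖gt‖ ≤ 1 := by
    have := K.norm_mul_le_of_le (K.norm_mul_le_of_le (K.PC.norm hh2PC) (K.PC.norm hyA))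
      (K.PC.norm hh2PC)
    simpa only [ge_iff_le, mul_one] using this
  have hgtPC : PC A gt := K.PC.of_norm hgtA hgt0 hgtn
  have hqgt : q gt = f := by
    have hfs : star f = f := (IsSelfAdjoint.of_nonneg hf.nonneg).star_eq
    have h3 : f * q h2 = f := by
      have := congrArg star hqf
      rwa [star_mul, hfs, ← map_star, h2s] at this
    rw [hgt, map_mul, map_mul, hqy, hqf, h3]
  have hlev : Level h (s / 4) gt := by
    have := K.level_cfc (h := h) (s := s / 4) (K.ramp_cont (s / 4) (s / 2))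
      (fun u hu => K.ramp_eq_zero (by linarith only [hs]) hu.le) (y * h2)
    rw [hgt, mul_assoc]
    exact this
  set r : M := cfc (K.ramp s (2 * s)) h with hr
  have hrPC : PC A r := K.PC.ramp A hh.nonneg hh.mem hs.le (by linarith only [hs])
  have hrs : star r = r := star_cfc _ _
  -- decomposition
  obtain ⟨k, m, hkA, hmA, hkm, hk, hm⟩ := exists_decomp A (fun _ : Unit => e₀) (fun _ => he₀A)
    (fun _ => he₀0) (κ := 1 / 2) (by norm_num) (y := gt) hgtA hgt0 (κ' := 1 / 2) (by norm_num)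
    (z := r) hrPC.mem (by
      intro C _ π h0 h1'
      obtain ⟨ρ, hρ⟩ := exists_factor q hq π (hker C π (h0 ()))
      have h3 : ‖ρ f‖ ≤ 1 / 2 := by rw [← hqgt, hρ]; exact h1'
      have h4 := hctl C ρ h3
      rw [hρ] at h4
      have h5 : ‖π h‖ < s := by
        refine map_norm_lt (K.ramp_cont (s / 2) s) hh.nonneg (t := 1) hs (fun u hu => ?_) π
          (lt_of_le_of_lt h4 (by norm_num))
        rw [K.ramp_eq_one (by linarith only [hs]) hu, abs_one]
      exact map_cfc_zero (K.ramp_cont s (2 * s)) hh.nonneg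
        (fun u hu => K.ramp_eq_zero (by linarith only [hs]) hu) π h5.le) (ε := 1 / 16) (by norm_num)
  have hqk : q k = 0 := hk B q (fun _ => hq0)
  obtain ⟨l, hlPC, hql, hlk⟩ := exists_unit A q {k} (by
    intro k' hk'; rw [Finset.mem_singleton] at hk'; rw [hk']; exact hqk) (by
    intro k' hk'; rw [Finset.mem_singleton] at hk'; rw [hk']; exact hkA) (ε := 1 / 16)
    (by norm_num)
  have hlk' := hlk k (Finset.mem_singleton_self k)
  refine ⟨gt, l, hgtPC, hqgt, hlev, hlPC, hql, ?_⟩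
  intro C _ π hπ
  let _ : PartialOrder C := CStarAlgebra.spectralOrder C
  have _ : StarOrderedRing C := CStarAlgebra.spectralOrderedRing C
  have hh1l0 : 0 ≤ h1 * l * h1 := K.sa_conj_nonneg h1s hlPC.nonneg
  have c1 : ‖π gt‖ ≤ 1 / 2 :=
    (K.norm_mono (map_nonneg' π hgt0)
      (map_mono' π (le_add_of_nonneg_right hh1l0))).trans hπ
  have c2 : π m = 0 := hm C π c1
  -- `‖π ((1-l) r)‖ ≤ 1/8`
  have c3 : ‖π ((1 - l) * r)‖ ≤ 1 / 8 := by
    have e1 : (1 - l) * r = (1 - l) * (r - (k + m)) + (k - l * k) + (1 - l) * m := by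
      noncomm_ring
    have e2 : π ((1 - l) * r) = π ((1 - l) * (r - (k + m))) + π (k - l * k) := by
      rw [e1, map_add, map_add, map_mul π (1 - l) m, c2, mul_zero, add_zero]
    rw [e2]
    have e3 : ‖π ((1 - l) * (r - (k + m)))‖ ≤ 1 / 16 :=
      (norm_map_le π _).trans ((norm_one_sub_mul_le hlPC.nonneg hlPC.le_one _).trans hkm)
    have e4 : ‖π (k - l * k)‖ ≤ 1 / 16 := (norm_map_le π _).trans hlk'
    refine (norm_add_le _ _).trans ?_
    linarith only [e3, e4]
  have hrn : ‖π r‖ ≤ 1 := (norm_map_le π r).trans (K.PC.norm hrPC)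
  have h1r : h1 * r = r := by
    rw [hh1d, hr]
    unfold hh1
    rw [cfc_mul' (K.ramp_cont _ _) (K.ramp_cont _ _)]
    congr 1
    funext u
    rcases le_total u s with hu | hu
    · rw [K.ramp_eq_zero (l := s) (r := 2 * s) (by linarith only [hs]) hu, mul_zero]
    · rw [K.ramp_eq_one (l := s / 2) (r := s) (by linarith only [hs]) hu, one_mul]
  have hr1 : r * h1 = r := by
    have := congrArg star h1r
    rwa [star_mul, h1s, hrs] at this
  -- `r l r = r (h1 l h1) r`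
  have c4 : ‖π (r * l * r)‖ ≤ 1 / 2 := by
    have e1 : r * l * r = r * (h1 * l * h1) * r := by
      calc r * l * r = (r * h1) * l * (h1 * r) := by rw [hr1, h1r]
        _ = _ := by noncomm_ring
    have e2 : ‖π (h1 * l * h1)‖ ≤ 1 / 2 :=
      (K.norm_mono (map_nonneg' π hh1l0)
        (map_mono' π (le_add_of_nonneg_left hgt0))).trans hπ
    rw [e1, map_mul, map_mul]
    have := K.norm_mul_le_of_le (K.norm_mul_le_of_le hrn e2) hrn
    simpa only [map_mul, one_div, ge_iff_le, one_mul, mul_one] using this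
  have c5 : ‖π (r * r)‖ ≤ 5 / 8 := by
    have e1 : r * r = r * l * r + r * ((1 - l) * r) := by noncomm_ring
    rw [e1, map_add, map_mul π r ((1 - l) * r)]
    refine (norm_add_le _ _).trans ?_
    have := K.norm_mul_le_of_le hrn c3
    linarith only [c4, this]
  have c6 : ‖π r‖ < 1 := by
    have e1 : ‖π r‖ * ‖π r‖ = ‖π (r * r)‖ := by
      rw [map_mul]
      have := CStarRing.norm_star_mul_self (x := π r)
      rw [← map_star, hrs] at this
      exact this.symm
    by_contra hc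
    push Not at hc
    nlinarith only [c5, e1, hc]
  refine map_norm_le' (K.ramp_cont s (2 * s)) hh.nonneg (t := 1) (by positivity)
    (fun u hu => ?_) π c6
  rw [K.ramp_eq_one (by linarith only [hs]) hu.le, abs_one]

end T5

end Vale.Agent.P133
end
end

section

section

/-! P133, module T5, part 3: Theorem D from the gap pair in the quotient. -/

open scoped ComplexOrder CStarAlgebra

set_option linter.unusedSectionVars false
set_option linter.unusedVariables false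

namespace Vale.Agent.P133

universe u

namespace T5

variable {M : Type u} [CStarAlgebra M] [PartialOrder M] [StarOrderedRing M]

/-- `h³` -/
noncomputable def hh3 (s : ℝ) (h : M) : M := cfc (K.ramp (s / 8) (s / 4)) h

theorem hh3_of_level {s : ℝ} (hs : 0 < s) {h g : M} (hg : Level h (s / 4) g) :
    hh3 s h * g = g :=
  hg _ (K.ramp_cont _ _) (fun u hu => K.ramp_eq_one (by linarith only [hs]) hu)

theorem level_hh1 {s : ℝ} (hs : 0 < s) (h x : M) : Level h (s / 4) (hh1 s h * x) :=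
  K.level_cfc (K.ramp_cont _ _) (fun u hu => K.ramp_eq_zero (by linarith only [hs]) (by linarith)) x

theorem level_add {h g g' : M} {s : ℝ} (hg : Level h s g) (hg' : Level h s g') :
    Level h s (g + g') := by
  intro w hw h1
  rw [mul_add, hg w hw h1, hg' w hw h1]

/-- the lift of a small product: `x = v + n` with `q v = 0` and `‖n‖ ≤ σ`. -/
theorem lift_small (A : CIdeal M) {B : Type u} [CStarAlgebra B] (q : M →⋆ₐ[ℂ] B)
    {x : M} (hx : x ∈ A) {σ : ℝ} (hσ : 0 < σ) (hqx : ‖q x‖ ≤ σ) :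
    ∃ v n : M, v ∈ A ∧ q v = 0 ∧ ‖n‖ ≤ σ ∧ x = v + n := by
  have h1 : ‖σ⁻¹ • q x‖ ≤ 1 := by
    rw [norm_smul, Real.norm_eq_abs, abs_of_pos (by positivity)]
    rw [inv_mul_le_iff₀ hσ, mul_one]; exact hqx
  have hq : q (σ⁻¹ • x) = σ⁻¹ • q x := by
    rw [← Complex.coe_smul, ← Complex.coe_smul, map_smul]
  obtain ⟨y, hyA, hy1, hqy⟩ := lift_contr A q (t := σ⁻¹ • q x)
    ⟨σ⁻¹ • x, A.smul_mem _ hx, hq⟩ h1
  have hq2 : q (σ • y) = q x := by
    rw [← Complex.coe_smul, map_smul, hqy, Complex.coe_smul, smul_smul,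
      mul_inv_cancel₀ hσ.ne', one_smul]
  refine ⟨x - σ • y, σ • y, A.sub_mem hx (A.smul_mem _ hyA), ?_, ?_, by abel⟩
  · rw [map_sub, hq2, sub_self]
  · rw [norm_smul, Real.norm_eq_abs, abs_of_pos hσ]
    nlinarith only [hσ, hy1]

theorem T5_of (A : CIdeal M) (hA : PIrel A)
    (hGP : ∀ (B : Type u) [CStarAlgebra B] [PartialOrder B] [StarOrderedRing B] (AB : CIdeal B),
      PIrel AB → GapPair AB)
    {a h₁ h₂ : M} (ha : PC A a) (hh₁ : PC A h₁)
    (hh₂ : PC A h₂) {t' t : ℝ} (ht' : 0 < t') (htt : t' < t)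
    (hd₁ : Ctl a t h₁ 0) (hd₂ : Ctl a t h₂ 0) {s τ : ℝ} (hs : 0 < s) (hτ : 0 < τ) :
    ∃ e g₁ g₂ : M, PC A e ∧ PC A g₁ ∧ PC A g₂ ∧
      Level a (t' / 2) e ∧ Level h₁ (s / 4) g₁ ∧ Level h₂ (s / 4) g₂ ∧
      ‖e * g₁‖ ≤ τ ∧ ‖e * g₂‖ ≤ τ ∧
      CtlLt e 1 a t' ∧ CtlLt g₁ 1 h₁ (2 * s) ∧ CtlLt g₂ 1 h₂ (2 * s) := by
  -- constants
  set σ : ℝ := τ / 64 with hσd
  have hσ : 0 < σ := by positivity
  set τ1 : ℝ := (τ / 32) ^ 2 with hτ1d
  have hτ1 : 0 < τ1 := by positivity
  -- elements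
  set a₂ : M := cfc (K.ramp (t' / 2) t') a with ha₂d
  have ha₂ : PC A a₂ := K.PC.ramp A ha.nonneg ha.mem (by positivity) (by linarith only [ht'])
  have ha₂s : star a₂ = a₂ := star_cfc _ _
  have ha₂n : ‖a₂‖ ≤ 1 := K.PC.norm ha₂
  set k₁ : M := hh3 s h₁ with hk₁d
  set k₂ : M := hh3 s h₂ with hk₂d
  have hk₁ : PC A k₁ := K.PC.ramp A hh₁.nonneg hh₁.mem (by positivity) (by linarith only [hs])
  have hk₂ : PC A k₂ := K.PC.ramp A hh₂.nonneg hh₂.mem (by positivity) (by linarith only [hs])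
  have hk₁s : star k₁ = k₁ := star_cfc _ _
  have hk₂s : star k₂ = k₂ := star_cfc _ _
  set H : M := k₁ * k₁ + k₂ * k₂ with hHd
  have hkk₁ : 0 ≤ k₁ * k₁ := by
    have := star_mul_self_nonneg k₁
    rwa [hk₁s] at this
  have hkk₂ : 0 ≤ k₂ * k₂ := by
    have := star_mul_self_nonneg k₂
    rwa [hk₂s] at this
  have hH0 : 0 ≤ H := add_nonneg hkk₁ hkk₂
  set W : M := a₂ * H * a₂ with hWd
  have hW0 : 0 ≤ W := K.sa_conj_nonneg ha₂s hH0
  set κ : M := cfc (cut τ1) W with hκd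
  have hκ0 : 0 ≤ κ := cfc_nonneg' hW0 (fun u hu => cut_nonneg hτ1 hu)
  have hκ1 : κ ≤ 1 := cfc_le_one' hW0 (fun u _ => cut_le_one _ u)
  have hκs : star κ = κ := star_cfc _ _
  have h1κ : star (1 - κ) = 1 - κ := by rw [star_sub, star_one, hκs]
  have cutk : ∀ k : M, star k = k → k * k ≤ H → ‖(1 - κ) * (a₂ * k)‖ ≤ τ / 64 := by
    intro k hks hkH
    have h1 : a₂ * k * star (a₂ * k) ≤ W := by
      rw [star_mul, hks, ha₂s]
      calc a₂ * k * (k * a₂) = a₂ * (k * k) * a₂ := by noncomm_ring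
        _ ≤ a₂ * H * a₂ := K.sa_conj_le ha₂s hkH
    have h2 := cut_mul_le hτ1 h1
    rw [← hκd] at h2
    have h3 : τ1 / 4 = (τ / 64) ^ 2 := by rw [hτ1d]; ring
    rw [h3] at h2
    exact le_of_sq_le_sq h2 (by positivity)
  have cut1 := cutk k₁ hk₁s (le_add_of_nonneg_right hkk₂)
  have cut2 := cutk k₂ hk₂s (le_add_of_nonneg_left hkk₁)
  set R₀ : M := (1 - κ) * a₂ with hR₀d
  set e₀ : M := star R₀ * R₀ with he₀d
  have he₀0 : 0 ≤ e₀ := star_mul_self_nonneg R₀
  have hR₀n : ‖R₀‖ ≤ 1 := (norm_one_sub_mul_le hκ0 hκ1 a₂).trans ha₂n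
  have he₀A : e₀ ∈ A := A.left_mem _ (A.left_mem _ ha₂.mem)
  have hR₀s : star R₀ = a₂ * (1 - κ) := by rw [hR₀d, star_mul, h1κ, ha₂s]
  -- in a representation where `‖π a‖ ≤ t`, `π e₀ = (π a₂)²`
  have e₀_eq : ∀ (C : Type u) [CStarAlgebra C] (π : M →⋆ₐ[ℂ] C), ‖π a‖ ≤ t →
      π e₀ = π a₂ * π a₂ := by
    intro C _ π hπ
    have hz : ∀ h : M, PC A h → Ctl a t h 0 → π (hh3 s h) = 0 := by
      intro h hh hd
      have h1 : ‖π h‖ ≤ 0 := hd C π hπ
      exact map_cfc_zero (K.ramp_cont _ _) hh.nonneg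
        (fun u hu => K.ramp_eq_zero (by linarith only [hs]) (by linarith only [hs, hu])) π h1
    have z1 : π k₁ = 0 := hz h₁ hh₁ hd₁
    have z2 : π k₂ = 0 := hz h₂ hh₂ hd₂
    have z3 : π W = 0 := by
      rw [hWd, hHd, map_mul, map_mul, map_add, map_mul, map_mul, z1, z2]
      simp
    have z4 : π κ = 0 := by
      rw [hκd, map_cfc' π (cut_continuous τ1) (IsSelfAdjoint.of_nonneg hW0), z3]
      simp only [cfc_apply_zero, cut, zero_div, zero_le_one, inf_of_le_right, map_zero]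
    rw [he₀d, hR₀s, hR₀d]
    simp only [map_mul, map_sub, map_one, z4, sub_zero, mul_one, one_mul]
  have a₂_lt : ∀ (C : Type u) [CStarAlgebra C] (π : M →⋆ₐ[ℂ] C), ‖π a₂‖ < 1 → ‖π a‖ ≤ t' := by
    intro C _ π hπ
    refine map_norm_le' (K.ramp_cont _ _) ha.nonneg (t := 1) ht'.le (fun u hu => ?_) π hπ
    rw [K.ramp_eq_one (by linarith only [ht']) hu.le, abs_one]
  -- the quotient
  obtain ⟨B, iB1, iB2, iB3, q, AB, hq, hq0, hker, hqA, hAB, hPI⟩ :=
    exists_quot_norm A (fun _ : Unit => e₀) (fun _ => he₀A) (fun _ => he₀0) (1 / 2) (by norm_num)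
  have hq0' : ‖q e₀‖ ≤ 1 / 2 := hq0 ()
  have hker' : ∀ (C : Type u) [CStarAlgebra C] (π : M →⋆ₐ[ℂ] C), ‖π e₀‖ ≤ 1 / 2 →
      ∀ z, q z = 0 → π z = 0 := fun C _ π h => hker C π (fun _ => h)
  -- the gap in the quotient
  have hgap : Ctl (q a) t (q a) t' := by
    intro C _ ρ hρ
    set π : M →⋆ₐ[ℂ] C := ρ.comp q with hπd
    have hπ : ∀ x, π x = ρ (q x) := fun x => rfl
    have g1 : ‖π a‖ ≤ t := hρ
    have g2 := e₀_eq C π g1
    have g3 : ‖π e₀‖ ≤ 1 / 2 := (norm_map_le ρ (q e₀)).trans hq0'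
    refine a₂_lt C π ?_
    have g4 : ‖π a₂‖ * ‖π a₂‖ = ‖π a₂ * π a₂‖ := by
      have := CStarRing.norm_star_mul_self (x := π a₂)
      rw [← map_star, ha₂s] at this
      exact this.symm
    rw [← g2] at g4
    by_contra hc
    push Not at hc
    nlinarith only [g3, g4, hc]
  have pcq : ∀ x : M, PC A x → PC AB (q x) := by
    intro x hx
    refine ⟨(hAB _).mpr ⟨x, hx.mem, rfl⟩, map_nonneg' q hx.nonneg, ?_⟩
    have := map_mono' q hx.le_one
    rwa [map_one] at this
  have hh1PC : ∀ h : M, PC A h → PC A (hh1 s h) := fun h hh =>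
    K.PC.ramp A hh.nonneg hh.mem (by positivity) (by linarith only [hs])
  obtain ⟨e₁, f₁, f₂, he₁, hf₁, hf₂, hle₁, hwf₁, hwf₂, hsm₁, hsm₂, hce₁, hcf₁, hcf₂⟩ :=
    hGP B AB (hPI hA) (pcq a ha) (pcq _ (hh1PC h₁ hh₁)) (pcq _ (hh1PC h₂ hh₂)) ht' htt hgap hσ
  -- the sides
  have hqf₁ : q (hh2 s h₁) * f₁ = f₁ := hwf₁ _ (by rw [← map_mul, hh2_hh1 hs])
  have hqf₂ : q (hh2 s h₂) * f₂ = f₂ := hwf₂ _ (by rw [← map_mul, hh2_hh1 hs])
  obtain ⟨gt₁, l₁, hgt₁, hqgt₁, hlev₁, hl₁, hql₁, hfull₁⟩ :=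
    sides A q hq he₀A he₀0 hq0' hker' AB hAB hh₁ hs hf₁ hqf₁ hcf₁
  obtain ⟨gt₂, l₂, hgt₂, hqgt₂, hlev₂, hl₂, hql₂, hfull₂⟩ :=
    sides A q hq he₀A he₀0 hq0' hker' AB hAB hh₂ hs hf₂ hqf₂ hcf₂
  -- the lift of `e₁`
  obtain ⟨y, hy, hqy⟩ := lift_pos A q AB hAB he₁
  have hys : star y = y := (IsSelfAdjoint.of_nonneg hy.nonneg).star_eq
  have hqa₂ : q a₂ = cfc (K.ramp (t' / 2) t') (q a) :=
    map_cfc' q (K.ramp_cont _ _) (IsSelfAdjoint.of_nonneg ha.nonneg)
  have hae₁ : q a₂ * e₁ = e₁ := by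
    rw [hqa₂]
    exact hle₁ _ (K.ramp_cont _ _) (fun u hu => K.ramp_eq_one (by linarith only [ht']) hu)
  have he₁s : star e₁ = e₁ := (IsSelfAdjoint.of_nonneg he₁.nonneg).star_eq
  have he₁a : e₁ * q a₂ = e₁ := by
    have := congrArg star hae₁
    rwa [star_mul, he₁s, ← map_star, ha₂s] at this
  have prod_q : ∀ gt f, q gt = f → ‖e₁ * f‖ ≤ σ → ‖q (y * a₂ * gt)‖ ≤ σ := by
    intro gt f hgf hs'
    rw [map_mul, map_mul, hqy, he₁a, hgf]; exact hs'
  obtain ⟨v₁, n₁, hv₁A, hqv₁, hn₁, hvn₁⟩ := lift_small A q (x := y * a₂ * gt₁)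
    (A.left_mem _ hgt₁.mem) hσ (prod_q _ _ hqgt₁ hsm₁)
  obtain ⟨v₂, n₂, hv₂A, hqv₂, hn₂, hvn₂⟩ := lift_small A q (x := y * a₂ * gt₂)
    (A.left_mem _ hgt₂.mem) hσ (prod_q _ _ hqgt₂ hsm₂)
  classical
  obtain ⟨μ, hμ, hqμ, hμk⟩ := exists_unit A q
    {v₁, v₂, y * a₂ * (hh1 s h₁ * l₁ * hh1 s h₁), y * a₂ * (hh1 s h₂ * l₂ * hh1 s h₂)} (by
      intro k hk
      simp only [Finset.mem_insert, Finset.mem_singleton] at hk
      rcases hk with rfl | rfl | rfl | rfl
      · exact hqv₁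
      · exact hqv₂
      · simp only [map_mul, hql₁, mul_zero, zero_mul]
      · simp only [map_mul, hql₂, mul_zero, zero_mul]) (by
      intro k hk
      simp only [Finset.mem_insert, Finset.mem_singleton] at hk
      rcases hk with rfl | rfl | rfl | rfl
      · exact hv₁A
      · exact hv₂A
      · exact A.left_mem _ (A.right_mem (A.left_mem _ hl₁.mem) _)
      · exact A.left_mem _ (A.right_mem (A.left_mem _ hl₂.mem) _)) (ε := σ) hσ
  have μ1 := hμk v₁ (by simp only [Finset.mem_insert, Finset.mem_singleton, true_or])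
  have μ2 := hμk v₂ (by simp only [Finset.mem_insert, Finset.mem_singleton, true_or, or_true])
  have μ3 := hμk (y * a₂ * (hh1 s h₁ * l₁ * hh1 s h₁)) (by simp only [Finset.mem_insert, Finset.mem_singleton, true_or, or_true])
  have μ4 := hμk (y * a₂ * (hh1 s h₂ * l₂ * hh1 s h₂)) (by simp only [Finset.mem_insert, Finset.mem_singleton, or_true])
  have hμs : star μ = μ := (IsSelfAdjoint.of_nonneg hμ.nonneg).star_eq
  set R₁ : M := (1 - μ) * (y * a₂) with hR₁d
  have hR₁n : ‖R₁‖ ≤ 1 := by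
    refine (norm_one_sub_mul_le hμ.nonneg hμ.le_one _).trans ?_
    simpa only [mul_one] using K.norm_mul_le_of_le (K.PC.norm hy) ha₂n
  set er : M := e₀ + star R₁ * R₁ with herd
  have her0 : 0 ≤ er := add_nonneg he₀0 (star_mul_self_nonneg _)
  have herA : er ∈ A := A.add_mem he₀A (A.left_mem _ (A.left_mem _ (A.left_mem _ ha₂.mem)))
  -- raw elements
  have graw0 : ∀ (h gt l : M), PC A gt → PC A l → 0 ≤ gt + hh1 s h * l * hh1 s h :=
    fun h gt l hgt hl => add_nonneg hgt.nonneg (K.sa_conj_nonneg (star_cfc _ _) hl.nonneg)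
  have grawA : ∀ (h gt l : M), PC A gt → PC A l → gt + hh1 s h * l * hh1 s h ∈ A :=
    fun h gt l hgt hl => A.add_mem hgt.mem (A.right_mem (A.left_mem _ hl.mem) _)
  have graw_norm : ∀ (h gt l : M), PC A h → PC A gt → PC A l →
      ‖gt + hh1 s h * l * hh1 s h‖ ≤ 2 := by
    intro h gt l hh hgt hl
    refine (norm_add_le _ _).trans ?_
    have h1 := K.norm_mul_le_of_le (K.norm_mul_le_of_le (K.PC.norm (hh1PC h hh)) (K.PC.norm hl))
      (K.PC.norm (hh1PC h hh))
    have h2 := K.PC.norm hgt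
    linarith only [h1, h2]
  have graw_lev : ∀ (h gt l : M), Level h (s / 4) gt →
      Level h (s / 4) (gt + hh1 s h * l * hh1 s h) := by
    intro h gt l hl
    refine level_add hl ?_
    have := level_hh1 hs h (l * hh1 s h)
    rwa [← mul_assoc] at this
  -- the product estimate
  have prod_est : ∀ (h gt l v n : M), PC A h → PC A gt → PC A l → Level h (s / 4) gt →
      ‖(1 - κ) * (a₂ * hh3 s h)‖ ≤ τ / 64 → y * a₂ * gt = v + n → ‖n‖ ≤ σ → ‖v - μ * v‖ ≤ σ →
      ‖y * a₂ * (hh1 s h * l * hh1 s h) - μ * (y * a₂ * (hh1 s h * l * hh1 s h))‖ ≤ σ →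
      ‖er * (gt + hh1 s h * l * hh1 s h)‖ ≤ 5 * σ := by
    intro h gt l v n hh hgt hl hlev c1 c2 c3 c4 c5
    set g : M := gt + hh1 s h * l * hh1 s h with hgd
    have hg3 : hh3 s h * g = g := hh3_of_level hs (graw_lev h gt l hlev)
    have p1 : ‖R₀ * g‖ ≤ 2 * σ := by
      have e1 : R₀ * g = (1 - κ) * (a₂ * hh3 s h) * g := by
        rw [hR₀d]
        calc (1 - κ) * a₂ * g = (1 - κ) * a₂ * (hh3 s h * g) := by rw [hg3]
          _ = _ := by noncomm_ring
      rw [e1]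
      refine (K.norm_mul_le_of_le c1 (graw_norm h gt l hh hgt hl)).trans ?_
      rw [hσd]; linarith only []
    have p2 : ‖R₁ * g‖ ≤ 3 * σ := by
      have e1 : R₁ * g = ((v - μ * v) + (1 - μ) * n) +
          (y * a₂ * (hh1 s h * l * hh1 s h) - μ * (y * a₂ * (hh1 s h * l * hh1 s h))) := by
        have e2 : R₁ * g = (1 - μ) * (y * a₂ * gt) +
            (y * a₂ * (hh1 s h * l * hh1 s h) - μ * (y * a₂ * (hh1 s h * l * hh1 s h))) := by
          rw [hR₁d, hgd]; noncomm_ring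
        rw [e2, c2]; noncomm_ring
      rw [e1]
      have e3 : ‖(1 - μ) * n‖ ≤ σ :=
        (norm_one_sub_mul_le hμ.nonneg hμ.le_one _).trans c3
      refine (norm_add_le _ _).trans ?_
      refine (add_le_add (norm_add_le _ _) le_rfl).trans ?_
      linarith only [c4, c5, e3]
    have e4 : er * g = star R₀ * (R₀ * g) + star R₁ * (R₁ * g) := by
      rw [herd, he₀d]; noncomm_ring
    rw [e4]
    refine (norm_add_le _ _).trans ?_
    have e5 := K.norm_mul_le_of_le (by rw [norm_star]; exact hR₀n : ‖star R₀‖ ≤ 1) p1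
    have e6 := K.norm_mul_le_of_le (by rw [norm_star]; exact hR₁n : ‖star R₁‖ ≤ 1) p2
    linarith only [e5, e6]
  have est₁ := prod_est h₁ gt₁ l₁ v₁ n₁ hh₁ hgt₁ hl₁ hlev₁ cut1 hvn₁ hn₁ μ1 μ3
  have est₂ := prod_est h₂ gt₂ l₂ v₂ n₂ hh₂ hgt₂ hl₂ hlev₂ cut2 hvn₂ hn₂ μ2 μ4
  have final_est : ∀ g : M, 0 ≤ g → ‖er * g‖ ≤ 5 * σ →
      ‖cfc (cut (1 / 4)) er * cfc (cut (1 / 2)) g‖ ≤ τ := by
    intro g hg0 hg
    have h1 := cut_left_le (s := 1 / 4) (by norm_num) her0 (cfc (cut (1 / 2)) g)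
    have h2 := cut_right_le (s := 1 / 2) (by norm_num) hg0 er
    have h3 : (1 : ℝ) / (1 / 4) = 4 := by norm_num
    have h4 : (1 : ℝ) / (1 / 2) = 2 := by norm_num
    rw [h3] at h1
    rw [h4] at h2
    have h5 : 40 * σ ≤ τ := by rw [hσd]; linarith only [hτ]
    linarith only [hσd, hσ, hg, h1, h2]
  have pc_cut : ∀ (c : ℝ) (x : M), 0 < c → 0 ≤ x → x ∈ A → PC A (cfc (cut c) x) := by
    intro c x hc hx hxA
    exact K.PC.of_cfc A hx hxA (cut_continuous c) (by simp only [cut, zero_div, zero_le_one, inf_of_le_right])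
      (fun u hu => cut_nonneg hc hu) (fun u _ => cut_le_one c u)
  have lev_cut : ∀ (h : M) (c r : ℝ) (x : M), 0 < c → 0 ≤ x → Level h r x →
      Level h r (cfc (cut c) x) := by
    intro h c r x hc hx hlev w hw h1
    exact unit_cfc (inv_max_continuous hc) hx (fun u hu => cut_factor hc hu) (hlev w hw h1)
  have full_g : ∀ (h gt l : M), 0 ≤ gt + hh1 s h * l * hh1 s h →
      (∀ (C : Type u) [CStarAlgebra C] (π : M →⋆ₐ[ℂ] C),
        ‖π (gt + hh1 s h * l * hh1 s h)‖ ≤ 1 / 2 → ‖π h‖ ≤ 2 * s) →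
      CtlLt (cfc (cut (1 / 2)) (gt + hh1 s h * l * hh1 s h)) 1 h (2 * s) := by
    intro h gt l h0 hf C _ π hπ
    refine hf C π ?_
    refine map_norm_le' (cut_continuous (1 / 2)) h0 (t := 1) (by norm_num) (fun u hu => ?_) π hπ
    rw [cut_eq_one (by norm_num) hu.le, abs_one]
  refine ⟨cfc (cut (1 / 4)) er, cfc (cut (1 / 2)) (gt₁ + hh1 s h₁ * l₁ * hh1 s h₁),
    cfc (cut (1 / 2)) (gt₂ + hh1 s h₂ * l₂ * hh1 s h₂), pc_cut _ _ (by norm_num) her0 herA,
    pc_cut _ _ (by norm_num) (graw0 _ _ _ hgt₁ hl₁) (grawA _ _ _ hgt₁ hl₁),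
    pc_cut _ _ (by norm_num) (graw0 _ _ _ hgt₂ hl₂) (grawA _ _ _ hgt₂ hl₂), ?_,
    lev_cut _ _ _ _ (by norm_num) (graw0 _ _ _ hgt₁ hl₁) (graw_lev _ _ _ hlev₁),
    lev_cut _ _ _ _ (by norm_num) (graw0 _ _ _ hgt₂ hl₂) (graw_lev _ _ _ hlev₂),
    final_est _ (graw0 _ _ _ hgt₁ hl₁) est₁, final_est _ (graw0 _ _ _ hgt₂ hl₂) est₂, ?_,
    full_g _ _ _ (graw0 _ _ _ hgt₁ hl₁) hfull₁, full_g _ _ _ (graw0 _ _ _ hgt₂ hl₂) hfull₂⟩
  · -- level of `e`
    refine lev_cut _ _ _ _ (by norm_num) her0 ?_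
    have la : ∀ x : M, Level a (t' / 2) (a₂ * x) := fun x =>
      K.level_cfc (K.ramp_cont _ _) (fun u hu => K.ramp_eq_zero (by linarith only [ht']) hu.le) x
    refine level_add ?_ ?_
    · rw [he₀d, hR₀s, mul_assoc]; exact la _
    · rw [hR₁d, star_mul, star_mul, ha₂s, mul_assoc, mul_assoc]; exact la _
  · -- fullness of `e`
    intro C _ π hπ
    let _ : PartialOrder C := CStarAlgebra.spectralOrder C
    have _ : StarOrderedRing C := CStarAlgebra.spectralOrderedRing C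
    have w1 : ‖π er‖ ≤ 1 / 4 := by
      refine map_norm_le' (cut_continuous (1 / 4)) her0 (t := 1) (by norm_num) (fun u hu => ?_) π hπ
      rw [cut_eq_one (by norm_num) hu.le, abs_one]
    have w2 : ‖π e₀‖ ≤ 1 / 2 := by
      have := K.norm_mono (map_nonneg' π he₀0)
        (map_mono' π (le_add_of_nonneg_right (star_mul_self_nonneg R₁) : e₀ ≤ er))
      linarith only [w1, this]
    obtain ⟨ρ, hρ⟩ := exists_factor q hq π (hker' C π w2)
    have w3 : π μ = 0 := hker' C π w2 μ hqμ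
    have w4 : π R₁ = ρ e₁ := by
      rw [hR₁d, map_mul, map_sub, map_one, w3, sub_zero, one_mul, ← hρ, map_mul q, hqy, he₁a]
    have w5 : ‖π R₁‖ * ‖π R₁‖ ≤ 1 / 4 := by
      have e1 : ‖π R₁‖ * ‖π R₁‖ = ‖π (star R₁ * R₁)‖ := by
        have e0 : π (star R₁ * R₁) = star (π R₁) * π R₁ := by
          rw [← map_star]; exact map_mul π _ _
        rw [e0]; exact CStarRing.norm_star_mul_self.symm
      rw [e1]
      exact (K.norm_mono (map_nonneg' π (star_mul_self_nonneg R₁))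
        (map_mono' π (le_add_of_nonneg_left he₀0 : star R₁ * R₁ ≤ er))).trans w1
    have w6 : ‖ρ e₁‖ ≤ 1 / 2 := by
      rw [← w4]
      by_contra hc
      push Not at hc
      nlinarith only [w5, hc]
    have w7 := hce₁ C ρ w6
    rwa [hρ] at w7

end T5

end Vale.Agent.P133
end
end

section

section

open scoped ComplexOrder

namespace Vale.Agent.P133

universe u

variable {M : Type u} [CStarAlgebra M] [PartialOrder M] [StarOrderedRing M]

/-- the gap pair in a purely infinite ideal. -/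
theorem gapPair (A : CIdeal M) (hA : PIrel A) : T5.GapPair A :=
  T5.gapPair_of A (fun ha _ _ ht' htt H => T3 A hA ha ht' htt H)
    (fun hp hpp hpA hb₁ hb₂ _ hσ =>
      T4_of_T1 A (fun hc hcA hk hd _ hε => T1 A hA hc hcA hk hd hε) hp hpp hpA hb₁ hb₂ hσ)

/-- T5 (Theorem D). -/
theorem T5 (A : CIdeal M) (hA : PIrel A) {a h₁ h₂ : M} (ha : PC A a) (hh₁ : PC A h₁)
    (hh₂ : PC A h₂) {t' t : ℝ} (ht' : 0 < t') (htt : t' < t)
    (hd₁ : Ctl a t h₁ 0) (hd₂ : Ctl a t h₂ 0) {s τ : ℝ} (hs : 0 < s) (hτ : 0 < τ) :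
    ∃ e g₁ g₂ : M, PC A e ∧ PC A g₁ ∧ PC A g₂ ∧
      Level a (t' / 2) e ∧ Level h₁ (s / 4) g₁ ∧ Level h₂ (s / 4) g₂ ∧
      ‖e * g₁‖ ≤ τ ∧ ‖e * g₂‖ ≤ τ ∧
      CtlLt e 1 a t' ∧ CtlLt g₁ 1 h₁ (2 * s) ∧ CtlLt g₂ 1 h₂ (2 * s) :=
  T5.T5_of A hA (fun _ _ _ _ AB hAB => gapPair AB hAB) ha hh₁ hh₂ ht' htt hd₁ hd₂ hs hτ

end Vale.Agent.P133
end
end

section

section

open scoped ComplexOrder

namespace Vale.Agent.P133

universe u

variable {M : Type u} [CStarAlgebra M] [PartialOrder M] [StarOrderedRing M]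

section

variable {C : Type u} [CStarAlgebra C] (π : M →⋆ₐ[ℂ] C)

omit [PartialOrder M] [StarOrderedRing M] in
theorem setup_pi_cfc {a : M} (ha : IsSelfAdjoint a) {f : ℝ → ℝ} (hf : Continuous f) :
    π (cfc f a) = cfc f (π a) := map_cfc' π hf ha

theorem setup_pi_spec_nonneg {a : M} (ha : 0 ≤ a) {s : ℝ} (hs : s ∈ spectrum ℝ (π a)) :
    0 ≤ s := by
  have h := AlgHom.spectrum_apply_subset (π.toAlgHom.restrictScalars ℝ) a
  exact spectrum_nonneg_of_nonneg ha (h hs)

omit [PartialOrder M] [StarOrderedRing M] in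
theorem setup_pi_spec_le {a : M} (ha : IsSelfAdjoint a) {s : ℝ} (hs : s ∈ spectrum ℝ (π a)) :
    |s| ≤ ‖π a‖ := by
  have := norm_apply_le_norm_cfc (fun s : ℝ => s) (π a) hs (by fun_prop) (ha.map π)
  rwa [cfc_id' ℝ (π a) (ha.map π)] at this

/-- if `f = 0` on `[0, r]` and `‖π a‖ ≤ r` then `π (f(a)) = 0` -/
theorem setup_pi_cfc_eq_zero {a : M} (ha : 0 ≤ a) {f : ℝ → ℝ} (hf : Continuous f) {r : ℝ}
    (hfr : ∀ s, 0 ≤ s → s ≤ r → f s = 0) (h : ‖π a‖ ≤ r) : π (cfc f a) = 0 := by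
  have hsa : IsSelfAdjoint a := ha.isSelfAdjoint
  rw [setup_pi_cfc π hsa hf]
  have : Set.EqOn f 0 (spectrum ℝ (π a)) := fun s hs =>
    hfr s (setup_pi_spec_nonneg π ha hs)
      ((le_abs_self s).trans ((setup_pi_spec_le π hsa hs).trans h))
  rw [cfc_congr this]
  exact cfc_zero ℝ (π a)

/-- if `‖π a‖ ≠ 0` then `‖π a‖` belongs to the spectrum of `π a`, for `a ≥ 0` -/
theorem setup_pi_norm_mem_spec {a : M} (ha : 0 ≤ a) (h : 0 < ‖π a‖) :
    ‖π a‖ ∈ spectrum ℝ (π a) := by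
  have hnt : Nontrivial C := ⟨π a, 0, norm_pos_iff.1 h⟩
  rcases CStarAlgebra.norm_or_neg_norm_mem_spectrum (ha.isSelfAdjoint.map π) with h1 | h1
  · exact h1
  · have := setup_pi_spec_nonneg π ha h1
    linarith only [h, this]

/-- if `|f| ≥ m` on `(r, ∞)` and `‖π (f(a))‖ < m` then `‖π a‖ ≤ r` -/
theorem setup_pi_norm_le_of_cfc_lt {a : M} (ha : 0 ≤ a) {f : ℝ → ℝ} (hf : Continuous f)
    {r m : ℝ} (hr : 0 ≤ r) (hfr : ∀ s, r < s → m ≤ |f s|) (h : ‖π (cfc f a)‖ < m) :
    ‖π a‖ ≤ r := by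
  by_contra hcon
  push Not at hcon
  have h1 := setup_pi_norm_mem_spec π ha (hr.trans_lt hcon)
  have h2 := norm_apply_le_norm_cfc f (π a) h1 hf.continuousOn (ha.isSelfAdjoint.map π)
  rw [← setup_pi_cfc π ha.isSelfAdjoint hf] at h2
  have h3 := hfr _ hcon
  rw [Real.norm_eq_abs] at h2
  linarith

end

/-- ramps of `a` lie in the closed right ideal of `a` -/
theorem setup_ramp_cl {a : M} (ha : 0 ≤ a) {l r : ℝ} (hl : 0 ≤ l) (hr : l < r) :
    cfc (K.ramp l r) a ∈ cl a :=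
  K.cfc_mem_RI (K.ramp_cont l r) (K.ramp_eq_zero hr hl) (IsSelfAdjoint.of_nonneg ha)

theorem setup_level_cl {h g : M} {s : ℝ} (hh : 0 ≤ h) (hs : 0 < s) (hg : Level h s g) :
    g ∈ cl h := K.level_mem_RI hh hs hg

omit [PartialOrder M] [StarOrderedRing M] in
theorem setup_comm {x y : M} (hx : star x = x) (hy : star y = y) : ‖x * y‖ = ‖y * x‖ := by
  rw [← norm_star (x * y), star_mul, hx, hy]

/-- S6.2 -/
theorem setup (A : CIdeal M) (hA : PIrel A) {a b : M} (ha : PC A a) (hb : PC A b) {δ ζ : ℝ}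
    (hδ : 0 < δ) (hδ1 : δ < 1) (hζ : 0 < ζ) :
    ∃ e a₁ a₃ γ g₁ g₂ g₃ : M, Sd A a b δ ζ e a₁ a₃ γ g₁ g₂ g₃ := by
  have hd : PC A (cfc (K.ramp (δ / 2) δ) b) := K.PC.ramp A hb.nonneg hb.mem (by linarith only [hδ])
    (by linarith)
  have ha₁ : PC A (cfc (K.ramp (δ / 6) (δ / 5)) a) := K.PC.ramp A ha.nonneg ha.mem (by linarith)
    (by linarith only [hδ])
  have hγ : PC A (cfc (K.ramp (δ / 5) (δ / 4)) a) := K.PC.ramp A ha.nonneg ha.mem (by linarith)
    (by linarith)
  have ha₃ : PC A (cfc (K.ramp (δ / 4) (δ / 2)) a) := K.PC.ramp A ha.nonneg ha.mem (by linarith)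
    (by linarith)
  obtain ⟨η, hη⟩ : ∃ η : ℝ, η = ζ / 144 := ⟨_, rfl⟩
  have hη0 : 0 < η := by
    rw [hη]
    positivity
  obtain ⟨h₁, h₂, h₃, w₁, w₂, w₃, hh₁, hh₂, hh₃, hsum, hw₁, hw₂, hw₃, h13, h02, h03, c1, c2⟩ :=
    split A ha₁ hd hη0
  have hza : ∀ (C : Type u) [CStarAlgebra C] (π : M →⋆ₐ[ℂ] C), ‖π a‖ ≤ δ / 7 →
      ‖π (cfc (K.ramp (δ / 6) (δ / 5)) a)‖ ≤ 0 := by
    intro C _ π hπ
    rw [setup_pi_cfc_eq_zero π ha.nonneg (K.ramp_cont _ _) (r := δ / 7) ?_ hπ, norm_zero]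
    intro s _ hs
    exact K.ramp_eq_zero (by linarith only [hδ]) (by linarith only [hδ, hs])
  have hd1 : Ctl a (δ / 7) h₁ 0 := fun C _ π hπ => c1 C π (hza C π hπ)
  have hd2 : Ctl a (δ / 7) h₂ 0 := fun C _ π hπ => c2 C π (hza C π hπ)
  obtain ⟨e, g₁, g₂, he, hg₁, hg₂, le, l1, l2, e1, e2, fe, f1, f2⟩ :=
    T5 A hA ha hh₁ hh₂ (t' := δ / 8) (t := δ / 7) (by linarith only [hδ]) (by linarith only [hδ]) hd1 hd2
      (s := 1 / 9) (τ := ζ) (by norm_num) hζ
  have hg₃ : PC A (cfc (cut (1 / 4)) h₃) := cut_pc A (by norm_num) hh₃.nonneg hh₃.mem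
  have hdcl : cfc (K.ramp (δ / 2) δ) b ∈ cl b := setup_ramp_cl hb.nonneg (by linarith only [hδ])
    (by linarith only [hδ])
  have hcl : ∀ {h w : M}, h = cfc (K.ramp (δ / 2) δ) b * w → h ∈ cl b := by
    intro h w hw
    rw [hw]
    exact mul_mem_cl hdcl w
  have k1 : ∀ x : M, ‖x * g₁‖ ≤ 36 * ‖x * h₁‖ := by
    intro x
    have := K.level_norm hh₁.nonneg (by norm_num) l1 hg₁.norm_le x
    linarith only [this]
  have k2 : ∀ x : M, ‖x * g₂‖ ≤ 36 * ‖x * h₂‖ := by
    intro x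
    have := K.level_norm hh₂.nonneg (by norm_num) l2 hg₂.norm_le x
    linarith only [this]
  have k3 : ∀ x : M, ‖cfc (cut (1 / 4)) h₃ * x‖ ≤ 4 * ‖h₃ * x‖ := by
    intro x
    have := norm_cut_mul_le (s := 1 / 4) (by norm_num) hh₃.nonneg x
    norm_num at this ⊢
    exact this
  refine ⟨e, cfc (K.ramp (δ / 6) (δ / 5)) a, cfc (K.ramp (δ / 4) (δ / 2)) a,
    cfc (K.ramp (δ / 5) (δ / 4)) a, g₁, g₂, cfc (cut (1 / 4)) h₃, ?_⟩
  exact
    { he := he
      ha₁ := ha₁
      ha₃ := ha₃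
      hγ := hγ
      hg₁ := hg₁
      hg₂ := hg₂
      hg₃ := hg₃
      ce := setup_level_cl ha.nonneg (by linarith only [hδ]) le
      ca₁ := setup_ramp_cl ha.nonneg (by linarith only [hδ]) (by linarith only [hδ])
      ca₃ := setup_ramp_cl ha.nonneg (by linarith only [hδ]) (by linarith only [hδ])
      cg₁ := cl_trans (setup_level_cl hh₁.nonneg (by norm_num) l1) (hcl hw₁)
      cg₂ := cl_trans (setup_level_cl hh₂.nonneg (by norm_num) l2) (hcl hw₂)
      cg₃ := cl_trans (cfc_mem_cl (cut_continuous _) (by simp only [cut, one_div, div_inv_eq_mul, zero_mul, zero_le_one, inf_of_le_right]) hh₃.nonneg) (hcl hw₃)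
      eg₁ := e1
      eg₂ := e2
      ag₂ := by
        have := k2 (cfc (K.ramp (δ / 6) (δ / 5)) a)
        rw [hη] at h02
        linarith only [hζ, h02, this]
      ag₃ := by
        have h1 := k3 (cfc (K.ramp (δ / 6) (δ / 5)) a)
        rw [setup_comm ha₁.star_eq hg₃.star_eq]
        rw [setup_comm hh₃.star_eq ha₁.star_eq] at h1
        rw [hη] at h03
        linarith only [hζ, h03, h1]
      gg := by
        have h1 := k3 g₁
        have h2 := k1 h₃
        rw [setup_comm hg₁.star_eq hg₃.star_eq]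
        rw [setup_comm hh₃.star_eq hh₁.star_eq] at h2
        rw [hη] at h13
        linarith only [h13, h1, h2]
      aa := by
        rw [cfc_mul' (K.ramp_cont _ _) (K.ramp_cont _ _)]
        refine cfc_congr' ha.nonneg fun s _ => ?_
        rcases le_total s (δ / 4) with h | h
        · rw [K.ramp_eq_zero (l := δ / 4) (by linarith only [hδ]) h, zero_mul]
        · rw [K.ramp_eq_one (l := δ / 6) (r := δ / 5) (by linarith only [hδ]) (by linarith only [hδ, h]), mul_one]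
      fe := fun C _ π hπ => by
        have h1 := fe C π hπ
        rw [setup_pi_cfc_eq_zero π ha.nonneg (K.ramp_cont _ _) (r := δ / 8) ?_ h1, norm_zero]
        intro s _ hs
        exact K.ramp_eq_zero (by linarith only [hδ]) (by linarith only [hδ, hs])
      fa₁ := fun C _ π hπ => by
        have h1 : ‖π a‖ ≤ δ / 5 := by
          refine setup_pi_norm_le_of_cfc_lt π ha.nonneg (K.ramp_cont _ _) (by positivity)
            (fun s hs => ?_) hπ
          rw [K.ramp_eq_one (by linarith only [hδ]) hs.le, abs_one]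
        rw [setup_pi_cfc_eq_zero π ha.nonneg (K.ramp_cont _ _) (r := δ / 5) ?_ h1, norm_zero]
        intro s _ hs
        exact K.ramp_eq_zero (by linarith only [hδ]) hs
      fγ := fun C _ π hπ => by
        have h1 : ‖π a‖ ≤ δ / 4 := by
          refine setup_pi_norm_le_of_cfc_lt π ha.nonneg (K.ramp_cont _ _) (by positivity)
            (fun s hs => ?_) hπ
          rw [K.ramp_eq_one (by linarith only [hδ]) hs.le, abs_one]
        rw [setup_pi_cfc_eq_zero π ha.nonneg (K.ramp_cont _ _) (r := δ / 4) ?_ h1, norm_zero]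
        intro s _ hs
        exact K.ramp_eq_zero (by linarith only [hδ]) hs
      fa₃ := fun C _ π hπ => by
        have h1 : ‖π a‖ ≤ δ / 2 := by
          refine setup_pi_norm_le_of_cfc_lt π ha.nonneg (K.ramp_cont _ _) (by positivity)
            (fun s hs => ?_) hπ
          rw [K.ramp_eq_one (by linarith only [hδ]) hs.le, abs_one]
        linarith only [hδ, h1]
      fg := fun C _ π p1 p2 p3 => by
        have h1 := f1 C π p1
        have h2 := f2 C π p2
        have h3 : ‖π h₃‖ ≤ 1 / 4 := by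
          refine setup_pi_norm_le_of_cfc_lt π hh₃.nonneg (cut_continuous _) (by norm_num)
            (fun s hs => ?_) p3
          rw [cut_eq_one (by norm_num) hs.le, abs_one]
        have h4 : ‖π (cfc (K.ramp (δ / 2) δ) b)‖ ^ 2 < 1 := by
          have e1 : star (π (cfc (K.ramp (δ / 2) δ) b)) = π (cfc (K.ramp (δ / 2) δ) b) := by
            rw [← map_star, hd.star_eq]
          rw [sq, ← CStarRing.norm_star_mul_self, e1, ← map_mul, ← hsum, map_add, map_add]
          have e2 := norm_add₃_le (a := π h₁) (b := π h₂) (c := π h₃)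
          linarith only [h1, h2, h3, e2]
        have h5 : ‖π (cfc (K.ramp (δ / 2) δ) b)‖ < 1 := by
          nlinarith only [h4]
        refine setup_pi_norm_le_of_cfc_lt π hb.nonneg (K.ramp_cont _ _) hδ.le (fun s hs => ?_) h5
        rw [K.ramp_eq_one (by linarith only [hδ]) hs.le, abs_one] }

end Vale.Agent.P133
end
end

section

section

open scoped ComplexOrder

namespace Vale.Agent.P133

universe u

variable {M : Type u} [CStarAlgebra M] [PartialOrder M] [StarOrderedRing M]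

/-- small cut elements in an image -/
theorem flat_norm_cut {C : Type u} [CStarAlgebra C] (π : M →⋆ₐ[ℂ] C) {W : M} (hW : 0 ≤ W)
    {τ : ℝ} (hτ : 0 < τ) : ‖π (cfc (cut τ) W)‖ ≤ τ⁻¹ * ‖π W‖ := by
  let _ := CStarAlgebra.spectralOrder C
  have _ := CStarAlgebra.spectralOrderedRing C
  rw [map_cfc' π (cut_continuous τ) (IsSelfAdjoint.of_nonneg hW)]
  exact norm_cfc_cut_le hτ (map_nonneg' π hW)

/-- S6.3 -/
theorem flat (A : CIdeal M) {e g : M} (he : PC A e) (hg : PC A g) {τ : ℝ} (hτ : 0 < τ) :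
    ∃ e' w : M, PC A e' ∧ e' = e * w ∧ ‖e' * g‖ ^ 2 ≤ τ / 4 ∧
      (∀ x : M, ‖e' * x‖ ≤ ‖e * x‖) ∧
      ∀ (C : Type u) [CStarAlgebra C] (π : M →⋆ₐ[ℂ] C),
        ‖π g‖ ≤ τ / 8 → ‖π e'‖ ≤ 3 / 4 → ‖π e‖ < 1 := by
  have hesa : star e = e := he.star_eq
  have hgsa : star g = g := hg.star_eq
  have hW : 0 ≤ e * g * e := by
    have := star_left_conjugate_nonneg hg.nonneg e
    rwa [hesa] at this
  have hWA : e * g * e ∈ A := A.left_mem _ he.mem
  have hκ : PC A (cfc (cut τ) (e * g * e)) := cut_pc A hτ hW hWA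
  set κ : M := cfc (cut τ) (e * g * e) with hκdef
  have hκsa : star κ = κ := hκ.star_eq
  have hcsa : star (1 - κ) = 1 - κ := by rw [star_sub, star_one, hκsa]
  have he1 : ‖e‖ ≤ 1 := he.norm_le
  have hone : ‖(1 - κ) * e‖ ≤ 1 := (hκ.norm_one_sub_mul_le e).trans he1
  -- `‖e (1-κ)‖ ≤ 1`
  have hone' : ‖e * (1 - κ)‖ ≤ 1 := by
    have h1 : star ((1 - κ) * e) = e * (1 - κ) := by rw [star_mul, hcsa, hesa]
    rw [← h1, norm_star]; exact hone
  have hform : e * ((1 - κ) * (1 - κ) * e) = star ((1 - κ) * e) * ((1 - κ) * e) := by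
    rw [star_mul, hcsa, hesa]; simp only [mul_assoc]
  refine ⟨e * ((1 - κ) * (1 - κ) * e), (1 - κ) * (1 - κ) * e, ⟨?_, ?_, ?_⟩, rfl, ?_, ?_, ?_⟩
  · exact A.right_mem he.mem _
  · rw [hform]; exact star_mul_self_nonneg _
  · rw [hform]
    have h2 : ‖star ((1 - κ) * e) * ((1 - κ) * e)‖ ≤ 1 := by
      rw [CStarRing.norm_star_mul_self]
      exact mul_le_one₀ hone (norm_nonneg _) hone
    exact (CStarAlgebra.norm_le_one_iff_of_nonneg _ (star_mul_self_nonneg _)).mp h2
  · have hZ : (e * g) * star (e * g) ≤ e * g * e := by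
      have h3 : (e * g) * star (e * g) = star e * (g * g) * e := by
        rw [star_mul, hesa, hgsa]; simp only [mul_assoc]
      have h4 : star e * (g * g) * e ≤ star e * g * e :=
        star_left_conjugate_le_conjugate hg.sq_le e
      rw [h3]
      rwa [hesa] at h4 ⊢
    have h5 := norm_one_sub_cut_mul hτ hZ
    rw [← hκdef] at h5
    have h6 : e * ((1 - κ) * (1 - κ) * e) * g = (e * (1 - κ)) * ((1 - κ) * (e * g)) := by
      simp only [mul_assoc]
    have h7 : ‖e * ((1 - κ) * (1 - κ) * e) * g‖ ≤ ‖(1 - κ) * (e * g)‖ := by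
      rw [h6]
      refine (norm_mul_le _ _).trans ?_
      exact mul_le_of_le_one_left (norm_nonneg _) hone'
    exact (pow_le_pow_left₀ (norm_nonneg _) h7 2).trans h5
  · intro x
    have h6 : e * ((1 - κ) * (1 - κ) * e) * x = (e * (1 - κ)) * ((1 - κ) * (e * x)) := by
      simp only [mul_assoc]
    rw [h6]
    refine (norm_mul_le _ _).trans ?_
    exact (mul_le_of_le_one_left (norm_nonneg _) hone').trans (hκ.norm_one_sub_mul_le _)
  · intro C _ π hπg hπe
    have hπ1 : ∀ z : M, ‖π z‖ ≤ ‖z‖ := fun z => norm_map_le π z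
    have h8 : ‖π (e * g * e)‖ ≤ τ / 8 := by
      rw [map_mul, map_mul]
      refine (norm_mul_le _ _).trans ?_
      have h9 : ‖π e‖ ≤ 1 := (hπ1 e).trans he1
      have h10 : ‖π e * π g‖ ≤ τ / 8 := by
        refine (norm_mul_le _ _).trans ?_
        exact (mul_le_of_le_one_left (norm_nonneg _) h9).trans hπg
      exact (mul_le_of_le_one_right (norm_nonneg _) h9).trans h10
    have h11 : ‖π κ‖ ≤ 1 / 8 := by
      refine (flat_norm_cut π hW hτ).trans ?_
      calc τ⁻¹ * ‖π (e * g * e)‖ ≤ τ⁻¹ * (τ / 8) := by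
            exact mul_le_mul_of_nonneg_left h8 (by positivity)
        _ = 1 / 8 := by field_simp
    have h12 : ‖π ((1 - κ) * e)‖ ^ 2 ≤ 3 / 4 := by
      rw [hform, map_mul, map_star, CStarRing.norm_star_mul_self] at hπe
      rw [sq]; exact hπe
    have h13 : ‖π e‖ ≤ ‖π ((1 - κ) * e)‖ + 1 / 8 * ‖π e‖ := by
      have h14 : π e = π ((1 - κ) * e) + π κ * π e := by
        rw [← map_mul, ← map_add]; congr 1; noncomm_ring
      calc ‖π e‖ = ‖π ((1 - κ) * e) + π κ * π e‖ := congrArg _ h14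
        _ ≤ ‖π ((1 - κ) * e)‖ + ‖π κ * π e‖ := norm_add_le _ _
        _ ≤ ‖π ((1 - κ) * e)‖ + 1 / 8 * ‖π e‖ := by
            gcongr
            exact (norm_mul_le _ _).trans (mul_le_mul_of_nonneg_right h11 (norm_nonneg _))
    have h15 : 7 / 8 * ‖π e‖ ≤ ‖π ((1 - κ) * e)‖ := by linarith only [h13]
    have h16 : (7 / 8 * ‖π e‖) ^ 2 ≤ 3 / 4 :=
      (pow_le_pow_left₀ (by (clear * -; positivity)) h15 2).trans h12
    by_contra hcon
    push Not at hcon
    nlinarith only [h16, hcon]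

end Vale.Agent.P133
end
end

section

section

open scoped ComplexOrder

namespace Vale.Agent.P133

universe u

variable {M : Type u} [CStarAlgebra M] [PartialOrder M] [StarOrderedRing M]

lemma liftiso_cont (r : ℝ) : Continuous (fun u : ℝ => max 0 (u - r)) := by fun_prop

/-- If `(b - r)_+` is killed, the norm of the image of `b` is at most `r`. -/
lemma liftiso_norm_le {C : Type u} [CStarAlgebra C] (π : M →⋆ₐ[ℂ] C) {b : M} (hb : 0 ≤ b)
    {r : ℝ} (hr : 0 < r) (h : π (cfc (fun u : ℝ => max 0 (u - r)) b) = 0) : ‖π b‖ ≤ r := by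
  let _ := CStarAlgebra.spectralOrder C
  have _ := CStarAlgebra.spectralOrderedRing C
  rw [map_cfc' π (liftiso_cont r) (IsSelfAdjoint.of_nonneg hb)] at h
  refine norm_le_of_cfc (liftiso_cont r) (map_nonneg' π hb) hr.le (t := 0) (fun s hs => ?_)
    (by rw [h, norm_zero])
  rw [abs_of_nonneg (le_max_left _ _)]
  exact lt_max_of_lt_right (by linarith only [hs])

/-- the square root of the square of `(b - r)_+` -/
lemma liftiso_sqrt {b : M} (hb : 0 ≤ b) (r : ℝ) :
    cfc Real.sqrt (cfc (fun u : ℝ => max 0 (u - r)) b * cfc (fun u : ℝ => max 0 (u - r)) b) =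
      cfc (fun u : ℝ => max 0 (u - r)) b := by
  have hc := liftiso_cont r
  rw [cfc_mul' hc hc, ← cfc_comp' Real.sqrt (fun s : ℝ => max 0 (s - r) * max 0 (s - r)) b
    Real.continuous_sqrt.continuousOn (hc.mul hc).continuousOn (IsSelfAdjoint.of_nonneg hb)]
  refine cfc_congr' hb (fun s _ => ?_)
  exact Real.sqrt_mul_self (le_max_left _ _)

/-- S6.4 (`q : M → B` a quotient map with image ideal `AB` of `A`) -/
theorem lift_iso (A : CIdeal M) {B : Type u} [CStarAlgebra B] [PartialOrder B]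
    [StarOrderedRing B] (q : M →⋆ₐ[ℂ] B) (AB : CIdeal B)
    (hAB : ∀ x, x ∈ AB ↔ ∃ a ∈ A, q a = x) (hPI : PIrel AB) {g γ : M} (hg : PC A g)
    (hγ : PC A γ) {r : ℝ} (hr : 0 < r) (h : Ctl (q g) r (q γ) 0) {ν : ℝ} (hν : 0 < ν) :
    ∃ y : M, y ∈ A ∧ ‖y‖ ≤ 2 / r ∧ ‖g * y‖ ≤ 1 ∧
      ‖q (star (g * y) * (g * y)) - q γ‖ ≤ ν := by
  have hqg : 0 ≤ q g := map_nonneg' q hg.nonneg
  have hqγ : 0 ≤ q γ := map_nonneg' q hγ.nonneg
  have hgAB : q g ∈ AB := (hAB _).mpr ⟨g, hg.mem, rfl⟩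
  have hcz := liftiso_cont r
  set z : B := cfc (fun u : ℝ => max 0 (u - r)) (q g) with hz
  have hzAB : z ∈ AB := K.cfc_mem_ideal AB hcz (by simp only [zero_sub, Left.neg_nonpos_iff, hr.le, sup_of_le_left]) (IsSelfAdjoint.of_nonneg hqg) hgAB
  have hzsa : star z = z := star_cfc _ _
  have hc0 : 0 ≤ z * z := by
    have := star_mul_self_nonneg z
    rwa [hzsa] at this
  have hdom : Ctl (z * z) 0 (q γ) 0 := by
    intro C _ π hπ
    refine h C π (liftiso_norm_le π hqg hr ?_)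
    rw [← hz]
    have h1 : ‖star (π z) * π z‖ ≤ 0 := by
      rw [← map_star, hzsa, ← map_mul]; exact hπ
    rw [CStarRing.norm_star_mul_self] at h1
    have h2 : ‖π z‖ = 0 := by nlinarith only [h1]
    exact norm_eq_zero.mp h2
  set δ : ℝ := ν / 3 with hδ
  have hδ0 : 0 < δ := by positivity
  obtain ⟨x, -, ⟨x', -, hx'⟩, -, hx, -, -⟩ :=
    T1 AB hPI hc0 (AB.left_mem _ hzAB) hqγ hdom hδ0
  rw [hz, liftiso_sqrt hqg r, ← hz] at hx'
  -- norms
  have hγ1 : ‖q γ‖ ≤ 1 := (norm_map_le q γ).trans (K.PC.norm hγ)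
  have hxn : ‖x‖ ^ 2 ≤ 1 + δ := by
    rw [K.norm_sq_eq]
    have h3 : star x * x = q γ + (star x * x - q γ) := by abel
    rw [h3]
    refine (norm_add_le _ _).trans ?_
    linarith only [hx, hγ1]
  set s : ℝ := 1 / (1 + δ) with hs
  have hs0 : 0 < s := by positivity
  have hs1 : s ≤ 1 := by rw [hs, div_le_one (by positivity)]; linarith only [hδ0]
  have hs2 : 1 - s ≤ δ := by
    have : 1 - s = δ / (1 + δ) := by rw [hs]; field_simp; ring
    rw [this, div_le_iff₀ (by positivity)]; nlinarith only [hδ0]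
  have hst : star (s • x) * (s • x) = s ^ 2 • (star x * x) := by
    rw [star_smul, star_trivial, smul_mul_smul_comm, sq]
  have htn : ‖s • x‖ ≤ 1 := by
    rw [norm_smul, Real.norm_eq_abs, abs_of_pos hs0]
    refine abs_le_of_sq_le_sq' ?_ zero_le_one |>.2
    have h4 : s * (1 + δ) = 1 := by rw [hs]; (clear * - hδ0; field_simp)
    calc (s * ‖x‖) ^ 2 = s ^ 2 * ‖x‖ ^ 2 := by ring
      _ ≤ s ^ 2 * (1 + δ) := by (clear * - hxn hν; gcongr)
      _ = s * (s * (1 + δ)) := by ring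
      _ ≤ 1 ^ 2 := by rw [h4]; linarith only [hs1]
  have hxAB : x ∈ AB := by rw [hx']; exact AB.right_mem hzAB _
  have htAB : s • x ∈ AB := AB.smul_mem s hxAB
  obtain ⟨y0, hy0A, hy0n, hy0q⟩ := lift_contr A q ((hAB _).mp htAB) htn
  have hr2 : 0 < r / 2 := by positivity
  have hrr : r / 2 < r := by linarith only [hr]
  have hfac : g * cfc (K.rampv (r / 2) r) g = cfc (K.ramp (r / 2) r) g :=
    (cfc_factor (K.rampv_cont hr2) hg.nonneg (fun u _ => K.ramp_factor hr2 hrr)).symm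
  have hpsi1 : ‖cfc (K.ramp (r / 2) r) g‖ ≤ 1 :=
    norm_cfc_le' hg.nonneg zero_le_one (fun u _ _ => K.ramp_abs_le _ _ _)
  have hgy : g * (cfc (K.rampv (r / 2) r) g * y0) = cfc (K.ramp (r / 2) r) g * y0 := by
    rw [← mul_assoc, hfac]
  refine ⟨cfc (K.rampv (r / 2) r) g * y0, A.left_mem _ hy0A, ?_, ?_, ?_⟩
  · have h5 : ‖cfc (K.rampv (r / 2) r) g‖ ≤ 2 / r := by
      refine norm_cfc_le' hg.nonneg (by positivity) (fun u hu _ => ?_)
      have hm : 0 < max (r / 2) u := lt_of_lt_of_le hr2 (le_max_left _ _)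
      unfold K.rampv
      rw [abs_div, abs_of_pos hm]
      have h6 : |K.ramp (r / 2) r u| / max (r / 2) u ≤ 1 / (r / 2) :=
        div_le_div₀ zero_le_one (K.ramp_abs_le _ _ _) hr2 (le_max_left _ _)
      refine h6.trans (le_of_eq ?_)
      field_simp
    have h7 := K.norm_mul_le_of_le h5 hy0n
    rwa [mul_one] at h7
  · rw [hgy]
    have h7 := K.norm_mul_le_of_le hpsi1 hy0n
    rwa [mul_one] at h7
  · rw [hgy]
    have h8 : q (cfc (K.ramp (r / 2) r) g * y0) = s • x := by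
      rw [map_mul, map_cfc' q (K.ramp_cont _ _) (IsSelfAdjoint.of_nonneg hg.nonneg), hy0q,
        mul_smul_comm, hx', ← mul_assoc, hz, cfc_mul' (K.ramp_cont _ _) hcz]
      congr 2
      refine cfc_congr' hqg (fun u _ => ?_)
      rcases le_total r u with hu | hu
      · rw [K.ramp_eq_one hrr hu, one_mul]
      · rw [max_eq_left (by linarith only [hu]), mul_zero]
    rw [map_mul, map_star, h8, hst]
    have h9 : s ^ 2 • (star x * x) - q γ = s ^ 2 • (star x * x - q γ) - (1 - s ^ 2) • q γ := by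
      rw [smul_sub, sub_smul, one_smul]; abel
    rw [h9]
    refine (norm_sub_le _ _).trans ?_
    rw [norm_smul, norm_smul, Real.norm_eq_abs, Real.norm_eq_abs, abs_of_nonneg (sq_nonneg s),
      abs_of_nonneg (by nlinarith only [hs1, hs0] : 0 ≤ 1 - s ^ 2)]
    have h10 : s ^ 2 * ‖star x * x - q γ‖ ≤ 1 * δ := by
      refine mul_le_mul (by nlinarith only [hs1, hs0]) hx.le (norm_nonneg _) zero_le_one
    have h11 : (1 - s ^ 2) * ‖q γ‖ ≤ (1 - s ^ 2) * 1 :=
      mul_le_mul_of_nonneg_left hγ1 (by nlinarith only [hs1, hs0])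
    have h12 : 1 - s ^ 2 ≤ 2 * δ := by nlinarith only [hs2, hs1]
    have h13 : δ + 2 * δ = ν := by rw [hδ]; ring
    linarith only [hδ, h10, h11, h12]

end Vale.Agent.P133
end
end

section

section

open scoped ComplexOrder

namespace Vale.Agent.P133

universe u

variable {M : Type u} [CStarAlgebra M] [PartialOrder M] [StarOrderedRing M]

/-- the basic estimate: `F` in `cl a`, `u` in `cl b`, `F v` small -/
theorem stepB_est {a b : M} {ρ : ℝ} (hang : Ang a b ρ) {F u v : M} (hF : star F = F)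
    (hF1 : ‖F‖ ≤ 1) (cF : F ∈ cl a) (cu : u ∈ cl b) (hu : ‖u‖ ≤ 1) {κ : ℝ} (hκ1 : κ ≤ 1)
    (hFv : ‖F * v‖ ≤ κ) :
    ∃ x : M, ‖x‖ ≤ 2 * κ ∧
      F * ((1 / 2 : ℝ) • ((u + v) * star (u + v))) * F ≤ (ρ / 2) • (F * F) + x := by
  have hκ0 : 0 ≤ κ := (norm_nonneg _).trans hFv
  set X : M := F * v with hX
  set Y : M := F * u with hY
  have hY1 : ‖Y‖ ≤ 1 := by
    calc ‖Y‖ ≤ ‖F‖ * ‖u‖ := norm_mul_le _ _
      _ ≤ 1 * 1 := mul_le_mul hF1 hu (norm_nonneg _) zero_le_one
      _ = 1 := one_mul 1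
  have hXs : star X = star v * F := by rw [hX, star_mul, hF]
  have hYs : star Y = star u * F := by rw [hY, star_mul, hF]
  refine ⟨(1 / 2 : ℝ) • (X * star X + X * star Y + Y * star X), ?_, ?_⟩
  · rw [norm_smul, Real.norm_of_nonneg (by norm_num : (0 : ℝ) ≤ 1 / 2)]
    have h1 : ‖X * star X‖ ≤ κ := by
      calc ‖X * star X‖ ≤ ‖X‖ * ‖star X‖ := norm_mul_le _ _
        _ ≤ κ * 1 := by
          rw [norm_star]
          exact mul_le_mul hFv (hFv.trans hκ1) (norm_nonneg _) hκ0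
        _ = κ := mul_one κ
    have h2 : ‖X * star Y‖ ≤ κ := by
      calc ‖X * star Y‖ ≤ ‖X‖ * ‖star Y‖ := norm_mul_le _ _
        _ ≤ κ * 1 := by
          rw [norm_star]
          exact mul_le_mul hFv hY1 (norm_nonneg _) hκ0
        _ = κ := mul_one κ
    have h3 : ‖Y * star X‖ ≤ κ := by
      calc ‖Y * star X‖ ≤ ‖Y‖ * ‖star X‖ := norm_mul_le _ _
        _ ≤ 1 * κ := by
          rw [norm_star]
          exact mul_le_mul hY1 hFv (norm_nonneg _) zero_le_one
        _ = κ := one_mul κ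
    have h4 : ‖X * star X + X * star Y + Y * star X‖ ≤ κ + κ + κ :=
      (norm_add_le _ _).trans (add_le_add ((norm_add_le _ _).trans (add_le_add h1 h2)) h3)
    linarith only [hκ0, h4]
  · have h5 := hang F cF u cu hu
    rw [hF] at h5
    have h6 : Y * star Y ≤ ρ • (F * F) := by
      rw [hYs, hY]
      have : F * u * (star u * F) = F * u * star u * F := by noncomm_ring
      rw [this]
      exact h5
    have h7 : F * ((1 / 2 : ℝ) • ((u + v) * star (u + v))) * F =
        (1 / 2 : ℝ) • (Y * star Y) + (1 / 2 : ℝ) • (X * star X + X * star Y + Y * star X) := by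
      rw [mul_smul_comm, smul_mul_assoc, ← smul_add, hXs, hYs, hX, hY, star_add]
      congr 1
      noncomm_ring
    rw [h7]
    refine add_le_add_left ?_ _
    have h8 : (ρ / 2) • (F * F) = (1 / 2 : ℝ) • (ρ • (F * F)) := by
      rw [smul_smul]; congr 1; ring
    rw [h8]
    exact smul_le_smul_of_nonneg_left h6 (by norm_num)

/-- S6.6 -/
theorem stepB (A : CIdeal M) (hA : PIrel A) {a b : M} {ρ : ℝ} (hρ : 0 < ρ) (hang : Ang a b ρ)
    {E E₁ a₃ γ g₁ g₃ : M} (hE : PC A E) (hE₁ : PC A E₁) (ha₃ : PC A a₃) (hγ : PC A γ)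
    (hg₁ : PC A g₁) (hg₃ : PC A g₃) (cE : E ∈ cl a) (cE₁ : E₁ ∈ cl a) (ca₃ : a₃ ∈ cl a)
    (cg₁ : g₁ ∈ cl b) (cg₃ : g₃ ∈ cl b) {ζ r : ℝ} (hr : 0 < r) (hr1 : r ≤ 1) (hζ0 : 0 ≤ ζ)
    (hζ : ζ ≤ r ^ 2 / 160)
    (h1 : ‖E * g₁‖ ≤ ζ) (h2 : ‖E₁ * g₃‖ ≤ ζ) (h3 : ‖a₃ * g₃‖ ≤ ζ) (h4 : ‖g₁ * g₃‖ ≤ ζ)
    (f1 : ∀ (C : Type u) [CStarAlgebra C] (π : M →⋆ₐ[ℂ] C),
      ‖π g₃‖ ≤ r → ‖π E‖ ≤ 3 / 4 → π γ = 0)
    (f2 : ∀ (C : Type u) [CStarAlgebra C] (π : M →⋆ₐ[ℂ] C),
      ‖π g₁‖ ≤ r → ‖π E₁‖ ≤ 3 / 4 → π γ = 0)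
    (f3 : CtlLt γ 1 a₃ 0) :
    ∃ T : M, 0 ≤ T ∧ T ∈ A ∧ ‖T‖ ≤ 2 ∧ T ∈ cl b ∧
      (∃ x : M, ‖x‖ ≤ 4 * ζ / r ∧ E * T * E ≤ (ρ / 2) • (E * E) + x) ∧
      (∃ x : M, ‖x‖ ≤ 4 * ζ / r ∧ E₁ * T * E₁ ≤ (ρ / 2) • (E₁ * E₁) + x) ∧
      (∃ x : M, ‖x‖ ≤ 4 * ζ / r ∧ a₃ * T * a₃ ≤ (ρ / 2) • (a₃ * a₃) + x) ∧
      (∀ (C : Type u) [CStarAlgebra C] (π : M →⋆ₐ[ℂ] C),
        ‖π E‖ ≤ 3 / 4 → ‖π E₁‖ ≤ 3 / 4 → ‖π T‖ ≤ 9 / 10 → π a₃ = 0) := by
  obtain ⟨B, _, _, _, q, AB, hq, hqx, hker, -, hAB, hPI⟩ := exists_quot_norm A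
    (ι := Fin 2) ![E, E₁] (by intro i; fin_cases i; exacts [hE.mem, hE₁.mem])
    (by intro i; fin_cases i; exacts [hE.nonneg, hE₁.nonneg]) (3 / 4) (by norm_num)
  have hqE : ‖q E‖ ≤ 3 / 4 := hqx 0
  have hqE₁ : ‖q E₁‖ ≤ 3 / 4 := hqx 1
  -- the two lifted isometries
  have hc3 : Ctl (q g₃) r (q γ) 0 := by
    intro C _ π hπ
    have h5 := f1 C (π.comp q) hπ ((NonUnitalStarAlgHom.norm_apply_le π (q E)).trans hqE)
    have h6 : π (q γ) = 0 := h5
    rw [h6, norm_zero]
  have hc1 : Ctl (q g₁) r (q γ) 0 := by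
    intro C _ π hπ
    have h5 := f2 C (π.comp q) hπ ((NonUnitalStarAlgHom.norm_apply_le π (q E₁)).trans hqE₁)
    have h6 : π (q γ) = 0 := h5
    rw [h6, norm_zero]
  obtain ⟨y₁, hy₁A, hy₁, ht₁, hq₁⟩ := lift_iso A q AB hAB (hPI hA) hg₁ hγ hr hc1
    (ν := 1 / 40) (by norm_num)
  obtain ⟨y₃, hy₃A, hy₃, ht₃, hq₃⟩ := lift_iso A q AB hAB (hPI hA) hg₃ hγ hr hc3
    (ν := 1 / 40) (by norm_num)
  set t₁ : M := g₁ * y₁ with ht₁def
  set t₃ : M := g₃ * y₃ with ht₃def
  have ct₁ : t₁ ∈ cl b := mul_mem_cl cg₁ y₁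
  have ct₃ : t₃ ∈ cl b := mul_mem_cl cg₃ y₃
  have ht₁A : t₁ ∈ A := A.mul_left' _ _ hy₁A
  have ht₃A : t₃ ∈ A := A.mul_left' _ _ hy₃A
  have hκ : 2 * ζ / r ≤ 1 := by
    rw [div_le_one hr]
    nlinarith only [hr, hζ, hr1]
  have hsmall : ∀ F g y : M, ‖F * g‖ ≤ ζ → ‖y‖ ≤ 2 / r → ‖F * (g * y)‖ ≤ 2 * ζ / r := by
    intro F g y hFg hy
    calc ‖F * (g * y)‖ = ‖F * g * y‖ := by rw [mul_assoc]
      _ ≤ ‖F * g‖ * ‖y‖ := norm_mul_le _ _
      _ ≤ ζ * (2 / r) := mul_le_mul hFg hy (norm_nonneg _) hζ0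
      _ = 2 * ζ / r := by ring
  set S : M := t₁ + t₃ with hS
  have cS : S ∈ cl b := add_mem_cl ct₁ ct₃
  have hSA : S ∈ A := A.toSub.add_mem ht₁A ht₃A
  have hSn : ‖S‖ ≤ 2 := by
    calc ‖S‖ ≤ ‖t₁‖ + ‖t₃‖ := norm_add_le _ _
      _ ≤ 1 + 1 := add_le_add ht₁ ht₃
      _ = 2 := by norm_num
  have hnT : ∀ z : M, ‖z * star z‖ = ‖z‖ ^ 2 := fun z => by
    rw [CStarRing.norm_self_mul_star, sq]
  refine ⟨(1 / 2 : ℝ) • (S * star S), ?_, ?_, ?_, ?_, ?_, ?_, ?_, ?_⟩
  · exact smul_nonneg (by norm_num) (mul_star_self_nonneg S)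
  · have : (1 / 2 : ℝ) • (S * star S) = ((1 / 2 : ℝ) : ℂ) • (S * star S) := by
      rw [Complex.coe_smul]
    rw [this]
    exact A.toSub.smul_mem _ (A.mul_right' _ _ hSA)
  · rw [norm_smul, Real.norm_of_nonneg (by norm_num : (0 : ℝ) ≤ 1 / 2), hnT]
    nlinarith only [hSn, norm_nonneg S]
  · exact smul_mem_cl (mul_mem_cl cS _) _
  · obtain ⟨x, hx, hle⟩ := stepB_est hang (F := E) (u := t₃) (v := t₁) hE.star_eq hE.norm_le cE
      ct₃ ht₃ hκ (hsmall _ _ _ h1 hy₁)
    refine ⟨x, hx.trans (le_of_eq (by ring)), ?_⟩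
    rw [add_comm t₃ t₁] at hle
    exact hle
  · obtain ⟨x, hx, hle⟩ := stepB_est hang (F := E₁) (u := t₁) (v := t₃) hE₁.star_eq hE₁.norm_le
      cE₁ ct₁ ht₁ hκ (hsmall _ _ _ h2 hy₃)
    exact ⟨x, hx.trans (le_of_eq (by ring)), hle⟩
  · obtain ⟨x, hx, hle⟩ := stepB_est hang (F := a₃) (u := t₁) (v := t₃) ha₃.star_eq ha₃.norm_le
      ca₃ ct₁ ht₁ hκ (hsmall _ _ _ h3 hy₃)
    exact ⟨x, hx.trans (le_of_eq (by ring)), hle⟩
  · intro C _ π hπE hπE₁ hπT
    obtain ⟨σ, hσ⟩ := exists_factor q hq π (hker C π (by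
      intro i; fin_cases i; exacts [hπE, hπE₁]))
    have hπq : ∀ x y : M, ‖π x - π y‖ ≤ ‖q x - q y‖ := by
      intro x y
      rw [← hσ x, ← hσ y, ← map_sub]
      exact NonUnitalStarAlgHom.norm_apply_le σ _
    have e1 : ‖π (star t₁ * t₁) - π γ‖ ≤ 1 / 40 := (hπq _ _).trans hq₁
    have e3 : ‖π (star t₃ * t₃) - π γ‖ ≤ 1 / 40 := (hπq _ _).trans hq₃
    have hrr : (2 / r) * ζ * (2 / r) ≤ 1 / 40 := by
      have : (2 / r) * ζ * (2 / r) = 4 * ζ / r ^ 2 := by field_simp; ring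
      rw [this, div_le_iff₀ (by positivity)]
      linarith only [hζ]
    have e13 : ‖star t₁ * t₃‖ ≤ 1 / 40 := by
      have : star t₁ * t₃ = star y₁ * (g₁ * g₃) * y₃ := by
        rw [ht₁def, ht₃def, star_mul, hg₁.star_eq]; noncomm_ring
      rw [this]
      calc ‖star y₁ * (g₁ * g₃) * y₃‖ ≤ ‖star y₁ * (g₁ * g₃)‖ * ‖y₃‖ := norm_mul_le _ _
        _ ≤ ((2 / r) * ζ) * (2 / r) := by
          refine mul_le_mul ?_ hy₃ (norm_nonneg _) (by (clear * - hr hζ0; positivity))
          calc ‖star y₁ * (g₁ * g₃)‖ ≤ ‖star y₁‖ * ‖g₁ * g₃‖ := norm_mul_le _ _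
            _ ≤ (2 / r) * ζ := by
              rw [norm_star]
              exact mul_le_mul hy₁ h4 (norm_nonneg _) (by positivity)
        _ ≤ 1 / 40 := hrr
    have e31 : ‖star t₃ * t₁‖ ≤ 1 / 40 := by
      have h6 : ∀ u v : M, ‖star u * v‖ = ‖star v * u‖ := by
        intro u v
        rw [← norm_star (star v * u), star_mul, star_star]
      rw [h6]
      exact e13
    have e5 : ‖π S‖ ^ 2 / 2 ≤ 9 / 10 := by
      have h6 : π ((1 / 2 : ℝ) • (S * star S)) = (1 / 2 : ℝ) • (π S * star (π S)) := by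
        rw [← map_star, ← map_mul]
        have h7 : ∀ z : M, (1 / 2 : ℝ) • z = ((1 / 2 : ℝ) : ℂ) • z := fun z => by
          rw [Complex.coe_smul]
        have h8 : ∀ z : C, (1 / 2 : ℝ) • z = ((1 / 2 : ℝ) : ℂ) • z := fun z => by
          rw [Complex.coe_smul]
        rw [h7, h8, map_smul]
      rw [h6, norm_smul, Real.norm_of_nonneg (by norm_num : (0 : ℝ) ≤ 1 / 2),
        CStarRing.norm_self_mul_star, ← sq] at hπT
      linarith only [hπT]
    have e6 : ‖π (star S * S)‖ = ‖π S‖ ^ 2 := by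
      rw [map_mul, map_star, CStarRing.norm_star_mul_self, sq]
    have e7 : (2 : ℝ) • π γ = π (star S * S) - (π (star t₁ * t₁) - π γ) -
        (π (star t₃ * t₃) - π γ) - π (star t₁ * t₃) - π (star t₃ * t₁) := by
      have : star S * S = star t₁ * t₁ + star t₃ * t₃ + star t₁ * t₃ + star t₃ * t₁ := by
        rw [hS, star_add]; noncomm_ring
      rw [this, map_add, map_add, map_add, two_smul]
      abel
    have e8 : 2 * ‖π γ‖ ≤ ‖π S‖ ^ 2 + 1 / 40 + 1 / 40 + 1 / 40 + 1 / 40 := by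
      have h9 : ‖(2 : ℝ) • π γ‖ = 2 * ‖π γ‖ := by
        rw [norm_smul]; norm_num
      rw [← h9, e7]
      refine (norm_sub_le _ _).trans (add_le_add ?_ ((NonUnitalStarAlgHom.norm_apply_le π _).trans e31))
      refine (norm_sub_le _ _).trans (add_le_add ?_ ((NonUnitalStarAlgHom.norm_apply_le π _).trans e13))
      refine (norm_sub_le _ _).trans (add_le_add ?_ e3)
      refine (norm_sub_le _ _).trans (add_le_add e6.le e1)
    have e9 : ‖π γ‖ < 1 := by linarith only [e5, e8]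
    have e10 := f3 C π e9
    exact norm_le_zero_iff.1 e10

end Vale.Agent.P133
end
end

section

section

open scoped ComplexOrder

namespace Vale.Agent.P133

universe u

variable {M : Type u} [CStarAlgebra M] [PartialOrder M] [StarOrderedRing M]

/-- S6.7 -/
theorem stepC (A : CIdeal M) {b D a₃ T E E₁ : M} (hD : 0 ≤ D) (hDA : D ∈ A) (hD3 : ‖D‖ ≤ 3)
    (ha₃ : PC A a₃) (hT : 0 ≤ T) (hTA : T ∈ A) (hE : PC A E) (hE₁ : PC A E₁)
    (cD : D ∈ cl b) (cT : T ∈ cl b)
    (hf : ∀ (C : Type u) [CStarAlgebra C] (π : M →⋆ₐ[ℂ] C),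
      ‖π E‖ ≤ 3 / 4 → ‖π E₁‖ ≤ 3 / 4 → ‖π T‖ ≤ 9 / 10 → π a₃ = 0)
    {ε : ℝ} (hε : 0 < ε) :
    ∃ f : M, 0 ≤ f ∧ f ∈ A ∧ f ∈ cl b ∧ f ≤ D * D + T ∧
      (∀ (C : Type u) [CStarAlgebra C] (π : M →⋆ₐ[ℂ] C),
        ‖π E‖ ≤ 3 / 4 → ‖π E₁‖ ≤ 3 / 4 → ‖π (a₃ * f * a₃) - π (a₃ * T * a₃)‖ ≤ ε) ∧
      (∀ (C : Type u) [CStarAlgebra C] (π : M →⋆ₐ[ℂ] C), ‖π f‖ ≤ 9 / 10 → ‖π D‖ < 1) := by
  have hDs : IsSelfAdjoint D := IsSelfAdjoint.of_nonneg hD
  -- constants
  set η : ℝ := (ε / 3) ^ 2 with hη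
  have hη0 : 0 < η := by positivity
  set ε' : ℝ := 1 / 360 with hε'
  have hε'0 : 0 < ε' := by positivity
  set X : M := a₃ * D with hX
  set lam : M := K.kap η X with hlam
  have hl0 : 0 ≤ lam := K.kap_nonneg hη0 X
  have hl1 : lam ≤ 1 := K.kap_le_one η X
  have hls : IsSelfAdjoint lam := IsSelfAdjoint.of_nonneg hl0
  have hln : ‖lam‖ ≤ 1 := K.norm_le_of_le_smul_one zero_le_one hl0 (by rwa [one_smul])
  have hlA : lam ∈ A := K.kap_mem A (A.right_mem ha₃.mem D)
  -- the two generators on the `a` side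
  set x : Bool → M := fun i => if i then E else E₁ with hx
  have hxA : ∀ i, x i ∈ A := by
    intro i; cases i
    · exact hE₁.mem
    · exact hE.mem
  have hx0 : ∀ i, 0 ≤ x i := by
    intro i; cases i
    · exact hE₁.nonneg
    · exact hE.nonneg
  have hxn : ∀ (C : Type u) [CStarAlgebra C] (π : M →⋆ₐ[ℂ] C),
      (∀ i, ‖π (x i)‖ ≤ 3 / 4) ↔ (‖π E‖ ≤ 3 / 4 ∧ ‖π E₁‖ ≤ 3 / 4) := by
    intro C _ π
    constructor
    · intro h
      exact ⟨h true, h false⟩
    · intro h i; cases i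
      · exact h.2
      · exact h.1
  obtain ⟨i, l, -, -, hil, hi, hl⟩ := exists_decomp A x hxA hx0 (κ := 3 / 4) (by norm_num)
    hTA hT (κ' := 9 / 10) (by norm_num) hlA (by
      intro C _ π h1 h2
      have h3 := (hxn C π).1 h1
      have h4 := hf C π h3.1 h3.2 h2
      rw [hlam, K.kap_map, hX, map_mul, h4, zero_mul, K.kap_zero]) hε'0
  obtain ⟨B, _, _, _, q, -, -, hq, hqu, hqA, -, -⟩ := exists_quot_norm A x hxA hx0 (3 / 4)
    (by norm_num)
  have hqi : q i = 0 := hi B q hq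
  have hiA : i ∈ A := hqA i hqi
  obtain ⟨ν, hν, hνq, hνi⟩ := exists_unit A q {i} (by simpa only [Finset.mem_singleton, forall_eq] using hqi) (by simpa using hiA)
    hε'0
  have hνi' : ‖(1 - ν) * i‖ ≤ ε' := by
    have := hνi i (by simp)
    rwa [sub_mul, one_mul]
  have hνn : ‖1 - ν‖ ≤ 1 := by
    refine K.norm_le_of_le_smul_one zero_le_one (sub_nonneg.2 hν.le_one) ?_
    rw [one_smul]
    exact sub_le_self _ hν.nonneg
  set g : M := lam * (1 - ν) * lam with hg
  have hg0 : 0 ≤ g := K.sa_conj_nonneg hls (sub_nonneg.2 hν.le_one)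
  have hg1 : g ≤ 1 := by
    have h1 : g ≤ lam * 1 * lam := K.sa_conj_le hls (sub_le_self _ hν.nonneg)
    have h2 : lam * 1 * lam ≤ 1 := by
      rw [mul_one]
      have := K.star_mul_le_one hln
      rwa [hls.star_eq] at this
    exact h1.trans h2
  -- the small element
  have hgsmall : ∀ (C : Type u) [CStarAlgebra C] (π : M →⋆ₐ[ℂ] C), π l = 0 →
      ‖π g‖ ≤ 2 * ε' := by
    intro C _ π hπ
    have e1 : g = lam * (1 - ν) * (lam - (i + l)) + lam * ((1 - ν) * i) +
        lam * (1 - ν) * l := by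
      rw [hg]; noncomm_ring
    have e2 : π (lam * (1 - ν) * l) = 0 := by rw [map_mul, hπ, mul_zero]
    rw [e1, map_add, e2, add_zero]
    refine (norm_map_le π _).trans ((norm_add_le _ _).trans ?_)
    have e3 : ‖lam * (1 - ν) * (lam - (i + l))‖ ≤ (1 * 1) * ε' :=
      K.norm_mul_le_of_le (K.norm_mul_le_of_le hln hνn) hil
    have e4 : ‖lam * ((1 - ν) * i)‖ ≤ 1 * ε' := K.norm_mul_le_of_le hln hνi'
    linarith only [e3, e4]
  set f : M := D * (1 - g) * D + T with hfdef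
  have hfT : 0 ≤ D * (1 - g) * D := K.sa_conj_nonneg hDs (sub_nonneg.2 hg1)
  refine ⟨f, add_nonneg hfT hT, ?_, ?_, ?_, ?_, ?_⟩
  · exact A.add_mem (A.left_mem _ hDA) hTA
  · refine K.RI_add (b := b) ?_ cT
    rw [mul_assoc]
    exact K.RI_right (b := b) cD _
  · rw [hfdef]
    refine add_le_add_left ?_ T
    have : D * (1 - g) * D ≤ D * 1 * D := K.sa_conj_le hDs (sub_le_self _ hg0)
    rwa [mul_one] at this
  · intro C _ π h1 h2
    have hν0 : π ν = 0 := hqu C π ((hxn C π).2 ⟨h1, h2⟩) ν hνq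
    have e1 : π (a₃ * f * a₃) - π (a₃ * T * a₃) =
        π (X * (1 - lam) * ((1 + lam) * star X)) := by
      have hXs : star X = D * a₃ := by
        rw [hX, star_mul, hDs.star_eq, (IsSelfAdjoint.of_nonneg ha₃.nonneg).star_eq]
      rw [← map_sub, hXs, hX]
      have e2 : a₃ * f * a₃ - a₃ * T * a₃ =
          a₃ * D * (1 - lam) * ((1 + lam) * (D * a₃)) +
            a₃ * D * (lam * ν * lam) * (D * a₃) := by
        rw [hfdef, hg]; noncomm_ring
      rw [e2, map_add]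
      have e3 : π (a₃ * D * (lam * ν * lam) * (D * a₃)) = 0 := by
        simp only [map_mul, hν0, mul_zero, zero_mul]
      rw [e3, add_zero]
    rw [e1]
    refine (norm_map_le π _).trans ?_
    have e4 : ‖X * (1 - lam)‖ ≤ ε / 3 / 2 := by
      have h3 : ‖X * (1 - lam)‖ ^ 2 ≤ (ε / 3 / 2) ^ 2 := by
        refine (K.kap_norm hη0 X).trans (le_of_eq ?_)
        rw [hη]; ring
      exact le_of_sq_le_sq h3 (by positivity)
    have e5 : ‖(1 + lam) * star X‖ ≤ 2 * 3 := by
      have h3 : ‖(1 : M) + lam‖ ≤ 2 := by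
        refine K.norm_le_of_le_smul_one (by norm_num) (add_nonneg zero_le_one hl0) ?_
        rw [two_smul]
        exact add_le_add_right hl1 1
      have h4 : ‖star X‖ ≤ 3 := by
        rw [norm_star, hX]
        have := K.norm_mul_le_of_le (K.PC.norm ha₃) hD3
        linarith only [this]
      exact K.norm_mul_le_of_le h3 h4
    refine (K.norm_mul_le_of_le e4 e5).trans (le_of_eq ?_)
    ring
  · intro C _ π h1
    let _ : PartialOrder C := CStarAlgebra.spectralOrder C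
    have _ : StarOrderedRing C := CStarAlgebra.spectralOrderedRing C
    have hTf : T ≤ f := by
      rw [hfdef]; exact le_add_of_nonneg_left hfT
    have e1 : ‖π T‖ ≤ 9 / 10 :=
      (K.norm_mono (map_nonneg' π hT) (map_mono' π hTf)).trans h1
    have e2 := hgsmall C π (hl C π e1)
    have e3 : D * D ≤ f + D * g * D := by
      have : f + D * g * D = D * D + T := by rw [hfdef]; noncomm_ring
      rw [this]
      exact le_add_of_nonneg_right hT
    have e4 : π (D * D) ≤ π (f + D * g * D) := map_mono' π e3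
    have hDD : 0 ≤ D * D := by
      have := star_mul_self_nonneg D
      rwa [hDs.star_eq] at this
    have e5 := K.norm_mono (map_nonneg' π hDD) e4
    have e6 : ‖π (D * g * D)‖ ≤ 3 * (2 * ε') * 3 := by
      rw [map_mul, map_mul]
      exact K.norm_mul_le_of_le (K.norm_mul_le_of_le ((norm_map_le π D).trans hD3) e2)
        ((norm_map_le π D).trans hD3)
    have e7 : (3 : ℝ) * (2 * ε') * 3 = 1 / 20 := by
      rw [hε']; norm_num
    have e8 : ‖π (D * D)‖ = ‖π D‖ ^ 2 := by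
      rw [K.norm_sq_eq, ← map_star, hDs.star_eq, map_mul]
    have e9 : ‖π (f + D * g * D)‖ ≤ 9 / 10 + 1 / 20 := by
      rw [map_add, ← e7]
      exact (norm_add_le _ _).trans (add_le_add h1 e6)
    have e10 : ‖π D‖ ^ 2 < 1 := by
      rw [← e8]; linarith only [e5, e9]
    nlinarith only [e5, e8, e9]

end Vale.Agent.P133
end
end

section

section

/-! P133: `angle_out`. -/

open scoped ComplexOrder CStarAlgebra
open Filter Topology

namespace Vale.Agent.P133

open K

universe u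
variable {M : Type u} [CStarAlgebra M] [PartialOrder M] [StarOrderedRing M]

/-- contractions in the right ideal of a high level of `f` -/
lemma aout_unit {f y : M} (hf : 0 ≤ f) {l m r : ℝ} (hl : 0 < l) (hlm : l < m) (hmr : m < r)
    (hy : y ∈ RI (cfc (ramp m r) f)) (hy1 : ‖y‖ ≤ 1) : y * star y ≤ (1 / l) • f := by
  set w : M := cfc (ramp l m) f with hw
  have hwsa : star w = w := star_cfc _ _
  have hwy : w * y = y := by
    have hc : IsClosed {z : M | w * z = z} := isClosed_eq (by fun_prop) continuous_id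
    have hs : RI (cfc (ramp m r) f) ⊆ {z : M | w * z = z} := by
      refine closure_minimal ?_ hc
      rintro _ ⟨z, rfl⟩
      show w * (cfc (ramp m r) f * z) = cfc (ramp m r) f * z
      rw [← mul_assoc, hw, cfc_mul' (ramp_cont l m) (ramp_cont m r)]
      congr 2
      funext u
      rcases le_total u m with hu | hu
      · rw [ramp_eq_zero hmr hu, mul_zero]
      · rw [ramp_eq_one hlm hu, one_mul]
    exact hs hy
  have h1 : y * star y = w * (y * star y) * star w := by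
    conv_lhs => rw [← hwy]
    rw [star_mul]; noncomm_ring
  have h2 : w * (y * star y) * star w ≤ w * 1 * star w := conj_le' (mul_star_le_one hy1) w
  have h3 : w * 1 * star w ≤ (1 / l) • f := by
    rw [mul_one, hwsa, hw, cfc_mul' (ramp_cont l m) (ramp_cont l m)]
    have h4 : (1 / l) • f = cfc (fun u : ℝ => (1 / l) * u) f := by
      rw [cfc_const_mul_id (1 / l) f (IsSelfAdjoint.of_nonneg hf)]
    rw [h4]
    refine cfc_le_cfc ((ramp_cont l m).mul (ramp_cont l m)) (by fun_prop) hf (fun u hu => ?_)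
    show ramp l m u * ramp l m u ≤ 1 / l * u
    rcases le_total u l with hul | hul
    · rw [ramp_eq_zero hlm hul, mul_zero]; (clear * - hl hu; positivity)
    · have h5 : ramp l m u * ramp l m u ≤ 1 := by
        nlinarith only [ramp_nonneg l m u, ramp_le_one l m u]
      have h6 : 1 ≤ 1 / l * u := by
        rw [one_div, inv_mul_eq_div, le_div_iff₀ hl]; linarith only [hul]
      linarith only [h5, h6]
  rw [h1]; exact h2.trans h3

/-- S6.5 -/
theorem angle_out (A : CIdeal M) {f a₀ : M} (hf : 0 ≤ f) (hfA : f ∈ A) (ha₀ : PC A a₀) {r k₀ : ℝ}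
    (hr : 0 < r) (hk : 0 < k₀) :
    ∃ a' b' : M, PC A a' ∧ PC A b' ∧ a' ∈ RI a₀ ∧ b' ∈ RI f ∧ Ang a' b' (r / (17 / 20)) ∧
      (∀ (C : Type u) [CStarAlgebra C] [PartialOrder C] [StarOrderedRing C]
        (π : M →⋆ₐ[ℂ] C), ‖π a'‖ < 1 → π (r • (a₀ * a₀) - a₀ * f * a₀) ≤ k₀ • (1 : C)) ∧
      CtlLt b' 1 f (9 / 10) := by
  have hfsa : IsSelfAdjoint f := IsSelfAdjoint.of_nonneg hf
  have ha₀sa : IsSelfAdjoint a₀ := PC.sa ha₀
  set X : M := r • (a₀ * a₀) - a₀ * f * a₀ with hX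
  have hXsa : IsSelfAdjoint X := by
    rw [hX]
    refine IsSelfAdjoint.sub ?_ ?_
    · refine IsSelfAdjoint.smul (IsSelfAdjoint.all r) ?_
      rw [IsSelfAdjoint, star_mul, ha₀sa.star_eq]
    · rw [IsSelfAdjoint, star_mul, star_mul, ha₀sa.star_eq, hfsa.star_eq, mul_assoc]
  -- `g(u) = (u - k₀/2)_+`
  let g : ℝ → ℝ := fun u => max (u - k₀ / 2) 0
  have hg : Continuous g := by fun_prop
  have hg0 : ∀ u, 0 ≤ g u := fun u => le_max_right _ _
  set P : M := cfc g X with hP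
  have hPsa : star P = P := star_cfc _ _
  have hP0 : 0 ≤ P := cfc_nonneg (fun u _ => hg0 u)
  set Y : M := a₀ * P * a₀ with hY
  have hY0 : 0 ≤ Y := sa_conj_nonneg ha₀sa hP0
  have hYA : Y ∈ A := A.left_mem _ ha₀.mem
  set m₀ : ℝ := k₀ ^ 2 / (4 * r) with hm₀
  have hm0 : 0 < m₀ := by positivity
  set a' : M := cfc (cut m₀) Y with ha'
  set b' : M := cfc (ramp (43 / 50) (9 / 10)) f with hb'
  have hPCa' : PC A a' := PC.of_cfc A hY0 hYA (cut_continuous _) (by simp only [cut, zero_div, zero_le_one, inf_of_le_right])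
    (fun u hu => cut_nonneg hm0 hu) (fun u _ => cut_le_one _ u)
  have hPCb' : PC A b' := PC.ramp A hf hfA (by norm_num) (by norm_num)
  have ha'RI : a' ∈ RI Y := cfc_mem_RI (cut_continuous _) (by simp only [cut, zero_div, zero_le_one, inf_of_le_right])
    (IsSelfAdjoint.of_nonneg hY0)
  have hb'RI : b' ∈ RI f := cfc_mem_RI (ramp_cont _ _) (ramp_eq_zero (by norm_num) (by norm_num))
    hfsa
  have hYRI : Y ∈ RI (a₀ * P) := mul_mem_RI _ _
  have hYRI' : Y ∈ RI a₀ := by rw [hY, mul_assoc]; exact mul_mem_RI _ _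
  refine ⟨a', b', hPCa', hPCb', RI_mono hYRI' ha'RI, hb'RI, ?_, ?_, ?_⟩
  · -- the angle
    intro x hx y hy hy1
    have hxP : x ∈ RI (a₀ * P) := RI_mono hYRI (RI_mono ha'RI hx)
    -- `P a₀ f a₀ P ≤ r P a₀² P`
    have key : P * (a₀ * f * a₀) * P ≤ r • (P * (a₀ * a₀) * P) := by
      have h1 : P * (a₀ * f * a₀) * P = r • (P * (a₀ * a₀) * P) - P * X * P := by
        rw [hX]
        simp only [mul_sub, mul_smul_comm, sub_mul, smul_mul_assoc]
        abel
      have h2 : 0 ≤ P * X * P := by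
        have h3 : P * X * P = cfc (fun u => g u * u * g u) X := by
          have e1 : X = cfc (fun u : ℝ => u) X := (cfc_id' ℝ X hXsa).symm
          conv_lhs => rw [hP]
          rw [show cfc g X * X * cfc g X = cfc g X * cfc (fun u : ℝ => u) X * cfc g X by
            rw [← e1]]
          rw [cfc_mul' hg continuous_id', cfc_mul' (by fun_prop) hg]
        rw [h3]
        refine cfc_nonneg (fun u _ => ?_)
        rcases le_total u (k₀ / 2) with hu | hu
        · have : g u = 0 := max_eq_right (by linarith only [hu])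
          rw [this]; simp
        · have h4 : 0 ≤ u := by linarith only [hk, hu]
          have h5 := hg0 u
          (clear * - hu h4; positivity)
      rw [h1]
      exact sub_le_self _ h2
    have hcl : IsClosed {z : M | star z * f * z ≤ r • (star z * z)} :=
      isClosed_le' (by fun_prop) (by fun_prop)
    have hsub : RI (a₀ * P) ⊆ {z : M | star z * f * z ≤ r • (star z * z)} := by
      refine closure_minimal ?_ hcl
      rintro _ ⟨z, rfl⟩
      show star (a₀ * P * z) * f * (a₀ * P * z) ≤ r • (star (a₀ * P * z) * (a₀ * P * z))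
      have e1 : star (a₀ * P * z) * f * (a₀ * P * z) = star z * (P * (a₀ * f * a₀) * P) * z := by
        rw [star_mul, star_mul, hPsa, ha₀sa.star_eq]; noncomm_ring
      have e2 : r • (star (a₀ * P * z) * (a₀ * P * z)) =
          star z * (r • (P * (a₀ * a₀) * P)) * z := by
        rw [star_mul, star_mul, hPsa, ha₀sa.star_eq, mul_smul_comm, smul_mul_assoc]
        congr 1; noncomm_ring
      rw [e1, e2]
      exact conj_le key z
    have hxf : star x * f * x ≤ r • (star x * x) := hsub hxP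
    have hyf : y * star y ≤ (1 / (17 / 20 : ℝ)) • f :=
      aout_unit hf (by norm_num) (by norm_num) (by norm_num) hy hy1
    have h1 : star x * (y * star y) * x ≤ star x * ((1 / (17 / 20 : ℝ)) • f) * x := conj_le hyf x
    have h2 : star x * ((1 / (17 / 20 : ℝ)) • f) * x = (1 / (17 / 20 : ℝ)) • (star x * f * x) := by
      rw [mul_smul_comm, smul_mul_assoc]
    have h3 : (1 / (17 / 20 : ℝ)) • (star x * f * x) ≤
        (1 / (17 / 20 : ℝ)) • (r • (star x * x)) := rsmul_le_rsmul (by norm_num) hxf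
    have h4 : star x * y * star y * x = star x * (y * star y) * x := by noncomm_ring
    rw [h4]
    refine (h1.trans (h2.le.trans h3)).trans (le_of_eq ?_)
    rw [smul_smul]; congr 1; ring
  · -- fullness of `a'`
    intro C _ _ _ π hlt
    have hπsa : IsSelfAdjoint (π X) := hXsa.map π
    have hπP : π P = cfc g (π X) := map_cfc' π hg hXsa
    have hπY : 0 ≤ π Y := map_nonneg' π hY0
    have hYn : ‖π Y‖ < m₀ := by
      refine norm_lt_of_cfc (g := cut m₀) (cut_continuous _) hπY hm0 (t := 1) ?_ ?_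
      · intro s hs; rw [cut_eq_one hm0 hs]; simp
      · rw [← map_cfc' π (cut_continuous _) (IsSelfAdjoint.of_nonneg hY0)]; exact hlt
    -- `q = √g (X)`
    let h : ℝ → ℝ := fun u => Real.sqrt (g u)
    have hh : Continuous h := Real.continuous_sqrt.comp hg
    set q : C := cfc h (π X) with hq
    have hqsa : star q = q := star_cfc _ _
    have hqq : q * q = π P := by
      rw [hq, cfc_mul' hh hh, hπP]
      congr 1; funext u; exact Real.mul_self_sqrt (hg0 u)
    have hle : q * π X * q ≤ r • (q * (π a₀ * π a₀) * q) := by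
      have h1 : π X ≤ r • (π a₀ * π a₀) := by
        have h2 : π X = r • (π a₀ * π a₀) - π a₀ * π f * π a₀ := by
          rw [hX, map_sub, map_mul, map_mul]
          congr 1
          have : (r • (a₀ * a₀) : M) = ((r : ℂ) • (a₀ * a₀)) := by
            rw [Complex.coe_smul]
          rw [this, map_smul, map_mul, Complex.coe_smul]
        rw [h2]
        exact sub_le_self _ (sa_conj_nonneg (ha₀sa.map π) (map_nonneg' π hf))
      have h3 := sa_conj_le (z := q) (cfc_predicate _ _) h1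
      rw [mul_smul_comm, smul_mul_assoc] at h3
      exact h3
    have hqXq : q * π X * q = cfc (fun u => u * g u) (π X) := by
      have e1 : π X = cfc (fun u : ℝ => u) (π X) := (cfc_id' ℝ (π X) hπsa).symm
      rw [show q * π X * q = cfc h (π X) * cfc (fun u : ℝ => u) (π X) * cfc h (π X) by
        rw [← e1]]
      rw [cfc_mul' hh continuous_id', cfc_mul' (by fun_prop) hh]
      congr 1; funext u
      show h u * u * h u = u * g u
      have : h u * h u = g u := Real.mul_self_sqrt (hg0 u)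
      rw [← this]; ring
    have hpos : 0 ≤ q * π X * q := by
      rw [hqXq]
      refine cfc_nonneg (fun u _ => ?_)
      rcases le_total u (k₀ / 2) with hu | hu
      · have : g u = 0 := max_eq_right (by linarith only [hu])
        rw [this]; simp
      · have h4 : 0 ≤ u := by linarith only [hk, hu]
        exact mul_nonneg h4 (hg0 u)
    have hn : ‖q * π X * q‖ ≤ r * ‖π Y‖ := by
      refine (norm_mono hpos hle).trans ?_
      rw [norm_smul, Real.norm_of_nonneg hr.le]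
      refine mul_le_mul_of_nonneg_left (le_of_eq ?_) hr.le
      have e1 : q * (π a₀ * π a₀) * q = star (π a₀ * q) * (π a₀ * q) := by
        rw [star_mul, hqsa, (ha₀sa.map π).star_eq]; noncomm_ring
      have e2 : π Y = (π a₀ * q) * star (π a₀ * q) := by
        rw [hY, map_mul, map_mul, ← hqq, star_mul, hqsa, (ha₀sa.map π).star_eq]; noncomm_ring
      rw [e1, e2, CStarRing.norm_star_mul_self, CStarRing.norm_self_mul_star]
    have hn2 : ‖q * π X * q‖ < k₀ ^ 2 / 4 := by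
      refine lt_of_le_of_lt hn ?_
      calc r * ‖π Y‖ < r * m₀ := mul_lt_mul_of_pos_left hYn hr
        _ = k₀ ^ 2 / 4 := by rw [hm₀]; field_simp
    -- spectrum bound
    have hspec : ∀ u ∈ spectrum ℝ (π X), u ≤ k₀ := by
      intro u hu
      by_contra hc
      push Not at hc
      have h1 : ‖(fun u => u * g u) u‖ ≤ ‖cfc (fun u => u * g u) (π X)‖ :=
        norm_apply_le_norm_cfc (fun u => u * g u) (π X) hu (by fun_prop)
      rw [← hqXq] at h1
      have h2 : g u = u - k₀ / 2 := max_eq_left (by linarith only [hk, hc])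
      have h3 : k₀ ^ 2 / 4 ≤ ‖(fun u => u * g u) u‖ := by
        show k₀ ^ 2 / 4 ≤ ‖u * g u‖
        rw [h2, Real.norm_of_nonneg (by nlinarith only [hk, hc])]
        nlinarith only [hk, hc]
      linarith only [hn2, h1, h3]
    have h5 : π X ≤ algebraMap ℝ C k₀ := by
      rw [← cfc_id' ℝ (π X) hπsa]
      exact cfc_le_algebraMap _ _ _ hspec
    rwa [Algebra.algebraMap_eq_smul_one] at h5
  · -- fullness of `b'`
    intro C _ π hlt
    let : PartialOrder C := CStarAlgebra.spectralOrder C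
    have : StarOrderedRing C := CStarAlgebra.spectralOrderedRing C
    have hπf : 0 ≤ π f := map_nonneg' π hf
    refine (norm_lt_of_cfc (g := ramp (43 / 50) (9 / 10)) (ramp_cont _ _) hπf (by norm_num)
      (t := 1) ?_ ?_).le
    · intro s hs; rw [ramp_eq_one (by norm_num) hs]; simp
    · rw [← map_cfc' π (ramp_cont _ _) hfsa]; exact hlt

end Vale.Agent.P133
end
end

section

section

/-! P133: `stepD`. -/

open scoped ComplexOrder CStarAlgebra
open Filter Topology

namespace Vale.Agent.P133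

open K

universe u
variable {M : Type u} [CStarAlgebra M] [PartialOrder M] [StarOrderedRing M]

/-- the angle bound is monotone in `ρ` -/
lemma Ang.mono_angle {a b : M} {ρ ρ' : ℝ} (h : Ang a b ρ) (hρ : ρ ≤ ρ') : Ang a b ρ' :=
  fun x hx y hy hy1 => (h x hx y hy hy1).trans (rsmul_mono (star_mul_self_nonneg x) hρ)

/-- approximate units `cut s (a)` for an element of `RI a`. -/
lemma stepD_cut_unit {a : M} (ha : 0 ≤ a) {x : M} (hx : x ∈ RI a) {ε : ℝ} (hε : 0 < ε) :
    ∃ s₀ : ℝ, 0 < s₀ ∧ ∀ s, 0 < s → s ≤ s₀ → ‖cfc (cut s) a * x - x‖ ≤ ε := by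
  obtain ⟨y, ⟨z, hyz⟩, hz⟩ := Metric.mem_closure_iff.mp hx (ε / 4) (by positivity)
  have hyz' : y = a * z := hyz.symm
  subst hyz'
  rw [dist_eq_norm] at hz
  refine ⟨ε / (‖z‖ + 1), by positivity, fun s hs hs0 => ?_⟩
  set c : M := cfc (cut s) a with hc
  have hcn : ‖c‖ ≤ 1 := norm_cfc_le' ha zero_le_one (fun u hu _ => by
    rw [abs_of_nonneg (cut_nonneg hs hu)]; exact cut_le_one _ _)
  have h1 : ‖(1 - c) * a‖ ≤ s / 4 := by
    have hcc : Continuous (fun u => 1 - cut s u) := continuous_const.sub (cut_continuous s)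
    have h2 : (1 : M) - c = cfc (fun u => 1 - cut s u) a := by
      rw [cfc_sub (fun _ => (1 : ℝ)) (cut s) a continuousOn_const
        (cut_continuous s).continuousOn, cfc_const_one ℝ a]
    rw [h2, cfc_mul_self hcc ha]
    refine norm_cfc_le' ha (by positivity) (fun u hu _ => ?_)
    have h3 := mul_one_sub_cut_le hs hu
    rw [abs_of_nonneg (mul_nonneg hu (by linarith only [cut_le_one s u]))]
    exact h3
  have e1 : c * x - x = c * (x - a * z) - (x - a * z) - (1 - c) * a * z := by noncomm_ring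
  rw [e1]
  have h3 : ‖c * (x - a * z)‖ ≤ ε / 4 := by
    refine (norm_mul_le_of_le hcn hz.le).trans (by linarith only [])
  have h4 : ‖(1 - c) * a * z‖ ≤ ε / 4 := by
    refine (norm_mul_le_of_le h1 le_rfl).trans ?_
    have h5 : s * ‖z‖ ≤ ε := by
      calc s * ‖z‖ ≤ ε / (‖z‖ + 1) * (‖z‖ + 1) :=
            mul_le_mul hs0 (by linarith only []) (norm_nonneg _) (by (clear * - hε; positivity))
        _ = ε := by field_simp
    linarith only [h5]
  calc ‖c * (x - a * z) - (x - a * z) - (1 - c) * a * z‖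
      ≤ ‖c * (x - a * z)‖ + ‖x - a * z‖ + ‖(1 - c) * a * z‖ :=
        (norm_sub_le _ _).trans (add_le_add (norm_sub_le _ _) le_rfl)
    _ ≤ ε / 4 + ε / 4 + ε / 4 := by linarith only [hz, h3, h4]
    _ ≤ ε := by linarith only [hε]

omit [PartialOrder M] [StarOrderedRing M] in
/-- the conjugation argument -/
lemma stepD_aux {f a₀ G : M} (ha₀ : IsSelfAdjoint a₀) (ha₀1 : ‖a₀‖ ≤ 1)
    (hG : IsSelfAdjoint G) (hG1 : ‖G‖ ≤ 1)
    {ρ : ℝ} (hρ : 0 < ρ) (hρ1 : ρ ≤ 1) {κ : ℝ} (hκ : 0 ≤ κ)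
    (hκ1 : κ * (1 + ‖f‖) ≤ ρ / 400) (haG : ‖a₀ * G - G‖ ≤ κ)
    {C : Type u} [CStarAlgebra C] [PartialOrder C] [StarOrderedRing C] (π : M →⋆ₐ[ℂ] C)
    (hZ : π ((11 / 20 * ρ) • (a₀ * a₀) - a₀ * f * a₀) ≤ (ρ / 100) • (1 : C))
    {x : C} (hx : ‖x‖ ≤ ρ / 100) (hGf : π (G * f * G) ≤ (ρ / 2) • π (G * G) + x) :
    ‖π G‖ ^ 2 ≤ 3 / 8 := by
  have hmapsmul : ∀ (c : ℝ) (y : M), π (c • y) = c • π y := by
    intro c y
    have h1 : (c • y : M) = ((c : ℂ) • y) := by rw [Complex.coe_smul]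
    rw [h1, map_smul, Complex.coe_smul]
  set Z : M := (11 / 20 * ρ) • (a₀ * a₀) - a₀ * f * a₀ with hZdef
  have hGa : ‖G * a₀ - G‖ ≤ κ := by
    have : G * a₀ - G = star (a₀ * G - G) := by
      rw [star_sub, star_mul, hG.star_eq, ha₀.star_eq]
    rw [this, norm_star]; exact haG
  set w : M := G * Z * G - ((11 / 20 * ρ) • (G * G) - G * f * G) with hw
  have hwn : ‖w‖ ≤ ρ / 200 := by
    have e1 : w = (11 / 20 * ρ) • ((G * a₀) * (a₀ * G - G) + (G * a₀ - G) * G)
        - ((G * a₀) * f * (a₀ * G - G) + (G * a₀ - G) * f * G) := by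
      rw [hw, hZdef]
      simp only [mul_sub, sub_mul, mul_smul_comm, smul_mul_assoc, smul_add, smul_sub,
        ← mul_assoc]
      abel
    have hGa1 : ‖G * a₀‖ ≤ 1 := (norm_mul_le_of_le hG1 ha₀1).trans (by norm_num)
    have n1 : ‖(G * a₀) * (a₀ * G - G)‖ ≤ κ :=
      (norm_mul_le_of_le hGa1 haG).trans (by rw [one_mul])
    have n2 : ‖(G * a₀ - G) * G‖ ≤ κ :=
      (norm_mul_le_of_le hGa hG1).trans (by rw [mul_one])
    have n3 : ‖(G * a₀) * f * (a₀ * G - G)‖ ≤ ‖f‖ * κ :=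
      (norm_mul_le_of_le (norm_mul_le_of_le hGa1 le_rfl) haG).trans (by rw [one_mul])
    have n4 : ‖(G * a₀ - G) * f * G‖ ≤ κ * ‖f‖ :=
      (norm_mul_le_of_le (norm_mul_le_of_le hGa le_rfl) hG1).trans (by rw [mul_one])
    rw [e1]
    have n5 : ‖(11 / 20 * ρ) • ((G * a₀) * (a₀ * G - G) + (G * a₀ - G) * G)‖ ≤ 2 * κ := by
      rw [norm_smul, Real.norm_of_nonneg (by positivity)]
      have : ‖(G * a₀) * (a₀ * G - G) + (G * a₀ - G) * G‖ ≤ 2 * κ :=
        (norm_add_le _ _).trans (by linarith only [n1, n2])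
      have h0 : 0 ≤ ‖(G * a₀) * (a₀ * G - G) + (G * a₀ - G) * G‖ := norm_nonneg _
      nlinarith only [hκ, hρ, this, hρ1]
    have n6 : ‖(G * a₀) * f * (a₀ * G - G) + (G * a₀ - G) * f * G‖ ≤ 2 * (κ * ‖f‖) :=
      (norm_add_le _ _).trans (by linarith only [n3, n4])
    refine (norm_sub_le _ _).trans ?_
    have h7 : κ * (1 + ‖f‖) = κ + κ * ‖f‖ := by ring
    linarith only [hκ1, n5, n6]
  have hπw : ‖π w‖ ≤ ρ / 200 := (norm_map_le π w).trans hwn
  -- conjugate
  have h1 : π G * π Z * π G ≤ π G * ((ρ / 100) • (1 : C)) * π G := sa_conj_le (hG.map π) hZ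
  have h2 : π G * ((ρ / 100) • (1 : C)) * π G = (ρ / 100) • (π G * π G) := by
    rw [mul_smul_comm, smul_mul_assoc, mul_one]
  have h3 : π w = π G * π Z * π G - ((11 / 20 * ρ) • (π G * π G) - π (G * f * G)) := by
    rw [hw, map_sub, map_sub, hmapsmul, map_mul, map_mul, map_mul]
  have h4 : (ρ / 25) • (π G * π G) ≤ x - π w := by
    have h5 : π G * π Z * π G = π w + ((11 / 20 * ρ) • (π G * π G) - π (G * f * G)) := by
      rw [h3]; abel
    rw [h5, h2] at h1
    rw [map_mul π G G] at hGf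
    have h6 : π w + ((11 / 20 * ρ) • (π G * π G) - ((ρ / 2) • (π G * π G) + x)) ≤
        (ρ / 100) • (π G * π G) :=
      le_trans (add_le_add le_rfl (sub_le_sub le_rfl hGf)) h1
    have h7 : (ρ / 25) • (π G * π G) = (11 / 20 * ρ) • (π G * π G) - (ρ / 2) • (π G * π G)
        - (ρ / 100) • (π G * π G) := by
      rw [← sub_smul, ← sub_smul]; congr 1; ring
    rw [h7]
    have h8 : π w + ((11 / 20 * ρ) • (π G * π G) - ((ρ / 2) • (π G * π G) + x))
        - (ρ / 100) • (π G * π G) ≤ 0 := sub_nonpos.mpr h6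
    have h9 : (11 / 20 * ρ) • (π G * π G) - (ρ / 2) • (π G * π G)
        - (ρ / 100) • (π G * π G) - (x - π w) =
        π w + ((11 / 20 * ρ) • (π G * π G) - ((ρ / 2) • (π G * π G) + x))
        - (ρ / 100) • (π G * π G) := by abel
    rw [← sub_nonpos, h9]; exact h8
  have hGG : 0 ≤ π G * π G := by
    have := star_mul_self_nonneg (π G)
    rwa [(hG.map π).star_eq] at this
  have h5 : ‖(ρ / 25) • (π G * π G)‖ ≤ ‖x - π w‖ :=
    norm_mono (rsmul_nonneg (by positivity) hGG) h4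
  have h6 : ‖x - π w‖ ≤ ρ / 100 + ρ / 200 := (norm_sub_le _ _).trans (add_le_add hx hπw)
  rw [norm_smul, Real.norm_of_nonneg (by positivity)] at h5
  have h7 : ‖π G * π G‖ = ‖π G‖ ^ 2 := by
    rw [norm_sq_eq, (hG.map π).star_eq]
  rw [h7] at h5
  by_contra hc
  push Not at hc
  nlinarith only [h5, h6, hρ, hc]

/-- S6.8 -/
theorem stepD (A : CIdeal M) {a b : M} {ρ : ℝ} (hρ : 0 < ρ) (hρ1 : ρ ≤ 1) {δ : ℝ}
    {E E₁ a₃ f : M} (ha : PC A a) (hE : PC A E) (hE₁ : PC A E₁) (ha₃ : PC A a₃)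
    (cE : E ∈ RI a) (cE₁ : E₁ ∈ RI a) (ca₃ : a₃ ∈ RI a) (hf : 0 ≤ f) (hfA : f ∈ A)
    (cf : f ∈ RI b)
    (h1 : ∃ x : M, ‖x‖ ≤ ρ / 100 ∧ E * f * E ≤ (ρ / 2) • (E * E) + x)
    (h2 : ∃ x : M, ‖x‖ ≤ ρ / 100 ∧ E₁ * f * E₁ ≤ (ρ / 2) • (E₁ * E₁) + x)
    (h3 : ∀ (C : Type u) [CStarAlgebra C] [PartialOrder C] [StarOrderedRing C]
      (π : M →⋆ₐ[ℂ] C), ‖π E‖ ≤ 3 / 4 → ‖π E₁‖ ≤ 3 / 4 →
      ∃ x : C, ‖x‖ ≤ ρ / 100 ∧ π (a₃ * f * a₃) ≤ (ρ / 2) • π (a₃ * a₃) + x)
    (h4 : CtlLt a₃ 1 a δ) (h5 : Ctl f (9 / 10) b δ) :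
    ∃ a' b' : M, PC A a' ∧ PC A b' ∧ a' ∈ RI a ∧ b' ∈ RI b ∧ Ang a' b' (13 / 20 * ρ) ∧
      CtlLt a' 1 a δ ∧ CtlLt b' 1 b δ := by
  set κ : ℝ := ρ / 400 / (1 + ‖f‖) with hκ
  have hf1 : 0 < 1 + ‖f‖ := by (clear * -; positivity)
  have hκ0 : 0 < κ := by positivity
  have hκ1 : κ * (1 + ‖f‖) ≤ ρ / 400 := by rw [hκ]; field_simp; exact le_rfl
  obtain ⟨s₁, hs₁, hu₁⟩ := stepD_cut_unit ha.nonneg cE hκ0
  obtain ⟨s₂, hs₂, hu₂⟩ := stepD_cut_unit ha.nonneg cE₁ hκ0
  obtain ⟨s₃, hs₃, hu₃⟩ := stepD_cut_unit ha.nonneg ca₃ hκ0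
  set s : ℝ := min s₁ (min s₂ s₃) with hs
  have hs0 : 0 < s := lt_min hs₁ (lt_min hs₂ hs₃)
  have hE' := hu₁ s hs0 (min_le_left _ _)
  have hE₁' := hu₂ s hs0 ((min_le_right _ _).trans (min_le_left _ _))
  have ha₃' := hu₃ s hs0 ((min_le_right _ _).trans (min_le_right _ _))
  set a₀ : M := cfc (cut s) a with ha₀
  have hPa₀ : PC A a₀ := PC.of_cfc A ha.nonneg ha.mem (cut_continuous s) (by simp only [cut, zero_div, zero_le_one, inf_of_le_right])
    (fun u hu => cut_nonneg hs0 hu) (fun u _ => cut_le_one s u)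
  have ca₀ : a₀ ∈ RI a := cfc_mem_RI (cut_continuous s) (by simp only [cut, zero_div, zero_le_one, inf_of_le_right]) (PC.sa ha)
  obtain ⟨a', b', pa', pb', ca', cb', hang, hfa, hfb⟩ := angle_out A hf hfA hPa₀
    (r := 11 / 20 * ρ) (k₀ := ρ / 100) (by positivity) (by positivity)
  refine ⟨a', b', pa', pb', RI_mono ca₀ ca', RI_mono cf cb', hang.mono_angle (by linarith only [hρ]), ?_, ?_⟩
  · intro C _ π hlt
    let : PartialOrder C := CStarAlgebra.spectralOrder C
    have : StarOrderedRing C := CStarAlgebra.spectralOrderedRing C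
    have hZ := hfa C π hlt
    have hmapsmul : ∀ (c : ℝ) (y : M), π (c • y) = c • π y := by
      intro c y
      have h1 : (c • y : M) = ((c : ℂ) • y) := by rw [Complex.coe_smul]
      rw [h1, map_smul, Complex.coe_smul]
    have hbound : ∀ G : M, PC A G → ‖a₀ * G - G‖ ≤ κ →
        (∃ x : C, ‖x‖ ≤ ρ / 100 ∧ π (G * f * G) ≤ (ρ / 2) • π (G * G) + x) →
        ‖π G‖ ^ 2 ≤ 3 / 8 := by
      rintro G hG hGa ⟨x, hx, hx'⟩
      exact stepD_aux (PC.sa hPa₀) (PC.norm hPa₀) (PC.sa hG) (PC.norm hG) hρ hρ1 hκ0.le hκ1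
        hGa π hZ hx hx'
    have htr : ∀ G : M, (∃ x : M, ‖x‖ ≤ ρ / 100 ∧ G * f * G ≤ (ρ / 2) • (G * G) + x) →
        (∃ x : C, ‖x‖ ≤ ρ / 100 ∧ π (G * f * G) ≤ (ρ / 2) • π (G * G) + x) := by
      rintro G ⟨x, hx, hx'⟩
      refine ⟨π x, (norm_map_le π x).trans hx, ?_⟩
      have := map_mono' π hx'
      rwa [map_add, hmapsmul] at this
    have nE := hbound E hE hE' (htr E h1)
    have nE₁ := hbound E₁ hE₁ hE₁' (htr E₁ h2)
    have nE' : ‖π E‖ ≤ 3 / 4 := by nlinarith only [nE]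
    have nE₁' : ‖π E₁‖ ≤ 3 / 4 := by nlinarith only [nE₁]
    have na₃ := hbound a₃ ha₃ ha₃' (h3 C π nE' nE₁')
    have na₃' : ‖π a₃‖ < 1 := by nlinarith only [na₃]
    exact h4 C π na₃'
  · intro C _ π hlt
    exact h5 C π (hfb C π hlt)

end Vale.Agent.P133
end
end

section

section

/-! P133: T6 (one step), assembly. -/

open scoped ComplexOrder

namespace Vale.Agent.P133

universe u

variable {M : Type u} [CStarAlgebra M] [PartialOrder M] [StarOrderedRing M]

/-- adding `D * D` to `T` costs only `‖E * D‖ ^ 2` in the corner of `E`. -/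
lemma t6_corner {A : CIdeal M} {E D T f : M} {ρ κ η : ℝ} (hE : PC A E) (hD : 0 ≤ D)
    (hf : f ≤ D * D + T) (hED : ‖E * D‖ ≤ κ) {x : M} (hx : ‖x‖ ≤ η)
    (hT : E * T * E ≤ (ρ / 2) • (E * E) + x) :
    ∃ y : M, ‖y‖ ≤ η + κ ^ 2 ∧ E * f * E ≤ (ρ / 2) • (E * E) + y := by
  have hEs : IsSelfAdjoint E := PC.sa hE
  have hDs : star D = D := (IsSelfAdjoint.of_nonneg hD).star_eq
  refine ⟨x + (E * D) * star (E * D), ?_, ?_⟩
  · refine (norm_add_le _ _).trans (add_le_add hx ?_)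
    rw [← K.norm_sq_eq']
    exact pow_le_pow_left₀ (norm_nonneg _) hED 2
  · have h1 : E * f * E ≤ E * (D * D + T) * E := K.sa_conj_le hEs hf
    have h2 : E * (D * D + T) * E = E * T * E + (E * D) * star (E * D) := by
      rw [star_mul, hDs, hEs.star_eq]; noncomm_ring
    rw [h2] at h1
    refine h1.trans ?_
    rw [← add_assoc]
    exact add_le_add hT le_rfl

/-- T6 (one step). -/
theorem T6 (A : CIdeal M) (hA : PIrel A) {a b : M} (ha : PC A a) (hb : PC A b) {ρ δ : ℝ}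
    (hρ : 0 < ρ) (hρ1 : ρ ≤ 1) (hδ : 0 < δ) (hδ1 : δ < 1) (hang : Ang a b ρ) :
    ∃ a' b' : M, PC A a' ∧ PC A b' ∧
      a' ∈ cl a ∧ b' ∈ cl b ∧
      Ang a' b' (13 / 20 * ρ) ∧ CtlLt a' 1 a δ ∧ CtlLt b' 1 b δ := by
  set τ : ℝ := ρ / 200 with hτ
  set r : ℝ := τ / 8 with hr
  set ζ : ℝ := r ^ 2 / 160 with hζ
  have hτ0 : 0 < τ := by positivity
  have hr0 : 0 < r := by positivity
  have hζ0 : 0 < ζ := by positivity
  have hr1 : r ≤ 1 / 1600 := by rw [hr, hτ]; linarith only [hρ1]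
  obtain ⟨e, a₁, a₃, γ, g₁, g₂, g₃, S⟩ := setup A hA ha hb (ζ := ζ) hδ hδ1 hζ0
  obtain ⟨E, w, hE, hEw, hEg, hEx, hEf⟩ := flat A S.he S.hg₃ hτ0
  obtain ⟨E₁, w₁, hE₁, hE₁w, hE₁g, hE₁x, hE₁f⟩ := flat A S.ha₁ S.hg₁ hτ0
  have cE : E ∈ cl a := by rw [hEw]; exact mul_mem_cl S.ce w
  have cE₁ : E₁ ∈ cl a := by rw [hE₁w]; exact mul_mem_cl S.ca₁ w₁
  have hag₃ : ‖a₃ * g₃‖ ≤ ζ := by
    have h1 : a₃ * g₃ = a₃ * (a₁ * g₃) := by rw [← mul_assoc, S.aa]
    rw [h1]
    exact (PC.norm_mul_le S.ha₃ _).trans S.ag₃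
  -- stepB
  obtain ⟨T, hT0, hTA, -, cT, ⟨x₁, hx₁, hT₁⟩, ⟨x₂, hx₂, hT₂⟩, ⟨x₃, hx₃, hT₃⟩, hTf⟩ :=
    stepB A hA hρ hang hE hE₁ S.ha₃ S.hγ S.hg₁ S.hg₃ cE cE₁ S.ca₃ S.cg₁ S.cg₃ hr0
      (by linarith only [hρ1, hτ, hr]) hζ0.le le_rfl ((hEx _).trans S.eg₁) ((hE₁x _).trans S.ag₃) hag₃ S.gg
      (fun C _ π h1 h2 => norm_le_zero_iff.mp (S.fe C π (hEf C π h1 h2)))
      (fun C _ π h1 h2 => norm_le_zero_iff.mp (S.fa₁ C π (hE₁f C π h1 h2))) S.fγ
  have hx : 4 * ζ / r ≤ ρ / 400 := by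
    have : 4 * ζ / r = r / 40 := by rw [hζ]; field_simp; ring
    rw [this, hr, hτ]; linarith only [hρ]
  -- `D`
  set D : M := g₁ + g₂ + g₃ with hD
  have hD0 : 0 ≤ D := add_nonneg (add_nonneg S.hg₁.nonneg S.hg₂.nonneg) S.hg₃.nonneg
  have hDA : D ∈ A := A.add_mem (A.add_mem S.hg₁.mem S.hg₂.mem) S.hg₃.mem
  have hD3 : ‖D‖ ≤ 3 := by
    have h1 := PC.norm_le S.hg₁
    have h2 := PC.norm_le S.hg₂
    have h3 := PC.norm_le S.hg₃
    calc ‖D‖ ≤ ‖g₁‖ + ‖g₂‖ + ‖g₃‖ := (norm_add_le _ _).trans (add_le_add (norm_add_le _ _) le_rfl)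
      _ ≤ 3 := by linarith only [h1, h2, h3]
  have cD : D ∈ cl b := add_mem_cl (add_mem_cl S.cg₁ S.cg₂) S.cg₃
  have hbd : ∀ {x y z : ℝ}, x ≤ ζ → y ≤ ζ → 0 ≤ z → z ^ 2 ≤ τ / 4 → 0 ≤ x → 0 ≤ y →
      (x + y + z) ^ 2 ≤ ρ / 200 := by
    intro x y z hx hy hz hz2 hx0 hy0
    have h1 : (x + y + z) ^ 2 ≤ 2 * (x + y) ^ 2 + 2 * z ^ 2 := by nlinarith only [sq_nonneg (x + y - z)]
    have h2 : (x + y) ^ 2 ≤ (2 * ζ) ^ 2 := pow_le_pow_left₀ (by linarith only [hx0, hy0]) (by linarith only [hx, hy]) 2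
    have h3 : ζ ≤ r / 160 := by
      rw [hζ]; have : r ^ 2 ≤ r := by nlinarith only [hτ, hr, hρ, hρ1, hζ0, hδ1]
      linarith only [this]
    have h4 : (2 * ζ) ^ 2 ≤ r / 160 := by nlinarith only [hζ, h3, hδ, hδ1]
    have h5 : r = ρ / 1600 := by rw [hr, hτ]; ring
    rw [h5] at h4
    have h6 : τ = ρ / 200 := hτ
    rw [h6] at hz2
    linarith only [hρ, hz2, h1, h2, h4]
  have hED : ‖E * D‖ ^ 2 ≤ ρ / 200 := by
    have h1 : ‖E * D‖ ≤ ‖E * g₁‖ + ‖E * g₂‖ + ‖E * g₃‖ := by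
      rw [hD, mul_add, mul_add]
      exact (norm_add_le _ _).trans (add_le_add (norm_add_le _ _) le_rfl)
    refine (pow_le_pow_left₀ (norm_nonneg _) h1 2).trans ?_
    exact hbd ((hEx _).trans S.eg₁) ((hEx _).trans S.eg₂) (norm_nonneg _) hEg (norm_nonneg _)
      (norm_nonneg _)
  have hE₁D : ‖E₁ * D‖ ^ 2 ≤ ρ / 200 := by
    have h1 : ‖E₁ * D‖ ≤ ‖E₁ * g₂‖ + ‖E₁ * g₃‖ + ‖E₁ * g₁‖ := by
      have h2 : E₁ * D = E₁ * g₂ + E₁ * g₃ + E₁ * g₁ := by rw [hD]; noncomm_ring
      rw [h2]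
      exact (norm_add_le _ _).trans (add_le_add (norm_add_le _ _) le_rfl)
    refine (pow_le_pow_left₀ (norm_nonneg _) h1 2).trans ?_
    exact hbd ((hE₁x _).trans S.ag₂) ((hE₁x _).trans S.ag₃) (norm_nonneg _) hE₁g (norm_nonneg _)
      (norm_nonneg _)
  -- stepC
  obtain ⟨f, hf0, hfA, cf, hfle, hfa₃, hfD⟩ := stepC A hD0 hDA hD3 S.ha₃ hT0 hTA hE hE₁ cD cT
    hTf (ε := ρ / 400) (by positivity)
  refine stepD A hρ hρ1 ha hE hE₁ S.ha₃ cE cE₁ S.ca₃ hf0 hfA cf ?_ ?_ ?_ S.fa₃ ?_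
  · obtain ⟨y, hy, hy'⟩ := t6_corner hE hD0 hfle le_rfl (hx₁.trans hx) hT₁
    exact ⟨y, by linarith only [hρ, hED, hy], hy'⟩
  · obtain ⟨y, hy, hy'⟩ := t6_corner hE₁ hD0 hfle le_rfl (hx₂.trans hx) hT₂
    exact ⟨y, by linarith only [hρ, hE₁D, hy], hy'⟩
  · intro C _ _ _ π h1 h2
    have h3 := hfa₃ C π h1 h2
    have h4 := map_mono' π hT₃
    have hmapsmul : ∀ (c : ℝ) (y : M), π (c • y) = c • π y := by
      intro c y
      have h1 : (c • y : M) = ((c : ℂ) • y) := by rw [Complex.coe_smul]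
      rw [h1, map_smul, Complex.coe_smul]
    rw [map_add, hmapsmul] at h4
    refine ⟨π x₃ + (π (a₃ * f * a₃) - π (a₃ * T * a₃)), ?_, ?_⟩
    · have h5 : ‖π x₃‖ ≤ ρ / 400 := (norm_map_le π x₃).trans (hx₃.trans hx)
      refine (norm_add_le _ _).trans ?_
      linarith only [hρ, h3, h5]
    · have h5 : π (a₃ * f * a₃) = π (a₃ * T * a₃) + (π (a₃ * f * a₃) - π (a₃ * T * a₃)) := by
        abel
      rw [← add_assoc]
      calc π (a₃ * f * a₃) = π (a₃ * T * a₃) + (π (a₃ * f * a₃) - π (a₃ * T * a₃)) := h5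
        _ ≤ _ := add_le_add h4 le_rfl
  · intro C _ π h1
    let : PartialOrder C := CStarAlgebra.spectralOrder C
    have : StarOrderedRing C := CStarAlgebra.spectralOrderedRing C
    have h2 := hfD C π h1
    have p1 := map_nonneg' π S.hg₁.nonneg
    have p2 := map_nonneg' π S.hg₂.nonneg
    have p3 := map_nonneg' π S.hg₃.nonneg
    have h3 : π D = π g₁ + π g₂ + π g₃ := by rw [hD, map_add, map_add]
    refine S.fg C π ?_ ?_ ?_
    · refine lt_of_le_of_lt (K.norm_mono p1 ?_) h2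
      rw [h3, add_assoc]; exact le_add_of_nonneg_right (add_nonneg p2 p3)
    · refine lt_of_le_of_lt (K.norm_mono p2 ?_) h2
      rw [h3, add_comm (π g₁), add_assoc]; exact le_add_of_nonneg_right (add_nonneg p1 p3)
    · refine lt_of_le_of_lt (K.norm_mono p3 ?_) h2
      rw [h3]; exact le_add_of_nonneg_left (add_nonneg p1 p2)

end Vale.Agent.P133
end
end

section

section

open scoped ComplexOrder

namespace Vale.Agent.P133

universe u

variable {M : Type u} [CStarAlgebra M] [PartialOrder M] [StarOrderedRing M]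

theorem t7_ang_one {a b : M} : Ang a b 1 := by
  intro x _ y _ hy
  have h1 : y * star y ≤ 1 := by
    rw [← CStarAlgebra.norm_le_one_iff_of_nonneg _ (mul_star_self_nonneg y),
      CStarRing.norm_self_mul_star]
    nlinarith only [hy, norm_nonneg y]
  have h2 : star x * (y * star y) * x ≤ star x * 1 * x := star_left_conjugate_le_conjugate h1 x
  rw [one_smul]
  calc star x * y * star y * x = star x * (y * star y) * x := by noncomm_ring
    _ ≤ star x * 1 * x := h2
    _ = star x * x := by rw [mul_one]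

theorem t7_ctl_cut {a : M} (ha : 0 ≤ a) {δ : ℝ} (hδ : 0 < δ) : CtlLt (cfc (cut δ) a) 1 a δ := by
  intro C _ π h
  let _ : PartialOrder C := CStarAlgebra.spectralOrder C
  have _ : StarOrderedRing C := CStarAlgebra.spectralOrderedRing C
  have h1 : π (cfc (cut δ) a) = cfc (cut δ) (π a) :=
    map_cfc' π (cut_continuous δ) (IsSelfAdjoint.of_nonneg ha)
  rw [h1] at h
  have h2 : 0 ≤ π a := map_nonneg' π ha
  have := norm_le_of_norm_cut_lt hδ h2 h
  nlinarith only [this, hδ, h]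

/-- iteration of the one-step theorem -/
theorem t7_iterate (A : CIdeal M) (hA : PIrel A) {a b : M} (ha : PC A a) (hb : PC A b) {δ : ℝ}
    (hδ : 0 < δ) (hδ1 : δ < 1) (n : ℕ) :
    ∃ a' b' : M, PC A a' ∧ PC A b' ∧ a' ∈ cl a ∧ b' ∈ cl b ∧
      Ang a' b' ((13 / 20) ^ n) ∧ CtlLt a' 1 a δ ∧ CtlLt b' 1 b δ := by
  induction n with
  | zero =>
    refine ⟨cfc (cut δ) a, cfc (cut δ) b, cut_pc A hδ ha.nonneg ha.mem,
      cut_pc A hδ hb.nonneg hb.mem, cfc_mem_cl (cut_continuous δ) (by simp only [cut, zero_div, zero_le_one, inf_of_le_right]) ha.nonneg,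
      cfc_mem_cl (cut_continuous δ) (by simp only [cut, zero_div, zero_le_one, inf_of_le_right]) hb.nonneg, ?_, t7_ctl_cut ha.nonneg hδ,
      t7_ctl_cut hb.nonneg hδ⟩
    rw [pow_zero]
    exact t7_ang_one
  | succ n ih =>
    obtain ⟨a', b', ha', hb', ca, cb, hang, h1, h2⟩ := ih
    obtain ⟨a'', b'', ha'', hb'', ca', cb', hang', h1', h2'⟩ :=
      T6 A hA ha' hb' (ρ := (13 / 20) ^ n) (δ := 1 / 2) (by positivity)
        (pow_le_one₀ (by norm_num) (by norm_num)) (by norm_num) (by norm_num) hang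
    refine ⟨a'', b'', ha'', hb'', cl_trans ca' ca, cl_trans cb' cb, ?_, ?_, ?_⟩
    · rw [pow_succ, mul_comm]; exact hang'
    · intro C _ π h
      exact h1 C π (lt_of_le_of_lt (h1' C π h) (by norm_num))
    · intro C _ π h
      exact h2 C π (lt_of_le_of_lt (h2' C π h) (by norm_num))

/-- the square of the shifted positive part -/
noncomputable def t7_f (δ u : ℝ) : ℝ := (max 0 (u - δ)) ^ 2

theorem t7_f_continuous (δ : ℝ) : Continuous (t7_f δ) := by
  unfold t7_f; fun_prop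

/-- `k = (x - δ)_+^2` is close to `x^2` -/
theorem t7_near {x : M} (hx : 0 ≤ x) (hx1 : ‖x‖ ≤ 1) {δ : ℝ} (hδ : 0 < δ) (_hδ1 : δ < 1) :
    ‖cfc (t7_f δ) x - x ^ 2‖ ≤ 2 * δ := by
  have hs : IsSelfAdjoint x := IsSelfAdjoint.of_nonneg hx
  have h1 : x ^ 2 = cfc (fun u : ℝ => u ^ 2) x := by
    rw [cfc_pow_id x 2]
  rw [h1, ← cfc_sub (t7_f δ) (fun u : ℝ => u ^ 2) x (t7_f_continuous δ).continuousOn
    (by fun_prop)]
  refine norm_cfc_le' hx (by positivity) (fun s hs hs1 => ?_)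
  have hs1' : s ≤ 1 := hs1.trans hx1
  unfold t7_f
  rw [abs_le]
  rcases le_total 0 (s - δ) with h | h
  · rw [max_eq_right h]
    constructor <;> nlinarith only [hx1, hδ, hs1, _hδ1, hs]
  · rw [max_eq_left h]
    constructor <;> nlinarith only [h, hs, _hδ1, hδ]

theorem t7_k_nonneg {x : M} (hx : 0 ≤ x) (δ : ℝ) : 0 ≤ cfc (t7_f δ) x :=
  cfc_nonneg' hx (fun _ _ => sq_nonneg _)

theorem t7_ctl {x a' : M} (hx : 0 ≤ x) {δ : ℝ} (h : CtlLt a' 1 x δ) :
    Ctl a' 0 (cfc (t7_f δ) x) 0 := by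
  intro C _ π hπ
  let _ : PartialOrder C := CStarAlgebra.spectralOrder C
  have _ : StarOrderedRing C := CStarAlgebra.spectralOrderedRing C
  have h1 : ‖π x‖ ≤ δ := h C π (lt_of_le_of_lt hπ one_pos)
  have h2 : π (cfc (t7_f δ) x) = cfc (t7_f δ) (π x) :=
    map_cfc' π (t7_f_continuous δ) (IsSelfAdjoint.of_nonneg hx)
  rw [h2]
  refine norm_cfc_le' (map_nonneg' π hx) le_rfl (fun s _ hs1 => ?_)
  have : s - δ ≤ 0 := by linarith only [h1, hs1]
  simp only [t7_f, max_eq_left this, ne_eq, OfNat.ofNat_ne_zero, not_false_eq_true, zero_pow, abs_zero, Std.le_refl]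

/-- replacing an element `S` of `cl x` by `x * s`, `s ∈ A` -/
theorem t7_pick (A : CIdeal M) {x S : M} (hx : 0 ≤ x) (hxA : x ∈ A) (hS : S ∈ cl x) {μ : ℝ}
    (hμ : 0 < μ) : ∃ s ∈ A, ‖x * s - S‖ ≤ 2 * μ := by
  unfold cl K.RI at hS
  rw [Metric.mem_closure_iff] at hS
  obtain ⟨_, ⟨z, rfl⟩, hz⟩ := hS μ hμ
  simp only at hz
  set σ : ℝ := μ / (‖z‖ + 1) with hσ
  have hσ0 : 0 < σ := by positivity
  refine ⟨cfc (cut σ) x * z, A.right_mem (cut_pc A hσ0 hx hxA).mem z, ?_⟩
  have h1 : ‖x * (1 - cfc (cut σ) x)‖ ≤ σ / 4 := by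
    have hs : IsSelfAdjoint x := IsSelfAdjoint.of_nonneg hx
    have e1 : (1 : M) - cfc (cut σ) x = cfc (fun u => 1 - cut σ u) x := by
      rw [cfc_sub (fun _ => (1 : ℝ)) (cut σ) x (by fun_prop) (cut_continuous σ).continuousOn,
        cfc_const_one ℝ x]
    rw [e1, mul_cfc (by have := cut_continuous σ; fun_prop) hx]
    refine norm_cfc_le' hx (by (clear * - hμ; positivity)) (fun u hu _ => ?_)
    rw [abs_of_nonneg (mul_nonneg hu (by linarith only [cut_le_one σ u]))]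
    exact mul_one_sub_cut_le hσ0 hu
  have h2 : x * (cfc (cut σ) x * z) - S = (x * z - S) - x * (1 - cfc (cut σ) x) * z := by
    noncomm_ring
  rw [h2]
  have h3 : ‖x * (1 - cfc (cut σ) x) * z‖ ≤ μ := by
    calc ‖x * (1 - cfc (cut σ) x) * z‖ ≤ ‖x * (1 - cfc (cut σ) x)‖ * ‖z‖ := norm_mul_le _ _
      _ ≤ σ / 4 * (‖z‖ + 1) := by
          refine mul_le_mul h1 (by linarith only []) (norm_nonneg z) (by (clear * - hμ; positivity))
      _ = μ / 4 := by rw [hσ]; field_simp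
      _ ≤ μ := by linarith only [hμ]
  have h4 : ‖x * z - S‖ ≤ μ := by
    rw [dist_eq_norm, norm_sub_rev] at hz
    exact hz.le
  calc _ ≤ ‖x * z - S‖ + ‖x * (1 - cfc (cut σ) x) * z‖ := norm_sub_le _ _
    _ ≤ 2 * μ := by linarith only [h3, h4]

omit [PartialOrder M] [StarOrderedRing M] in
/-- comparison of products -/
theorem t7_prod {p q P Q : M} {μ : ℝ} (hμ : 0 ≤ μ) (hp : ‖p - P‖ ≤ μ) (hq : ‖q - Q‖ ≤ μ)
    (hP : ‖P‖ ≤ 2) (hQ : ‖Q‖ ≤ 2) (hμ1 : μ ≤ 1) :
    ‖star p * q - star P * Q‖ ≤ 5 * μ := by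
  have h1 : star p * q - star P * Q = star (p - P) * q + star P * (q - Q) := by
    rw [star_sub]; noncomm_ring
  have h2 : ‖q‖ ≤ 3 := by
    calc ‖q‖ = ‖(q - Q) + Q‖ := by rw [sub_add_cancel]
      _ ≤ ‖q - Q‖ + ‖Q‖ := norm_add_le _ _
      _ ≤ 3 := by linarith only [hq, hQ, hμ1]
  rw [h1]
  calc ‖star (p - P) * q + star P * (q - Q)‖ ≤ ‖star (p - P) * q‖ + ‖star P * (q - Q)‖ :=
        norm_add_le _ _
    _ ≤ ‖star (p - P)‖ * ‖q‖ + ‖star P‖ * ‖q - Q‖ := add_le_add (norm_mul_le _ _)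
        (norm_mul_le _ _)
    _ = ‖p - P‖ * ‖q‖ + ‖P‖ * ‖q - Q‖ := by rw [norm_star, norm_star]
    _ ≤ μ * 3 + 2 * μ := by
        refine add_le_add (mul_le_mul hp h2 (norm_nonneg _) hμ)
          (mul_le_mul hP hq (norm_nonneg _) (by norm_num))
    _ = 5 * μ := by ring

/-- T7 for contractions -/
theorem t7_contr (A : CIdeal M) (hA : PIrel A) {x y : M} (hx : PC A x) (hy : PC A y) {ε : ℝ}
    (hε : 0 < ε) :
    ∃ s ∈ A, ∃ t ∈ A, ‖star s * x ^ 2 * s - x ^ 2‖ < ε ∧ ‖star t * y ^ 2 * t - y ^ 2‖ < ε ∧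
      ‖star s * x * y * t‖ < ε := by
  -- constants
  set δ : ℝ := min (1 / 2) (ε / 8) with hδdef
  have hδ : 0 < δ := lt_min (by norm_num) (by positivity)
  have hδ1 : δ < 1 := lt_of_le_of_lt (min_le_left _ _) (by norm_num)
  have hδε : δ ≤ ε / 8 := min_le_right _ _
  set ν : ℝ := min 1 (ε / 4) with hνdef
  have hν : 0 < ν := lt_min one_pos (by positivity)
  have hν1 : ν ≤ 1 := min_le_left _ _
  have hνε : ν ≤ ε / 4 := min_le_right _ _
  set μ : ℝ := min (1 / 2) (ε / 40) with hμdef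
  have hμ : 0 < μ := lt_min (by norm_num) (by positivity)
  have hμ1 : μ ≤ 1 / 2 := min_le_left _ _
  have hμε : μ ≤ ε / 40 := min_le_right _ _
  obtain ⟨n, hn⟩ : ∃ n : ℕ, ((13 / 20 : ℝ)) ^ n < ε ^ 2 / 128 :=
    exists_pow_lt_of_lt_one (by positivity) (by norm_num)
  obtain ⟨a', b', ha', hb', ca, cb, hang, h1, h2⟩ := t7_iterate A hA hx hy hδ hδ1 n
  obtain ⟨S, S₂, ⟨S', hS', hSe⟩, -, hS1, -, -⟩ := T1 A hA ha'.nonneg ha'.mem
    (t7_k_nonneg hx.nonneg δ) (t7_ctl hx.nonneg h1) hν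
  obtain ⟨T, T₂, ⟨T', hT', hTe⟩, -, hT1, -, -⟩ := T1 A hA hb'.nonneg hb'.mem
    (t7_k_nonneg hy.nonneg δ) (t7_ctl hy.nonneg h2) hν
  have hSa : S ∈ cl a' := by
    rw [hSe]
    exact mul_mem_cl (cfc_mem_cl Real.continuous_sqrt Real.sqrt_zero ha'.nonneg) _
  have hTb : T ∈ cl b' := by
    rw [hTe]
    exact mul_mem_cl (cfc_mem_cl Real.continuous_sqrt Real.sqrt_zero hb'.nonneg) _
  have hSx : S ∈ cl x := cl_trans hSa ca
  have hTy : T ∈ cl y := cl_trans hTb cb
  -- norms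
  have knorm : ∀ {w : M}, PC A w → ‖cfc (t7_f δ) w‖ ≤ 1 := by
    intro w hw
    refine norm_cfc_le' hw.nonneg zero_le_one (fun u hu hu1 => ?_)
    have hu1' : u ≤ 1 := hu1.trans hw.norm_le
    unfold t7_f
    rw [abs_of_nonneg (sq_nonneg _)]
    have h0 : 0 ≤ max 0 (u - δ) := le_max_left _ _
    have h3 : max 0 (u - δ) ≤ 1 := max_le zero_le_one (by linarith only [hδ, hu1'])
    nlinarith only [h3, h0]
  have hSn : ‖star S * S‖ ≤ 2 := by
    calc ‖star S * S‖ = ‖(star S * S - cfc (t7_f δ) x) + cfc (t7_f δ) x‖ := by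
          rw [sub_add_cancel]
      _ ≤ ‖star S * S - cfc (t7_f δ) x‖ + ‖cfc (t7_f δ) x‖ := norm_add_le _ _
      _ ≤ 1 + 1 := add_le_add (hS1.le.trans hν1) (knorm hx)
      _ = 2 := by norm_num
  have hTn : ‖star T * T‖ ≤ 2 := by
    calc ‖star T * T‖ = ‖(star T * T - cfc (t7_f δ) y) + cfc (t7_f δ) y‖ := by
          rw [sub_add_cancel]
      _ ≤ ‖star T * T - cfc (t7_f δ) y‖ + ‖cfc (t7_f δ) y‖ := norm_add_le _ _
      _ ≤ 1 + 1 := add_le_add (hT1.le.trans hν1) (knorm hy)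
      _ = 2 := by norm_num
  have hS2 : ‖S‖ ≤ 2 := by
    rw [CStarRing.norm_star_mul_self] at hSn
    nlinarith only [hSn]
  have hT2 : ‖T‖ ≤ 2 := by
    rw [CStarRing.norm_star_mul_self] at hTn
    nlinarith only [hTn]
  -- the small product
  have hST : ‖star S * T‖ < ε / 2 := by
    have h3 := hang S hSa ((1 / 2 : ℝ) • T) (smul_mem_cl hTb _) (by
      rw [norm_smul, Real.norm_of_nonneg (by norm_num : (0 : ℝ) ≤ 1 / 2)]; linarith only [hT2])
    have h4 : star S * ((1 / 2 : ℝ) • T) * star ((1 / 2 : ℝ) • T) * S =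
        (1 / 4 : ℝ) • ((star S * T) * star (star S * T)) := by
      rw [star_smul, star_mul, star_star, star_trivial (1 / 2 : ℝ)]
      simp only [mul_smul_comm, smul_mul_assoc, mul_assoc, smul_smul]
      norm_num
    rw [h4] at h3
    have h5 : 0 ≤ (1 / 4 : ℝ) • ((star S * T) * star (star S * T)) :=
      smul_nonneg (by norm_num) (mul_star_self_nonneg _)
    have h6 := CStarAlgebra.norm_le_norm_of_nonneg_of_le h5 h3
    rw [norm_smul, norm_smul, Real.norm_of_nonneg (by norm_num : (0 : ℝ) ≤ 1 / 4),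
      Real.norm_of_nonneg (by positivity : (0 : ℝ) ≤ (13 / 20) ^ n),
      CStarRing.norm_self_mul_star] at h6
    have h7 : ((13 : ℝ) / 20) ^ n * ‖star S * S‖ ≤ (13 / 20) ^ n * 2 :=
      mul_le_mul_of_nonneg_left hSn (by positivity)
    have h8 : ‖star S * T‖ * ‖star S * T‖ < (ε / 2) * (ε / 2) := by nlinarith only [hn, h6, h7]
    exact lt_of_mul_self_lt_mul_self₀ (by positivity) h8
  obtain ⟨s, hs, hs1⟩ := t7_pick A hx.nonneg hx.mem hSx hμ
  obtain ⟨t, ht, ht1⟩ := t7_pick A hy.nonneg hy.mem hTy hμ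
  have main : ∀ {w r R : M}, PC A w → ‖w * r - R‖ ≤ 2 * μ → ‖R‖ ≤ 2 →
      ‖star R * R - cfc (t7_f δ) w‖ < ν → ‖star r * w ^ 2 * r - w ^ 2‖ < ε := by
    intro w r R hw h3 h4 h5
    have e1 : star r * w ^ 2 * r = star (w * r) * (w * r) := by
      rw [star_mul, hw.star_eq]; noncomm_ring
    have h6 := t7_prod (by positivity) h3 h3 h4 h4 (by linarith only [hμ1])
    have h7 := t7_near hw.nonneg hw.norm_le hδ hδ1
    rw [e1]
    calc ‖star (w * r) * (w * r) - w ^ 2‖ = ‖(star (w * r) * (w * r) - star R * R) +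
          (star R * R - cfc (t7_f δ) w) + (cfc (t7_f δ) w - w ^ 2)‖ := by
            congr 1; abel
      _ ≤ ‖star (w * r) * (w * r) - star R * R‖ + ‖star R * R - cfc (t7_f δ) w‖ +
          ‖cfc (t7_f δ) w - w ^ 2‖ := norm_add₃_le
      _ < 5 * (2 * μ) + ν + 2 * δ := by linarith only [h5, h6, h7]
      _ ≤ ε := by linarith only [hδε, hνε, hμ, hμε]
  refine ⟨s, hs, t, ht, main hx hs1 hS2 hS1, main hy ht1 hT2 hT1, ?_⟩
  have e1 : star s * x * y * t = star (x * s) * (y * t) := by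
    rw [star_mul, hx.star_eq]; noncomm_ring
  have h6 := t7_prod (by positivity) hs1 ht1 hS2 hT2 (by linarith only [hμ1])
  rw [e1]
  calc ‖star (x * s) * (y * t)‖ = ‖(star (x * s) * (y * t) - star S * T) + star S * T‖ := by
        rw [sub_add_cancel]
    _ ≤ ‖star (x * s) * (y * t) - star S * T‖ + ‖star S * T‖ := norm_add_le _ _
    _ < 5 * (2 * μ) + ε / 2 := by linarith only [hST, h6]
    _ ≤ ε := by linarith only [hμ, hμε]

/-- T7 (the relative theorem). -/
theorem T7 (A : CIdeal M) (hA : PIrel A) {x y : M} (hx : x ∈ A) (hy : y ∈ A) (hx0 : 0 ≤ x)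
    (hy0 : 0 ≤ y) {ε : ℝ} (hε : 0 < ε) :
    ∃ s ∈ A, ∃ t ∈ A, ‖star s * x ^ 2 * s - x ^ 2‖ < ε ∧ ‖star t * y ^ 2 * t - y ^ 2‖ < ε ∧
      ‖star s * x * y * t‖ < ε := by
  set N : ℝ := ‖x‖ + ‖y‖ + 1 with hN
  have hN0 : 0 < N := by (clear * -; positivity)
  have hpc : ∀ {w : M}, w ∈ A → 0 ≤ w → ‖w‖ ≤ N → PC A (N⁻¹ • w) := by
    intro w hw hw0 hwN
    refine ⟨A.smul_mem _ hw, smul_nonneg (by (clear * -; positivity)) hw0, ?_⟩
    rw [← CStarAlgebra.norm_le_one_iff_of_nonneg _ (smul_nonneg (by (clear * -; positivity)) hw0)]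
    rw [norm_smul, Real.norm_of_nonneg (by positivity), inv_mul_le_iff₀ hN0, mul_one]
    exact hwN
  obtain ⟨s, hs, t, ht, h1, h2, h3⟩ := t7_contr A hA
    (hpc hx hx0 (by linarith only [norm_nonneg y])) (hpc hy hy0 (by linarith only [norm_nonneg x]))
    (ε := ε / N ^ 2) (by (clear * - hε; positivity))
  refine ⟨s, hs, t, ht, ?_, ?_, ?_⟩
  · have e : star s * (N⁻¹ • x) ^ 2 * s - (N⁻¹ • x) ^ 2 =
        (N⁻¹ ^ 2) • (star s * x ^ 2 * s - x ^ 2) := by
      rw [smul_pow, mul_smul_comm, smul_mul_assoc, smul_sub]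
    rw [e, norm_smul, Real.norm_of_nonneg (by (clear * -; positivity)), inv_pow,
      inv_mul_lt_iff₀ (by (clear * -; positivity)), mul_div_cancel₀ _ (by (clear * -; positivity))] at h1
    exact h1
  · have e : star t * (N⁻¹ • y) ^ 2 * t - (N⁻¹ • y) ^ 2 =
        (N⁻¹ ^ 2) • (star t * y ^ 2 * t - y ^ 2) := by
      rw [smul_pow, mul_smul_comm, smul_mul_assoc, smul_sub]
    rw [e, norm_smul, Real.norm_of_nonneg (by (clear * -; positivity)), inv_pow,
      inv_mul_lt_iff₀ (by (clear * -; positivity)), mul_div_cancel₀ _ (by (clear * -; positivity))] at h2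
    exact h2
  · have e : star s * (N⁻¹ • x) * (N⁻¹ • y) * t =
        (N⁻¹ ^ 2) • (star s * x * y * t) := by
      simp only [mul_smul_comm, smul_mul_assoc, smul_smul, sq]
    rw [e, norm_smul, Real.norm_of_nonneg (by (clear * -; positivity)), inv_pow,
      inv_mul_lt_iff₀ (by (clear * -; positivity)), mul_div_cancel₀ _ (by (clear * -; positivity))] at h3
    exact h3

end Vale.Agent.P133
end

section

/-! P133: the nonunital theorem, obtained from the relative theorem `T7` applied to the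
unitization and the ideal `A` of it. -/

open scoped ComplexOrder

namespace Vale.Agent.P133

universe u

/-- A nonunital C*-algebra as a closed two-sided ideal of its unitization. -/
noncomputable def final_ideal (A : Type u) [NonUnitalCStarAlgebra A] :
    CIdeal (Unitization ℂ A) where
  toSub := LinearMap.ker (Unitization.fstHom ℂ A).toLinearMap
  mul_left' a x hx := by
    simp only [LinearMap.mem_ker, AlgHom.toLinearMap_apply, Unitization.fstHom_apply] at hx ⊢
    rw [Unitization.fst_mul, hx, mul_zero]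
  mul_right' a x hx := by
    simp only [LinearMap.mem_ker, AlgHom.toLinearMap_apply, Unitization.fstHom_apply] at hx ⊢
    rw [Unitization.fst_mul, hx, zero_mul]
  star_mem' x hx := by
    simp only [LinearMap.mem_ker, AlgHom.toLinearMap_apply, Unitization.fstHom_apply] at hx ⊢
    rw [Unitization.fst_star, hx, star_zero]
  closed' := by
    have h : Continuous (fun x : Unitization ℂ A => x.fst) := Unitization.continuous_fst
    exact isClosed_singleton.preimage h

theorem final_mem {A : Type u} [NonUnitalCStarAlgebra A] {x : Unitization ℂ A} :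
    x ∈ final_ideal A ↔ x.fst = 0 := Iff.rfl

theorem final_mem_iff {A : Type u} [NonUnitalCStarAlgebra A] {x : Unitization ℂ A} :
    x ∈ final_ideal A ↔ ∃ a : A, x = (a : Unitization ℂ A) := by
  rw [final_mem]
  constructor
  · intro h
    refine ⟨x.snd, ?_⟩
    ext
    · simpa using h
    · simp
  · rintro ⟨a, rfl⟩
    simp

theorem final_norm {A : Type u} [NonUnitalCStarAlgebra A] (a : A) :
    ‖(a : Unitization ℂ A)‖ = ‖a‖ := Unitization.norm_inr (𝕜 := ℂ) a

/-- Purely infinite C*-algebras are strongly purely infinite. -/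
theorem main (A : Type u) [NonUnitalCStarAlgebra A] [PartialOrder A] [StarOrderedRing A]
    (hpi : ∀ h : A, 0 ≤ h → ∀ ε : ℝ, 0 < ε → ∃ x y : A,
      ‖star x * h * x - h‖ < ε ∧ ‖star y * h * y - h‖ < ε ∧ ‖star x * h * y‖ < ε)
    (x y : A) (hx : 0 ≤ x) (hy : 0 ≤ y) (ε : ℝ) (hε : 0 < ε) :
    ∃ s t : A, ‖star s * (x * x) * s - x * x‖ < ε ∧ ‖star t * (y * y) * t - y * y‖ < ε ∧
      ‖star s * (x * y) * t‖ < ε := by
  have hP : PIrel (final_ideal A) := by
    intro h hh h0 ε hε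
    obtain ⟨h, rfl⟩ := final_mem_iff.1 hh
    rw [Unitization.inr_nonneg_iff] at h0
    obtain ⟨u, v, h1, h2, h3⟩ := hpi h h0 ε hε
    refine ⟨(u : Unitization ℂ A), final_mem_iff.2 ⟨u, rfl⟩, (v : Unitization ℂ A),
      final_mem_iff.2 ⟨v, rfl⟩, ?_, ?_, ?_⟩
    · rw [← Unitization.inr_star, ← Unitization.inr_mul, ← Unitization.inr_mul,
        ← Unitization.inr_sub, final_norm]
      exact h1
    · rw [← Unitization.inr_star, ← Unitization.inr_mul, ← Unitization.inr_mul,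
        ← Unitization.inr_sub, final_norm]
      exact h2
    · rw [← Unitization.inr_star, ← Unitization.inr_mul, ← Unitization.inr_mul, final_norm]
      exact h3
  obtain ⟨s, hs, t, ht, h1, h2, h3⟩ := T7 (final_ideal A) hP
    (x := (x : Unitization ℂ A)) (y := (y : Unitization ℂ A))
    (final_mem_iff.2 ⟨x, rfl⟩) (final_mem_iff.2 ⟨y, rfl⟩)
    (Unitization.inr_nonneg_iff.2 hx) (Unitization.inr_nonneg_iff.2 hy) hε
  obtain ⟨s, rfl⟩ := final_mem_iff.1 hs
  obtain ⟨t, rfl⟩ := final_mem_iff.1 ht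
  refine ⟨s, t, ?_, ?_, ?_⟩
  · rw [pow_two, ← Unitization.inr_star, ← Unitization.inr_mul, ← Unitization.inr_mul,
      ← Unitization.inr_mul, ← Unitization.inr_sub, final_norm] at h1
    exact h1
  · rw [pow_two, ← Unitization.inr_star, ← Unitization.inr_mul, ← Unitization.inr_mul,
      ← Unitization.inr_mul, ← Unitization.inr_sub, final_norm] at h2
    exact h2
  · rw [← Unitization.inr_star, ← Unitization.inr_mul, ← Unitization.inr_mul,
      ← Unitization.inr_mul, final_norm] at h3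
    rwa [mul_assoc (star s) x y] at h3

end Vale.Agent.P133
end
end
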